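import Claimed.Agent.R255.Ent.Basic

/-!
# Row 255 (BR paper), Sec. 9: the entropy calculus of the packet score      (architect helper256)   -- KEEP

PAPER-FREE finite probability on `R255/Base/Law.lean` + `R255/Ent/Basic.lean`.  ALL QUANTITIES IN NATURAL UNITS (multiply the paper's normalised
quantities by `ℓ = log (1/ε)`): the packet score (9.packet-score) times `ℓ` is `H(O) + H(O|D)/2 + (3/2) E log m_O + (1/2) E w(D)`.
"a.e." = on the points with `P.p ω ≠ 0`.

A. `p9_logsum`, `p9_logsum_cond`, `p9_entC_le_card` : the log-sum (Gibbs) inequalities of l.118-140, l.733-741.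
B. `p9_sc`, `p9_sc_split`, `p9_sc_le_of_cells`, `p9_sc_two` : the score functional; splitting a law by a label `I`
   (low-mass split l.652-656: cost `(3/2) log 2`; width bins; tagged localizers `P_t ≤ H(J) + E P_J + H(J|D)/2`).
C. `p9_coarsen` : (9.coarsen-mass).
D. `p9_unif` : the kernel "choose `T` uniformly in `TT ω`"; `p9_unif_entC` : exact conditional entropies under `P.ext (p9_unif TT)`.
E. `p9_contrib_ineq` : (9.contributor-identity).
F. the numeric cores: `p9_root_upper` (P9.5, (9.local-root-upper)), `p9_earlier_lower` (P9.5, (9.earlier-whole-score)),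
   `p9_contrib_core` (l.800-875; re-used in L10.3), `p9_trivial_core` (P9.6).
-/

set_option autoImplicit false

namespace Claimed.Agent.R255

open scoped BigOperators
open Classical
open FLaw

variable {Ω : Type} [Fintype Ω] {α β γ δ : Type}

/-! ## A. log-sum -/

/-- log-sum: `H(O) + E log m_O ≤ log ∑ m` -/
theorem p9_logsum (P : FLaw Ω) (O : Ω → α) (m : α → ℝ) (S : Finset α)
    (hS : ∀ ω, P.p ω ≠ 0 → O ω ∈ S) (hm : ∀ o ∈ S, 0 ≤ m o) (hpos : ∀ ω, P.p ω ≠ 0 → 0 < m (O ω)) :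
    P.ent O + P.ev (fun ω => Real.log (m (O ω))) ≤ Real.log (∑ o ∈ S, m o) := by
  obtain ⟨ω₀, hω₀⟩ := ent_exists_supp P
  have hM : 0 < ∑ o ∈ S, m o :=
    lt_of_lt_of_le (hpos ω₀ hω₀) (Finset.single_le_sum hm (hS ω₀ hω₀))
  set M := ∑ o ∈ S, m o with hMdef
  have hg := ent_gibbs P O (fun x => if x ∈ S then m x / M else 0)
    (fun x => by
      by_cases hx : x ∈ S
      · simp only [hx, if_true]; exact div_nonneg (hm x hx) hM.le
      · simp [hx])
    (fun S' => by
      rw [← Finset.sum_filter]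
      have h1 : ∑ x ∈ S'.filter (fun x => x ∈ S), m x / M ≤ ∑ x ∈ S, m x / M := by
        apply Finset.sum_le_sum_of_subset_of_nonneg
        · intro x hx; exact (Finset.mem_filter.1 hx).2
        · intro x hx _; exact div_nonneg (hm x hx) hM.le
      have h2 : ∑ x ∈ S, m x / M = 1 := by
        rw [← Finset.sum_div]; exact div_self hM.ne'
      rw [h2] at h1
      exact h1)
    (fun ω hω => by
      simp only [hS ω hω, if_true]
      exact div_pos (hpos ω hω) hM)
  have h2 : P.ev (fun ω => - Real.log (if O ω ∈ S then m (O ω) / M else 0))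
      = P.ev (fun ω => Real.log M - Real.log (m (O ω))) := by
    apply ent_ev_congr
    intro ω hω
    simp only [hS ω hω, if_true]
    rw [Real.log_div (hpos ω hω).ne' hM.ne']
    ring
  rw [h2, ent_ev_sub, ent_ev_const] at hg
  linarith

/-- conditional log-sum: `H(O|D) + E log m_O ≤ E log M_D` -/
theorem p9_logsum_cond (P : FLaw Ω) (O : Ω → α) (D : Ω → β) (m : α → ℝ) (S : β → Finset α)
    (hS : ∀ ω, P.p ω ≠ 0 → O ω ∈ S (D ω)) (hm : ∀ o, 0 ≤ m o)
    (hpos : ∀ ω, P.p ω ≠ 0 → 0 < m (O ω)) :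
    P.entC O D + P.ev (fun ω => Real.log (m (O ω)))
      ≤ P.ev (fun ω => Real.log (∑ o ∈ S (D ω), m o)) := by
  rw [ent_entC_eq_avg, ent_ev_tower P D (fun ω => Real.log (m (O ω))), ← ent_ev_add]
  apply ent_ev_mono
  intro ω hω
  have hfib : 0 < P.pr (fun ω' => D ω' = D ω) := ent_fib_pos P D hω
  have hsupp : ∀ ω', (P.cfib D ω).p ω' ≠ 0 → D ω' = D ω ∧ P.p ω' ≠ 0 := fun ω' h =>
    (ent_cnd_supp P (fun ω' => D ω' = D ω) hfib).1 h
  apply p9_logsum (P.cfib D ω) O m (S (D ω))
  · intro ω' h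
    obtain ⟨h1, h2⟩ := hsupp ω' h
    rw [← h1]; exact hS ω' h2
  · intro o _; exact hm o
  · intro ω' h
    exact hpos ω' (hsupp ω' h).2


/-- support bound with a size depending on the condition -/
theorem p9_entC_le_card (P : FLaw Ω) (O : Ω → α) (D : Ω → β) (S : β → Finset α)
    (hS : ∀ ω, P.p ω ≠ 0 → O ω ∈ S (D ω)) :
    P.entC O D ≤ P.ev (fun ω => Real.log ((S (D ω)).card : ℝ)) := by
  have h := p9_logsum_cond P O D (fun _ => 1) S hS (fun _ => zero_le_one) (fun _ _ => one_pos)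
  simpa [ent_ev_const] using h


/-! ## B. the score functional -/

/-- the score functional (natural units); `φ` collects `(3/2) log m_O + (1/2) w(D)` -/
noncomputable def p9_sc (P : FLaw Ω) (O : Ω → α) (D : Ω → β) (φ : Ω → ℝ) : ℝ :=
  P.ent O + 1 / 2 * P.entC O D + P.ev φ

/-- splitting a law by a label -/
theorem p9_sc_split (P : FLaw Ω) (O : Ω → α) (D : Ω → β) (φ : Ω → ℝ) (I : Ω → γ) :
    p9_sc P O D φ ≤ P.ent I + 1 / 2 * P.entC I D + P.ev (fun ω => p9_sc (P.cfib I ω) O D φ) := by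
  have h1 : P.ent O ≤ P.ent I + P.entC O I := by
    rw [← ent_pair_eq]; exact ent_le_pair_left P O I
  have h2 : P.entC O D ≤ P.entC I D + P.entC O (pair D I) := by
    have a := ent_entC_mono P (pair I O) O D (fun ω ω' _ _ h _ => (Prod.ext_iff.1 h).2)
    rw [ent_entC_chain] at a
    have b : P.entC O (pair I D) = P.entC O (pair D I) :=
      ent_entC_congr P O O (pair I D) (pair D I)
        (fun ω ω' _ _ => by simp only [pair, Prod.mk.injEq]; tauto) (fun _ _ _ _ _ => Iff.rfl)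
    linarith
  have h3 : P.ev (fun ω => p9_sc (P.cfib I ω) O D φ)
      = P.entC O I + 1 / 2 * P.entC O (pair D I) + P.ev φ := by
    unfold p9_sc
    rw [ent_ev_add, ent_ev_add, ent_ev_mul_left, ← ent_entC_eq_avg, ← ent_entC_pair_eq_avg,
      ← ent_ev_tower]
  rw [h3]
  unfold p9_sc
  linarith

theorem p9_sc_le_of_cells (P : FLaw Ω) (O : Ω → α) (D : Ω → β) (φ : Ω → ℝ) (I : Ω → γ) (a : Ω → ℝ)
    (h : ∀ ω, P.p ω ≠ 0 → p9_sc (P.cfib I ω) O D φ ≤ a ω) :
    p9_sc P O D φ ≤ P.ent I + 1 / 2 * P.entC I D + P.ev a :=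
  (p9_sc_split P O D φ I).trans (by gcongr; exact ent_ev_mono P h)

/-- the two-part split (l.652-656): cost `(3/2) log 2` -/
theorem p9_sc_two (P : FLaw Ω) (O : Ω → α) (D : Ω → β) (φ : Ω → ℝ) (E : Ω → Prop) (a : ℝ)
    (h1 : 0 < P.pr E → p9_sc (P.cnd E) O D φ ≤ a)
    (h2 : 0 < P.pr (fun ω => ¬ E ω) → p9_sc (P.cnd fun ω => ¬ E ω) O D φ ≤ a) :
    p9_sc P O D φ ≤ a + 3 / 2 * Real.log 2 := by
  have h := p9_sc_le_of_cells P O D φ E (fun _ => a) (fun ω hω => by
    by_cases hE : E ω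
    · have hc : P.cfib E ω = P.cnd E := by
        unfold FLaw.cfib
        apply ent_cnd_congr
        intro ω' _
        simp [hE]
      rw [hc]
      exact h1 ((ent_pr_pos_iff P E).2 ⟨ω, hE, hω⟩)
    · have hc : P.cfib E ω = P.cnd fun ω => ¬ E ω := by
        unfold FLaw.cfib
        apply ent_cnd_congr
        intro ω' _
        simp [hE]
      rw [hc]
      exact h2 ((ent_pr_pos_iff P _).2 ⟨ω, hE, hω⟩))
  rw [ent_ev_const] at h
  have e1 := ent_prop_le P E
  have e2 := ent_entC_le P E D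
  linarith

/-! ## C. coarsening -/

/-- (9.coarsen-mass) -/
theorem p9_coarsen {ζ : Type} (P : FLaw Ω) (O : Ω → α) (D : Ω → β) (Z : Ω → ζ)
    (hZ : ∀ ω ω', P.p ω ≠ 0 → P.p ω' ≠ 0 → O ω = O ω' → Z ω = Z ω')
    (m : α → ℝ) (hm : ∀ o, 0 ≤ m o) (hpos : ∀ ω, P.p ω ≠ 0 → 0 < m (O ω))
    (S : ζ → Finset α) (hS : ∀ ω, P.p ω ≠ 0 → O ω ∈ S (Z ω)) (mZ : ζ → ℝ)
    (hsum : ∀ ω, P.p ω ≠ 0 → ∑ o ∈ S (Z ω), m o ≤ mZ (Z ω)) :
    P.ent O + 1 / 2 * P.entC O D + 3 / 2 * P.ev (fun ω => Real.log (m (O ω)))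
      ≤ P.ent Z + 1 / 2 * P.entC Z D + 3 / 2 * P.ev (fun ω => Real.log (mZ (Z ω))) := by
  have h0 := p9_logsum_cond P O Z m S hS hm hpos
  have h0' : P.ev (fun ω => Real.log (∑ o ∈ S (Z ω), m o)) ≤ P.ev (fun ω => Real.log (mZ (Z ω))) := by
    apply ent_ev_mono
    intro ω hω
    apply Real.log_le_log _ (hsum ω hω)
    exact lt_of_lt_of_le (hpos ω hω) (Finset.single_le_sum (fun o _ => hm o) (hS ω hω))
  have h1 : P.ent O = P.ent Z + P.entC O Z := by
    rw [← ent_pair_eq, ent_pair_of_ker P O Z hZ]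
  have h2 : P.entC O D ≤ P.entC Z D + P.entC O Z := by
    have a := ent_entC_mono P (pair Z O) O D (fun ω ω' _ _ h _ => (Prod.ext_iff.1 h).2)
    rw [ent_entC_chain] at a
    have b := ent_entC_pair_le P O Z D
    linarith
  linarith


/-! ## D. the uniform kernel -/

/-- the kernel "choose `T` uniformly in `TT ω`" (uniform on everything if `TT ω = ∅`) -/
noncomputable def p9_unif {τ : Type} [Fintype τ] [Nonempty τ] (TT : Ω → Finset τ) : Ker Ω τ where
  k := fun ω t => if (TT ω).Nonempty then (if t ∈ TT ω then 1 / ((TT ω).card : ℝ) else 0)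
      else 1 / (Fintype.card τ : ℝ)
  nonneg := fun ω t => by
    split_ifs <;> positivity
  sum_one := fun ω => by
    by_cases h : (TT ω).Nonempty
    · simp only [h, if_true]
      rw [← Finset.sum_filter]
      have : (Finset.univ.filter fun t => t ∈ TT ω) = TT ω := by ext; simp
      rw [this, Finset.sum_const, nsmul_eq_mul]
      have : ((TT ω).card : ℝ) ≠ 0 := by exact_mod_cast (Finset.card_pos.2 h).ne'
      field_simp
    · simp only [h, if_false]
      rw [Finset.sum_const, nsmul_eq_mul, Finset.card_univ]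
      have : (Fintype.card τ : ℝ) ≠ 0 := by exact_mod_cast Fintype.card_ne_zero
      field_simp

omit [Fintype Ω] in
theorem p9_unif_k {τ : Type} [Fintype τ] [Nonempty τ] (TT : Ω → Finset τ) (ω : Ω)
    (h : (TT ω).Nonempty) (t : τ) :
    (p9_unif TT).k ω t = if t ∈ TT ω then 1 / ((TT ω).card : ℝ) else 0 := by
  simp [p9_unif, h]

theorem p9_ext_p {τ : Type} [Fintype τ] (P : FLaw Ω) (κ : Ker Ω τ) (x : Ω × τ) :
    (P.ext κ).p x = P.p x.1 * κ.k x.1 x.2 := rfl

/-- the support of `P.ext (p9_unif TT)` -/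
theorem p9_unif_supp {τ : Type} [Fintype τ] [Nonempty τ] (P : FLaw Ω) (TT : Ω → Finset τ)
    (hne : ∀ ω, P.p ω ≠ 0 → (TT ω).Nonempty) (x : Ω × τ) (hx : (P.ext (p9_unif TT)).p x ≠ 0) :
    P.p x.1 ≠ 0 ∧ x.2 ∈ TT x.1 := by
  rw [p9_ext_p] at hx
  have h1 : P.p x.1 ≠ 0 := left_ne_zero_of_mul hx
  have h2 := right_ne_zero_of_mul hx
  rw [p9_unif_k TT x.1 (hne _ h1)] at h2
  refine ⟨h1, ?_⟩
  by_contra h
  simp [h] at h2

theorem p9_ext_pr {τ : Type} [Fintype τ] (P : FLaw Ω) (κ : Ker Ω τ) (E : Ω × τ → Prop) :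
    (P.ext κ).pr E = ∑ ω, P.p ω * ∑ t, (if E (ω, t) then κ.k ω t else 0) := by
  unfold FLaw.pr
  rw [Fintype.sum_prod_type]
  apply Finset.sum_congr rfl
  intro ω _
  rw [Finset.mul_sum]
  apply Finset.sum_congr rfl
  intro t _
  split_ifs
  · rfl
  · simp

/-- observations of the first coordinate keep their law -/
theorem p9_ext_ent {τ : Type} [Fintype τ] (P : FLaw Ω) (κ : Ker Ω τ) (X : Ω → α) :
    (P.ext κ).ent (fun x => X x.1) = P.ent X := by
  have := ent_map_ent (P.ext κ) Prod.fst X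
  rw [ent_ext_map_fst] at this
  exact this.symm

theorem p9_ext_entC {τ : Type} [Fintype τ] (P : FLaw Ω) (κ : Ker Ω τ) (X : Ω → α) (Y : Ω → β) :
    (P.ext κ).entC (fun x => X x.1) (fun x => Y x.1) = P.entC X Y := by
  have := ent_map_entC (P.ext κ) Prod.fst X Y
  rw [ent_ext_map_fst] at this
  exact this.symm

theorem p9_ext_ev {τ : Type} [Fintype τ] (P : FLaw Ω) (κ : Ker Ω τ) (f : Ω → ℝ) :
    (P.ext κ).ev (fun x => f x.1) = P.ev f := by
  have := ent_map_ev (P.ext κ) Prod.fst f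
  rw [ent_ext_map_fst] at this
  exact this.symm

/-- exact conditional entropies under the uniform kernel: given `W` (which determines `TT` and `G`) and the label `G ω T`, the atom `T` is uniform in
the fibre of `G ω` through it -/
theorem p9_unif_entC {τ ε : Type} [Fintype τ] [Nonempty τ] (P : FLaw Ω) (TT : Ω → Finset τ)
    (hne : ∀ ω, P.p ω ≠ 0 → (TT ω).Nonempty)
    (W : Ω → β) (hW : ∀ ω ω', P.p ω ≠ 0 → P.p ω' ≠ 0 → W ω = W ω' → TT ω = TT ω')
    (G : Ω → τ → ε) (hG : ∀ ω ω', P.p ω ≠ 0 → P.p ω' ≠ 0 → W ω = W ω' → G ω = G ω') :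
    (P.ext (p9_unif TT)).entC (fun x => x.2) (pair (fun x => W x.1) (fun x => G x.1 x.2))
      = (P.ext (p9_unif TT)).ev
          (fun x => Real.log (((TT x.1).filter fun t' => G x.1 t' = G x.1 x.2).card : ℝ)) := by
  rw [ent_entC_eq_ev]
  apply ent_ev_congr
  rintro ⟨ω, t⟩ hx
  obtain ⟨hω, ht⟩ := p9_unif_supp P TT hne _ hx
  simp only at hω ht
  set N : ℝ := ((TT ω).card : ℝ) with hN
  set n : ℝ := (((TT ω).filter fun t' => G ω t' = G ω t).card : ℝ) with hn
  have hNpos : 0 < N := by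
    rw [hN]; exact_mod_cast Finset.card_pos.2 ⟨t, ht⟩
  have hnpos : 0 < n := by
    rw [hn]; exact_mod_cast Finset.card_pos.2 ⟨t, by simp [ht]⟩
  have hfW : 0 < P.fib W ω := ent_fib_pos P W hω
  -- the fibre of the condition
  have hY : (P.ext (p9_unif TT)).fib (pair (fun x => W x.1) (fun x => G x.1 x.2)) (ω, t)
      = P.fib W ω * (n / N) := by
    unfold FLaw.fib
    rw [p9_ext_pr]
    unfold FLaw.pr
    rw [Finset.sum_mul]
    apply Finset.sum_congr rfl
    intro ω' _
    by_cases hp : P.p ω' = 0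
    · simp [hp]
    by_cases hw : W ω' = W ω
    · have hT : TT ω' = TT ω := hW ω' ω hp hω hw
      have hG' : G ω' = G ω := hG ω' ω hp hω hw
      simp only [pair, Prod.mk.injEq, hw, true_and, if_true]
      congr 1
      have : ∀ t', (if G ω' t' = G ω t then (p9_unif TT).k ω' t' else 0)
          = if (t' ∈ TT ω ∧ G ω t' = G ω t) then 1 / N else 0 := by
        intro t'
        rw [p9_unif_k TT ω' (hne ω' hp), hT, hG']
        by_cases h1 : G ω t' = G ω t <;> by_cases h2 : t' ∈ TT ω <;> simp [h1, h2, hN]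
      simp only [this]
      rw [← Finset.sum_filter, Finset.sum_const, nsmul_eq_mul]
      have hset : (Finset.univ.filter fun t' => t' ∈ TT ω ∧ G ω t' = G ω t)
          = (TT ω).filter fun t' => G ω t' = G ω t := by
        ext; simp
      rw [hset, ← hn]
      ring
    · simp [pair, hw]
  -- the fibre of the pair
  have hXY : (P.ext (p9_unif TT)).fib
      (pair (fun x : Ω × τ => x.2) (pair (fun x => W x.1) (fun x => G x.1 x.2))) (ω, t)
      = P.fib W ω * (1 / N) := by
    unfold FLaw.fib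
    rw [p9_ext_pr]
    unfold FLaw.pr
    rw [Finset.sum_mul]
    apply Finset.sum_congr rfl
    intro ω' _
    by_cases hp : P.p ω' = 0
    · simp [hp]
    by_cases hw : W ω' = W ω
    · have hT : TT ω' = TT ω := hW ω' ω hp hω hw
      have hG' : G ω' = G ω := hG ω' ω hp hω hw
      simp only [pair, Prod.mk.injEq, hw, true_and, if_true]
      congr 1
      have : ∀ t', (if t' = t ∧ G ω' t' = G ω t then (p9_unif TT).k ω' t' else 0)
          = if t' = t then 1 / N else 0 := by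
        intro t'
        rw [p9_unif_k TT ω' (hne ω' hp), hT, hG']
        by_cases h1 : t' = t
        · subst h1; simp [ht, hN]
        · simp [h1]
      simp only [this]
      simp
    · simp [pair, hw]
  unfold FLaw.surC
  rw [hXY, hY]
  have : P.fib W ω * (1 / N) / (P.fib W ω * (n / N)) = n⁻¹ := by
    field_simp
  rw [this, Real.log_inv, neg_neg]


end Claimed.Agent.R255
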