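import Claimed.Agent.R255.Pk9.Score

/-!
# Row 255 (BR paper), Sec. 9: the numeric cores of P9.5 and P9.6      (architect helper256)   -- KEEP

PAPER-FREE.  NATURAL UNITS (paper's normalised quantities times `ℓ`).  The hypotheses are the outputs of the analytic layer (L9.2 Bessel / cap Bessel, L9.3 transport tails,
L9.4 cap counts = `Pk9/Greedy.lean`), the conclusions are the entropy inequalities of P9.5, P9.6 with EXPLICIT multiplicative constants `K_i` (their logs are the errors `e_pkt ℓ`).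

* `p9_contrib_ineq`  (9.contributor-identity), for any law with `H(T|Z,D) = H(T|Z)`, `C` a function of `Z` and of `D`.
* `p9_unif_entC0`    `H(T | W) = E log #TT` under the uniform kernel, for every `W` (on the first coordinate) which determines `TT`.
* `p9_root_upper`    P9.5, (9.local-root-upper): total mass `≤ K₁ N m₀`, cap masses `≤ K₂ m₀ exp (g - w)`  ⟹  root score `≤ log N + (3/2) log m₀ + g/2 + log K₁ + (log K₂)/2`.
* `p9_earlier_lower` P9.5, (9.earlier-whole-score): the earlier test `(O_r, D_r) = (site_J T, (J, E_J T))`, `J ∼` current marginal, `T` uniform in the whole class `A J`.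
* `p9_contrib_core`  l.800-875 (also the first half of L10.3): endpoint score `≤ H(T) + (3/2) log m₀ + H(T|D)/2 + H(C|T) + errors` under the contributor law.
* `p9_trivial_core`  P9.6: conditional endpoint score `≤ log #A + (3/2) log m₀ + g/2 + log #Cs + errors`.
-/

set_option autoImplicit false

namespace Claimed.Agent.R255

open scoped BigOperators
open Classical
open FLaw

variable {Ω : Type} [Fintype Ω] {α β γ δ : Type}

/-- (9.contributor-identity) -/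
theorem p9_contrib_ineq {ζ τ : Type} (Q : FLaw Ω) (Z : Ω → ζ) (D : Ω → β) (T : Ω → τ) (C : Ω → γ)
    (hCI : Q.entC T (pair Z D) = Q.entC T Z)
    (hCZ : ∀ ω ω', Q.p ω ≠ 0 → Q.p ω' ≠ 0 → Z ω = Z ω' → C ω = C ω')
    (hCD : ∀ ω ω', Q.p ω ≠ 0 → Q.p ω' ≠ 0 → D ω = D ω' → C ω = C ω') :
    Q.ent Z + 1 / 2 * Q.entC Z D + 3 / 2 * Q.entC T Z
      ≤ Q.ent T + 1 / 2 * Q.entC T D + Q.entC C T + 3 / 2 * Q.entC Z (pair T C) := by
  have h1 : Q.ent Z + Q.entC T Z = Q.ent T + Q.entC Z T := by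
    rw [← ent_pair_eq, ← ent_pair_eq, ent_pair_comm]
  have h2 : Q.entC Z D + Q.entC T (pair Z D) = Q.entC T D + Q.entC Z (pair T D) := by
    rw [← ent_entC_chain, ← ent_entC_chain]
    exact ent_entC_congr Q _ _ D D (fun _ _ _ _ => Iff.rfl)
      (fun ω ω' _ _ _ => by simp only [pair, Prod.mk.injEq]; tauto)
  have h3 : Q.entC Z T = Q.entC C T + Q.entC Z (pair T C) := by
    have a : Q.entC Z T = Q.entC (pair C Z) T :=
      ent_entC_congr Q _ _ T T (fun _ _ _ _ => Iff.rfl)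
        (fun ω ω' h h' _ => by
          simp only [pair, Prod.mk.injEq]
          exact ⟨fun e => ⟨hCZ ω ω' h h' e, e⟩, fun e => e.2⟩)
    rw [a, ent_entC_chain]
    congr 1
    exact ent_entC_congr Q _ _ _ _ (fun ω ω' _ _ => by simp only [pair, Prod.mk.injEq]; tauto)
      (fun _ _ _ _ _ => Iff.rfl)
  have h4 : Q.entC Z (pair T D) ≤ Q.entC Z (pair T C) :=
    ent_entC_anti Q Z (pair T D) (pair T C) (fun ω ω' h h' e => by
      simp only [pair, Prod.mk.injEq] at e ⊢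
      exact ⟨e.1, hCD ω ω' h h' e.2⟩)
  linarith

/-- `H(T | W) = E log #TT` under the uniform kernel -/
theorem p9_unif_entC0 {τ : Type} [Fintype τ] [Nonempty τ] (P : FLaw Ω) (TT : Ω → Finset τ)
    (hne : ∀ ω, P.p ω ≠ 0 → (TT ω).Nonempty)
    (W : Ω → β) (hW : ∀ ω ω', P.p ω ≠ 0 → P.p ω' ≠ 0 → W ω = W ω' → TT ω = TT ω') :
    (P.ext (p9_unif TT)).entC (fun x => x.2) (fun x => W x.1)
      = P.ev (fun ω => Real.log ((TT ω).card : ℝ)) := by
  have h := p9_unif_entC P TT hne W hW (fun _ _ => ()) (fun _ _ _ _ _ => rfl)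
  simp only [Finset.filter_true] at h
  rw [p9_ext_ev P (p9_unif TT) (fun ω => Real.log ((TT ω).card : ℝ))] at h
  rw [← h]
  exact ent_entC_congr _ _ _ _ _ (fun ω ω' _ _ => by simp [pair]) (fun _ _ _ _ _ => Iff.rfl)

/-- P9.5, upper bound of a root score -/
theorem p9_root_upper (P : FLaw Ω) (O : Ω → α) (D : Ω → β) (m : α → ℝ) (hm : ∀ o, 0 ≤ m o)
    (hpos : ∀ ω, P.p ω ≠ 0 → 0 < m (O ω)) (S : Finset α) (hS : ∀ ω, P.p ω ≠ 0 → O ω ∈ S)
    (SD : β → Finset α) (hSD : ∀ ω, P.p ω ≠ 0 → O ω ∈ SD (D ω)) (w : β → ℝ)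
    (N m0 g K₁ K₂ : ℝ) (hN : 0 < N) (hm0 : 0 < m0) (hK₁ : 0 < K₁) (hK₂ : 0 < K₂)
    (htot : ∑ o ∈ S, m o ≤ K₁ * N * m0)
    (hcap : ∀ ω, P.p ω ≠ 0 → ∑ o ∈ SD (D ω), m o ≤ K₂ * m0 * Real.exp (g - w (D ω))) :
    P.ent O + 1 / 2 * P.entC O D + 3 / 2 * P.ev (fun ω => Real.log (m (O ω)))
        + 1 / 2 * P.ev (fun ω => w (D ω))
      ≤ Real.log N + 3 / 2 * Real.log m0 + 1 / 2 * g + Real.log K₁ + 1 / 2 * Real.log K₂ := by
  obtain ⟨ω₀, hω₀⟩ := ent_exists_supp P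
  have h1 := p9_logsum P O m S hS (fun o _ => hm o) hpos
  have h1' : Real.log (∑ o ∈ S, m o) ≤ Real.log K₁ + Real.log N + Real.log m0 := by
    rw [← Real.log_mul hK₁.ne' hN.ne', ← Real.log_mul (mul_pos hK₁ hN).ne' hm0.ne']
    apply Real.log_le_log _ htot
    exact lt_of_lt_of_le (hpos ω₀ hω₀) (Finset.single_le_sum (fun o _ => hm o) (hS ω₀ hω₀))
  have h2 := p9_logsum_cond P O D m SD hSD hm hpos
  have h2' : P.ev (fun ω => Real.log (∑ o ∈ SD (D ω), m o))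
      ≤ P.ev (fun ω => (Real.log K₂ + Real.log m0 + g) - w (D ω)) := by
    apply ent_ev_mono
    intro ω hω
    have hp : 0 < ∑ o ∈ SD (D ω), m o :=
      lt_of_lt_of_le (hpos ω hω) (Finset.single_le_sum (fun o _ => hm o) (hSD ω hω))
    have := Real.log_le_log hp (hcap ω hω)
    rw [Real.log_mul (mul_pos hK₂ hm0).ne' (Real.exp_pos _).ne', Real.log_mul hK₂.ne' hm0.ne',
      Real.log_exp] at this
    linarith
  rw [ent_ev_sub, ent_ev_const] at h2'
  linarith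

/-- l.800-875: the contributor law.  `Z` = coarse observation (function of `O`), `C` = time label (function of `Z` and of `D`), `S z` = the sites over `z`,
`TT z` = potential contributors; (9.contributor-mass) is `hmass`; `hloc` = "`(T, C)` locates `Z` up to `K₂` possibilities". -/
theorem p9_contrib_core {τ ζ : Type} [Fintype τ] [Nonempty τ] (P : FLaw Ω)
    (O : Ω → α) (D : Ω → β) (Z : Ω → ζ) (C : Ω → γ)
    (hZO : ∀ ω ω', P.p ω ≠ 0 → P.p ω' ≠ 0 → O ω = O ω' → Z ω = Z ω')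
    (hCZ : ∀ ω ω', P.p ω ≠ 0 → P.p ω' ≠ 0 → Z ω = Z ω' → C ω = C ω')
    (hCD : ∀ ω ω', P.p ω ≠ 0 → P.p ω' ≠ 0 → D ω = D ω' → C ω = C ω')
    (m : α → ℝ) (hm : ∀ o, 0 ≤ m o) (hpos : ∀ ω, P.p ω ≠ 0 → 0 < m (O ω))
    (S : ζ → Finset α) (hS : ∀ ω, P.p ω ≠ 0 → O ω ∈ S (Z ω))
    (TT : ζ → Finset τ) (m0 K₁ K₂ : ℝ) (hm0 : 0 < m0) (hK₁ : 0 < K₁)
    (hmass : ∀ ω, P.p ω ≠ 0 → ∑ o ∈ S (Z ω), m o ≤ K₁ * m0 * ((TT (Z ω)).card : ℝ))
    (hloc : ∀ (t : τ) (c : γ), ∃ Zs : Finset ζ, (Zs.card : ℝ) ≤ K₂ ∧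
      ∀ ω, P.p ω ≠ 0 → t ∈ TT (Z ω) → C ω = c → Z ω ∈ Zs) :
    P.ent O + 1 / 2 * P.entC O D + 3 / 2 * P.ev (fun ω => Real.log (m (O ω)))
      ≤ (P.ext (p9_unif fun ω => TT (Z ω))).ent (fun x => x.2) + 3 / 2 * Real.log m0
        + 1 / 2 * (P.ext (p9_unif fun ω => TT (Z ω))).entC (fun x => x.2) (fun x => D x.1)
        + (P.ext (p9_unif fun ω => TT (Z ω))).entC (fun x => C x.1) (fun x => x.2)
        + 3 / 2 * Real.log K₁ + 3 / 2 * Real.log K₂ := by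
  set Q := P.ext (p9_unif fun ω => TT (Z ω)) with hQ
  have hcard : ∀ ω, P.p ω ≠ 0 → (0 : ℝ) < ((TT (Z ω)).card : ℝ) := by
    intro ω hω
    have h1 : 0 < ∑ o ∈ S (Z ω), m o :=
      lt_of_lt_of_le (hpos ω hω) (Finset.single_le_sum (fun o _ => hm o) (hS ω hω))
    have h2 := lt_of_lt_of_le h1 (hmass ω hω)
    by_contra h
    have h3 : ((TT (Z ω)).card : ℝ) = 0 := le_antisymm (not_lt.1 h) (Nat.cast_nonneg _)
    rw [h3, mul_zero] at h2
    exact lt_irrefl _ h2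
  have hne : ∀ ω, P.p ω ≠ 0 → (TT (Z ω)).Nonempty := fun ω hω =>
    Finset.card_pos.1 (by exact_mod_cast hcard ω hω)
  have hsupp : ∀ x, Q.p x ≠ 0 → P.p x.1 ≠ 0 ∧ x.2 ∈ TT (Z x.1) := fun x hx =>
    p9_unif_supp P (fun ω => TT (Z ω)) hne x hx
  -- a. coarsening
  have ha := p9_coarsen P O D Z hZO m hm hpos S hS (fun z => K₁ * m0 * ((TT z).card : ℝ)) hmass
  -- b.
  have hb : P.ev (fun ω => Real.log (K₁ * m0 * ((TT (Z ω)).card : ℝ)))
      = Real.log K₁ + Real.log m0 + P.ev (fun ω => Real.log ((TT (Z ω)).card : ℝ)) := by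
    rw [← ent_ev_const P (Real.log K₁ + Real.log m0), ← ent_ev_add]
    apply ent_ev_congr
    intro ω hω
    rw [Real.log_mul (mul_pos hK₁ hm0).ne' (hcard ω hω).ne', Real.log_mul hK₁.ne' hm0.ne']
  -- c.
  have hc1 : Q.entC (fun x => x.2) (fun x => Z x.1) = P.ev (fun ω => Real.log ((TT (Z ω)).card : ℝ)) :=
    p9_unif_entC0 P (fun ω => TT (Z ω)) hne Z (fun ω ω' _ _ h => by simp only [h])
  have hc2 : Q.entC (fun x => x.2) (pair (fun x => Z x.1) (fun x => D x.1))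
      = P.ev (fun ω => Real.log ((TT (Z ω)).card : ℝ)) :=
    p9_unif_entC0 P (fun ω => TT (Z ω)) hne (pair Z D) (fun ω ω' _ _ h => by
      have : Z ω = Z ω' := (Prod.ext_iff.1 h).1
      simp only [this])
  -- d.
  have hd := p9_contrib_ineq Q (fun x => Z x.1) (fun x => D x.1) (fun x => x.2) (fun x => C x.1)
    (hc2.trans hc1.symm)
    (fun x x' h h' e => hCZ _ _ (hsupp x h).1 (hsupp x' h').1 e)
    (fun x x' h h' e => hCD _ _ (hsupp x h).1 (hsupp x' h').1 e)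
  -- e.
  have he1 : Q.ent (fun x => Z x.1) = P.ent Z := p9_ext_ent P _ Z
  have he2 : Q.entC (fun x => Z x.1) (fun x => D x.1) = P.entC Z D := p9_ext_entC P _ Z D
  -- f.
  have hf : Q.entC (fun x => Z x.1) (pair (fun x => x.2) (fun x => C x.1)) ≤ Real.log K₂ := by
    apply ent_entC_le_log_nval
    intro x₀
    obtain ⟨Zs, hZs, hmem⟩ := hloc x₀.2 (C x₀.1)
    refine ⟨Zs, hZs, fun x hx _ e => ?_⟩
    have e' := Prod.ext_iff.1 e
    simp only [pair] at e'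
    exact hmem x.1 (hsupp x hx).1 (e'.1 ▸ (hsupp x hx).2) e'.2
  rw [hb] at ha
  rw [he1, he2, hc1] at hd
  linarith

/-- P9.6: the conditional endpoint score is at most `A_J + t + e_pkt` (natural units).  `A` = retained class, `G d` = potential contributors of the aperture label `d`
(an enlargement of a root cap: (9.cap-count) gives `hGc`), `Cs` = time boxes. -/
theorem p9_trivial_core {τ ζ : Type} [Fintype τ] [Nonempty τ] (P : FLaw Ω)
    (O : Ω → α) (D : Ω → β) (Z : Ω → ζ) (C : Ω → γ)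
    (hZO : ∀ ω ω', P.p ω ≠ 0 → P.p ω' ≠ 0 → O ω = O ω' → Z ω = Z ω')
    (hCZ : ∀ ω ω', P.p ω ≠ 0 → P.p ω' ≠ 0 → Z ω = Z ω' → C ω = C ω')
    (hCD : ∀ ω ω', P.p ω ≠ 0 → P.p ω' ≠ 0 → D ω = D ω' → C ω = C ω')
    (m : α → ℝ) (hm : ∀ o, 0 ≤ m o) (hpos : ∀ ω, P.p ω ≠ 0 → 0 < m (O ω))
    (S : ζ → Finset α) (hS : ∀ ω, P.p ω ≠ 0 → O ω ∈ S (Z ω))
    (TT : ζ → Finset τ) (m0 K₁ K₂ K₃ g : ℝ) (hm0 : 0 < m0) (hK₁ : 0 < K₁) (hK₃ : 0 < K₃)
    (hmass : ∀ ω, P.p ω ≠ 0 → ∑ o ∈ S (Z ω), m o ≤ K₁ * m0 * ((TT (Z ω)).card : ℝ))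
    (hloc : ∀ (t : τ) (c : γ), ∃ Zs : Finset ζ, (Zs.card : ℝ) ≤ K₂ ∧
      ∀ ω, P.p ω ≠ 0 → t ∈ TT (Z ω) → C ω = c → Z ω ∈ Zs)
    (A : Finset τ) (hA : ∀ ω, P.p ω ≠ 0 → TT (Z ω) ⊆ A)
    (w : β → ℝ) (G : β → Finset τ) (hG : ∀ ω, P.p ω ≠ 0 → TT (Z ω) ⊆ G (D ω))
    (hGc : ∀ ω, P.p ω ≠ 0 → ((G (D ω)).card : ℝ) ≤ K₃ * Real.exp (g - w (D ω)))
    (Cs : Finset γ) (hCs : ∀ ω, P.p ω ≠ 0 → C ω ∈ Cs) :
    P.ent O + 1 / 2 * P.entC O D + 3 / 2 * P.ev (fun ω => Real.log (m (O ω)))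
        + 1 / 2 * P.ev (fun ω => w (D ω))
      ≤ Real.log (A.card : ℝ) + 3 / 2 * Real.log m0 + 1 / 2 * g + Real.log (Cs.card : ℝ)
        + 3 / 2 * Real.log K₁ + 3 / 2 * Real.log K₂ + 1 / 2 * Real.log K₃ := by
  have hcore := p9_contrib_core P O D Z C hZO hCZ hCD m hm hpos S hS TT m0 K₁ K₂ hm0 hK₁ hmass hloc
  set Q := P.ext (p9_unif fun ω => TT (Z ω)) with hQ
  have hne : ∀ ω, P.p ω ≠ 0 → (TT (Z ω)).Nonempty := by
    intro ω hω
    have h1 : 0 < ∑ o ∈ S (Z ω), m o :=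
      lt_of_lt_of_le (hpos ω hω) (Finset.single_le_sum (fun o _ => hm o) (hS ω hω))
    have h2 := lt_of_lt_of_le h1 (hmass ω hω)
    by_contra h
    rw [Finset.not_nonempty_iff_eq_empty] at h
    rw [h] at h2
    simp at h2
  have hsupp : ∀ x, Q.p x ≠ 0 → P.p x.1 ≠ 0 ∧ x.2 ∈ TT (Z x.1) := fun x hx =>
    p9_unif_supp P (fun ω => TT (Z ω)) hne x hx
  have h1 : Q.ent (fun x => x.2) ≤ Real.log (A.card : ℝ) :=
    ent_le_log_card Q _ A (fun x hx => hA _ (hsupp x hx).1 (hsupp x hx).2)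
  have h2 : Q.entC (fun x => x.2) (fun x => D x.1) ≤ Real.log K₃ + g - P.ev (fun ω => w (D ω)) := by
    have a := p9_entC_le_card Q (fun x => x.2) (fun x => D x.1) G
      (fun x hx => hG _ (hsupp x hx).1 (hsupp x hx).2)
    have b : Q.ev (fun x => Real.log ((G (D x.1)).card : ℝ))
        ≤ Q.ev (fun x => (Real.log K₃ + g) - w (D x.1)) := by
      apply ent_ev_mono
      intro x hx
      have hp : (0 : ℝ) < ((G (D x.1)).card : ℝ) := by
        exact_mod_cast Finset.card_pos.2 ⟨x.2, hG _ (hsupp x hx).1 (hsupp x hx).2⟩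
      have := Real.log_le_log hp (hGc _ (hsupp x hx).1)
      rw [Real.log_mul hK₃.ne' (Real.exp_pos _).ne', Real.log_exp] at this
      linarith
    rw [ent_ev_sub, ent_ev_const, p9_ext_ev P _ (fun ω => w (D ω))] at b
    linarith
  have h3 : Q.entC (fun x => C x.1) (fun x => x.2) ≤ Real.log (Cs.card : ℝ) := by
    refine (ent_entC_le Q _ _).trans ?_
    rw [p9_ext_ent P _ C]
    exact ent_le_log_card P C Cs hCs
  linarith

/-- P9.5, the earlier test on the WHOLE classes.  `J` = tagged localizer (observation of the current law), `A j` = whole class, `E j t` = assigned cap,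
`site j t` = earlier site, `mass` = mass at the earlier sites.  The test law is `P.ext (p9_unif (A ∘ J))`, `O_r = site J T`, `D_r = (J, E J T)`.
(In the original coordinates the weight of `D_r` is `w (E) + 2 b_* ℓ`.) -/
theorem p9_earlier_lower {τ ι Cap Site : Type} [Fintype τ] [Nonempty τ] (P : FLaw Ω) (J : Ω → ι)
    (A : ι → Finset τ) (hA : ∀ ω, P.p ω ≠ 0 → (A (J ω)).Nonempty)
    (E : ι → τ → Cap) (site : ι → τ → Site) (mass : Site → ℝ) (w : Cap → ℝ) (g m0 : ι → ℝ)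
    (K₁ K₂ K₄ : ℝ) (hK₂ : 0 < K₂) (hK₄ : 0 < K₄) (hm0 : ∀ ω, P.p ω ≠ 0 → 0 < m0 (J ω))
    (hmult : ∀ o : Site, ∃ L : Finset (τ × ι), (L.card : ℝ) ≤ K₁ ∧
      ∀ ω t, P.p ω ≠ 0 → t ∈ A (J ω) → site (J ω) t = o → (t, J ω) ∈ L)
    (hfib : ∀ ω t, P.p ω ≠ 0 → t ∈ A (J ω) → Real.exp (g (J ω) - w (E (J ω) t))
      ≤ K₂ * (((A (J ω)).filter fun t' => E (J ω) t' = E (J ω) t).card : ℝ))
    (hmass : ∀ ω t, P.p ω ≠ 0 → t ∈ A (J ω) → m0 (J ω) ≤ K₄ * mass (site (J ω) t)) :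
    P.ent J + P.ev (fun ω => Real.log ((A (J ω)).card : ℝ) + 3 / 2 * Real.log (m0 (J ω)) + 1 / 2 * g (J ω))
        - (3 / 2 * Real.log K₁ + 1 / 2 * Real.log K₂ + 3 / 2 * Real.log K₄)
      ≤ (P.ext (p9_unif fun ω => A (J ω))).ent (fun x => site (J x.1) x.2)
        + 1 / 2 * (P.ext (p9_unif fun ω => A (J ω))).entC (fun x => site (J x.1) x.2)
            (pair (fun x => J x.1) (fun x => E (J x.1) x.2))
        + 3 / 2 * (P.ext (p9_unif fun ω => A (J ω))).ev (fun x => Real.log (mass (site (J x.1) x.2)))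
        + 1 / 2 * (P.ext (p9_unif fun ω => A (J ω))).ev (fun x => w (E (J x.1) x.2)) := by
  set Q := P.ext (p9_unif fun ω => A (J ω)) with hQ
  set Or : Ω × τ → Site := fun x => site (J x.1) x.2 with hOr
  set Dr : Ω × τ → ι × Cap := pair (fun x => J x.1) (fun x => E (J x.1) x.2) with hDr
  set T : Ω × τ → τ := fun x => x.2 with hT
  set J' : Ω × τ → ι := fun x => J x.1 with hJ'
  have hsupp : ∀ x, Q.p x ≠ 0 → P.p x.1 ≠ 0 ∧ x.2 ∈ A (J x.1) := fun x hx =>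
    p9_unif_supp P (fun ω => A (J ω)) hA x hx
  -- (T, J) given the site
  have hTJ : Q.entC (pair T J') Or ≤ Real.log K₁ := by
    apply ent_entC_le_log_nval
    intro x₀
    obtain ⟨L, hL, hmem⟩ := hmult (Or x₀)
    exact ⟨L, hL, fun x hx _ e => hmem x.1 x.2 (hsupp x hx).1 (hsupp x hx).2 e⟩
  -- (i)
  have h1 : Q.ent (pair T J') = P.ent J + P.ev (fun ω => Real.log ((A (J ω)).card : ℝ)) := by
    rw [ent_pair_eq, p9_ext_ent P _ J,
      p9_unif_entC0 P (fun ω => A (J ω)) hA J (fun ω ω' _ _ h => by simp only [h])]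
  -- (ii)
  have h2 : Q.ent (pair T J') ≤ Q.ent Or + Real.log K₁ := by
    have a := ent_le_pair_left Q (pair T J') Or
    have b := ent_pair_eq Q (pair T J') Or
    linarith
  -- (iii)
  have h3 : Q.entC T Dr = Q.ev (fun x => Real.log
      (((A (J x.1)).filter fun t' => E (J x.1) t' = E (J x.1) x.2).card : ℝ)) :=
    p9_unif_entC P (fun ω => A (J ω)) hA J (fun ω ω' _ _ h => by simp only [h])
      (fun ω t => E (J ω) t) (fun ω ω' _ _ h => by simp only [h])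
  -- (iv)
  have h4 : Q.entC T Dr ≤ Q.entC Or Dr + Real.log K₁ := by
    have a := ent_entC_mono Q (pair Or T) T Dr (fun ω ω' _ _ h _ => (Prod.ext_iff.1 h).2)
    rw [ent_entC_chain] at a
    have b := ent_entC_pair_le Q T Or Dr
    have c := ent_entC_mono Q (pair T J') T Or (fun ω ω' _ _ h _ => (Prod.ext_iff.1 h).1)
    linarith
  -- (v)
  have h5 : Q.ev (fun x => g (J x.1) - w (E (J x.1) x.2) - Real.log K₂)
      ≤ Q.ev (fun x => Real.log
        (((A (J x.1)).filter fun t' => E (J x.1) t' = E (J x.1) x.2).card : ℝ)) := by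
    apply ent_ev_mono
    intro x hx
    have hp : (0 : ℝ) < (((A (J x.1)).filter fun t' => E (J x.1) t' = E (J x.1) x.2).card : ℝ) := by
      exact_mod_cast Finset.card_pos.2 ⟨x.2, by simp [(hsupp x hx).2]⟩
    have := Real.log_le_log (Real.exp_pos _) (hfib x.1 x.2 (hsupp x hx).1 (hsupp x hx).2)
    rw [Real.log_exp, Real.log_mul hK₂.ne' hp.ne'] at this
    linarith
  rw [ent_ev_sub, ent_ev_sub, ent_ev_const, p9_ext_ev P _ (fun ω => g (J ω))] at h5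
  -- (vi)
  have h6 : Q.ev (fun x => Real.log (m0 (J x.1)) - Real.log K₄)
      ≤ Q.ev (fun x => Real.log (mass (Or x))) := by
    apply ent_ev_mono
    intro x hx
    have h0 := hm0 x.1 (hsupp x hx).1
    have hle := hmass x.1 x.2 (hsupp x hx).1 (hsupp x hx).2
    have hmp : 0 < mass (Or x) := by
      by_contra hneg
      have : K₄ * mass (Or x) ≤ 0 := mul_nonpos_of_nonneg_of_nonpos hK₄.le (not_lt.1 hneg)
      linarith
    have := Real.log_le_log h0 hle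
    rw [Real.log_mul hK₄.ne' hmp.ne'] at this
    linarith
  rw [ent_ev_sub, ent_ev_const, p9_ext_ev P _ (fun ω => Real.log (m0 (J ω)))] at h6
  have h7 : P.ev (fun ω => Real.log ((A (J ω)).card : ℝ) + 3 / 2 * Real.log (m0 (J ω)) + 1 / 2 * g (J ω))
      = P.ev (fun ω => Real.log ((A (J ω)).card : ℝ)) + 3 / 2 * P.ev (fun ω => Real.log (m0 (J ω)))
        + 1 / 2 * P.ev (fun ω => g (J ω)) := by
    rw [ent_ev_add, ent_ev_add, ent_ev_mul_left, ent_ev_mul_left]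
  rw [h7]
  linarith

end Claimed.Agent.R255
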