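import Claimed.Agent.R255.Pkt.Base
import Claimed.Agent.R255.Comp.Score

/-!
# R255 / Pk9 / RootNorm : ROOT-NORMALISE      (architect helper256)   -- KEEP

A GENERALISED root test `T.IsRootG Bb Mu Ke E` (root time, amplitudes `AmpC 100 Bb`, phase-space multiplicity `Mu` at spacing `ρ₀`, aperture enlargement `Ke`) has
`score γ E T ≤ K0 γ M E + C / ℓ`, `C = C(M, Bb, Mu, Ke)`      (`p9_root_norm`).
Used for the earlier tests at `r = 0` (P9.5, P9.6, P10.1) : BR (9.coeff-canonical) and "bounded multiplicities, translated lattices, bounded enlargements are allowed".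
THREE REDUCTIONS (each an explicit construction on `PTest`):
1. `T.scaleAmp a` : multiply all amplitudes by `a = c⁻¹`, `c ≥ Bb j (j ≤ M)`: the class becomes `CanC M`, masses are multiplied by `a²`: cost `3 log c / ℓ`.
2. `T.refine ε`   : adjoin to the label the index of the sub-rectangle (enlargement `1`) containing the data: at most `(Ke + 3)^4` indices over each label: cost `log ((Ke+3)^4) / (2ℓ)`.
3. colouring      : the conflict relation `|V_i - V_j| < ρ₀ ∧ |X_i - X_j| < ρ₀` on the active sites has degree `< Mu`: proper colouring with `Mu` colours (`p9_colour`),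
                    split the law by the colour of `O` (cost `(3/2) log Mu / ℓ`, `pc_split_le`); the conditional laws `T.withLaw (P.cfib I o)` charge separated families.
LEAVES (paper-free): L-RN-A `p9_mass_scale`, `p9_scale_can`, `p9_scale_score`;  L-RN-B `p9_ridx`, `p9_refine_geo`, `p9_refine_nval`;  L-RN-C `p9_colour`.
-/

set_option autoImplicit false

namespace Claimed.Agent.R255.Pkt

open MeasureTheory Claimed.Agent.R255.Osc Claimed.Agent.R255.FLaw
open scoped ContDiff BigOperators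
open Classical

/-- generalised root tests -/
structure PTest.IsRootG (T : PTest) (Bb : ℕ → ℝ) (Mu : ℕ) (Ke : ℝ) (E : PEnv) : Prop where
  t0 : T.t = 0
  amp : ∀ i, T.act i → AmpC 100 Bb (T.site i).ψ
  time : ∀ i, T.act i → (T.site i).C = 0
  mult : ∀ i, T.act i → (Finset.univ.filter (fun j => T.act j ∧ ‖(T.site j).V - (T.site i).V‖ < E.rho 0 ∧
    ‖(T.site j).X - (T.site i).X‖ < E.rho 0)).card ≤ Mu
  mpos : ∀ o, 0 < T.P.p o → 0 < E.m 0 (T.site (T.O o))
  geo : ∀ o, 0 < T.P.p o → GeoOK (T.geo (T.D o)) Ke E.ε 0 E.L (E.u 0) (T.site (T.O o))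

theorem p9_score_eq (γ : ℝ) (E : PEnv) (T : PTest) :
    score γ E T = pscore (lg E.ε) T.P T.O T.D
      (fun o => Real.log (E.m T.t (T.site (T.O o))) / lg E.ε) (fun o => wt γ (T.geo (T.D o))) := rfl

theorem p9_lg_pos {ε : ℝ} (h0 : 0 < ε) (h1 : ε < 1) : 0 < lg ε := by
  unfold lg
  apply Real.log_pos
  rw [one_div]
  exact (one_lt_inv₀ h0).2 h1

/-! ## 1. scaling of the amplitudes -/

/-- multiply the amplitude by a real constant -/
def Site.scale (s : Site) (a : ℝ) : Site := { s with ψ := fun z => (a : ℂ) * s.ψ z }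

def PTest.scaleAmp (T : PTest) (a : ℝ) : PTest := { T with site := fun i => (T.site i).scale a }

theorem p9_mass_scale (lam ρ : ℝ) (Φ : ℝ → E2 → E2 → ℝ) (f : E2 → ℂ) (s : Site) (a : ℝ) :
    mass lam ρ Φ f (s.scale a) = a ^ 2 * mass lam ρ Φ f s := by
  have h1 : pairing lam ρ Φ f (s.scale a) = (a : ℂ) * pairing lam ρ Φ f s := by
    unfold pairing Site.scale
    simp only []
    have h2 : ∀ v : E2, f v * ((a : ℂ) * s.ψ (ρ⁻¹ • (v - s.V))) * Complex.exp (Complex.I * ((lam * Φ s.C s.X v : ℝ) : ℂ))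
        = (a : ℂ) * (f v * s.ψ (ρ⁻¹ • (v - s.V)) * Complex.exp (Complex.I * ((lam * Φ s.C s.X v : ℝ) : ℂ))) := by
      intro v; ring
    simp_rw [h2]
    rw [MeasureTheory.integral_const_mul]
    ring
  unfold mass
  rw [h1, norm_mul, Complex.norm_real, mul_pow, Real.norm_eq_abs, sq_abs]

theorem p9_scale_can (M : ℕ) (Bb : ℕ → ℝ) (c : ℝ) (hc : 0 < c) (hB : ∀ j, j ≤ M → Bb j ≤ c) (ψ : E2 → ℂ)
    (h : AmpC 100 Bb ψ) : CanC M (fun z => ((c⁻¹ : ℝ) : ℂ) * ψ z) := by
  have e : (fun z => ((c⁻¹ : ℝ) : ℂ) * ψ z) = (c⁻¹ : ℝ) • ψ := by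
    funext z
    simp only [Pi.smul_apply, Complex.real_smul]
  refine ⟨contDiff_const.mul h.smooth, ?_, ?_⟩
  · intro z hz
    apply h.supp z
    intro h0
    apply hz
    simp only [h0, mul_zero]
  · intro j hj z
    rw [e, iteratedFDeriv_const_smul_apply (h.smooth.contDiffAt.of_le (by exact_mod_cast le_top)), norm_smul,
      Real.norm_eq_abs, abs_of_pos (inv_pos.2 hc)]
    have h1 := (h.bound j z).trans (hB j hj)
    rw [inv_mul_le_iff₀ hc, mul_one]
    exact h1

theorem p9_scale_score (γ : ℝ) (E : PEnv) (T : PTest) (c : ℝ) (hc : 0 < c) (h0 : 0 < E.ε) (h1 : E.ε < 1)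
    (hpos : ∀ o, 0 < T.P.p o → 0 < E.m T.t (T.site (T.O o))) :
    score γ E T = score γ E (T.scaleAmp c⁻¹) + 3 * Real.log c / lg E.ε := by
  have hl := p9_lg_pos h0 h1
  have hpp : ∀ o, T.P.p o ≠ 0 → 0 < T.P.p o := fun o h => lt_of_le_of_ne (T.P.nonneg o) (Ne.symm h)
  have e1 : score γ E (T.scaleAmp c⁻¹) = (T.P.ent T.O + T.P.entC T.O T.D / 2) / lg E.ε
    + 3 / 2 * T.P.ev (fun o => Real.log (E.m T.t ((T.site (T.O o)).scale c⁻¹)) / lg E.ε)
    + 1 / 2 * T.P.ev (fun o => wt γ (T.geo (T.D o))) := rfl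
  have e2 : T.P.ev (fun o => Real.log (E.m T.t (T.site (T.O o))) / lg E.ε)
      = T.P.ev (fun o => Real.log (E.m T.t ((T.site (T.O o)).scale c⁻¹)) / lg E.ε) + 2 * Real.log c / lg E.ε := by
    have e3 : T.P.ev (fun o => Real.log (E.m T.t (T.site (T.O o))) / lg E.ε)
        = T.P.ev (fun o => Real.log (E.m T.t ((T.site (T.O o)).scale c⁻¹)) / lg E.ε + 2 * Real.log c / lg E.ε) := by
      apply ent_ev_congr
      intro o ho
      have hm := hpos o (hpp o ho)
      have e4 : E.m T.t ((T.site (T.O o)).scale c⁻¹) = c⁻¹ ^ 2 * E.m T.t (T.site (T.O o)) := by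
        unfold PEnv.m
        exact p9_mass_scale _ _ _ _ _ _
      rw [e4, Real.log_mul (by positivity) hm.ne', Real.log_pow, Real.log_inv]
      push_cast
      ring
    rw [e3, ent_ev_add, ent_ev_const]
  rw [e1]
  unfold score
  rw [e2]
  ring

/-! ## 2. refinement of the labels -/

/-- index of the interval `[(2k-1) δ, (2k+1) δ)` containing `x` -/
noncomputable def ridx (x δ : ℝ) : ℤ := ⌊(x / δ + 1) / 2⌋

theorem p9_ridx (x δ K : ℝ) (hδ : 0 < δ) (hx : |x| ≤ K * δ) :
    |x - 2 * (ridx x δ : ℝ) * δ| ≤ 1 * δ ∧ |(ridx x δ : ℝ)| ≤ (K + 1) / 2 := by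
  have h1 : ((ridx x δ : ℤ) : ℝ) ≤ (x / δ + 1) / 2 := Int.floor_le _
  have h2 : (x / δ + 1) / 2 < (ridx x δ : ℝ) + 1 := Int.lt_floor_add_one _
  have hx' := abs_le.1 hx
  have h3 : x / δ ≤ K := by
    rw [div_le_iff₀ hδ]
    exact hx'.2
  have h4 : -K ≤ x / δ := by
    rw [le_div_iff₀ hδ]
    linarith [hx'.1]
  have h5 : x = x / δ * δ := by field_simp
  constructor
  · rw [abs_le]
    constructor
    · have : (2 * (ridx x δ : ℝ) - 1) * δ ≤ x / δ * δ := by
        apply mul_le_mul_of_nonneg_right _ hδ.le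
        linarith
      rw [← h5] at this
      linarith
    · have : x / δ * δ ≤ (2 * (ridx x δ : ℝ) + 1) * δ := by
        apply mul_le_mul_of_nonneg_right _ hδ.le
        linarith
      rw [← h5] at this
      linarith
  · rw [abs_le]
    constructor <;> linarith

/-- move the centres of the two rectangles -/
noncomputable def gshift (g : Geo) (ε t : ℝ) (k : ℤ × ℤ × ℤ × ℤ) : Geo :=
  { g with
    vc := g.vc + (2 * (k.1 : ℝ) * ε ^ g.b) • tang g.th + (2 * (k.2.1 : ℝ) * ε ^ g.a) • nrm g.th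
    xc := g.xc + (2 * (k.2.2.1 : ℝ) * ε ^ (g.b + t)) • tang g.th
      + (2 * (k.2.2.2 : ℝ) * ε ^ (g.a + t)) • nrm g.th }

/-- the indices of the sub-rectangles containing the data of a site -/
noncomputable def gidx (g : Geo) (ε t : ℝ) (s : Site) : ℤ × ℤ × ℤ × ℤ :=
  (ridx (ip (toP s.V - g.vc) (tang g.th)) (ε ^ g.b), ridx (ip (toP s.V - g.vc) (nrm g.th)) (ε ^ g.a),
   ridx (ip (toP s.X - g.xc) (tang g.th)) (ε ^ (g.b + t)),
   ridx (ip (toP s.X - g.xc) (nrm g.th)) (ε ^ (g.a + t)))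

noncomputable def PTest.refine (T : PTest) (ε : ℝ) : PTest :=
  { T with
    Γ := T.Γ × (ℤ × ℤ × ℤ × ℤ)
    D := fun o => (T.D o, gidx (T.geo (T.D o)) ε T.t (T.site (T.O o)))
    geo := fun x => gshift (T.geo x.1) ε T.t x.2 }

theorem p9_ip_shift (z c : ℝ × ℝ) (th p q : ℝ) :
    ip (z - (c + p • tang th + q • nrm th)) (tang th) = ip (z - c) (tang th) - p ∧
      ip (z - (c + p • tang th + q • nrm th)) (nrm th) = ip (z - c) (nrm th) - q := by
  have h := Real.sin_sq_add_cos_sq th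
  constructor
  · simp only [ip, tang, nrm, Prod.fst_sub, Prod.snd_sub, Prod.fst_add, Prod.snd_add, Prod.smul_fst,
      Prod.smul_snd, smul_eq_mul]
    linear_combination (-p) * h
  · simp only [ip, tang, nrm, Prod.fst_sub, Prod.snd_sub, Prod.fst_add, Prod.snd_add, Prod.smul_fst,
      Prod.smul_snd, smul_eq_mul]
    linear_combination (-q) * h

theorem p9_inRect_shift (K ε b a th : ℝ) (z c : ℝ × ℝ) (hε : 0 < ε) (h : InRect K ε b a th (z - c)) :
    InRect 1 ε b a th (z - (c + (2 * (ridx (ip (z - c) (tang th)) (ε ^ b) : ℝ) * ε ^ b) • tang th +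
      (2 * (ridx (ip (z - c) (nrm th)) (ε ^ a) : ℝ) * ε ^ a) • nrm th)) := by
  obtain ⟨e1, e2⟩ := p9_ip_shift z c th (2 * (ridx (ip (z - c) (tang th)) (ε ^ b) : ℝ) * ε ^ b)
    (2 * (ridx (ip (z - c) (nrm th)) (ε ^ a) : ℝ) * ε ^ a)
  unfold InRect
  rw [e1, e2]
  exact ⟨(p9_ridx _ _ K (Real.rpow_pos_of_pos hε _) h.1).1,
    (p9_ridx _ _ K (Real.rpow_pos_of_pos hε _) h.2).1⟩

theorem p9_refine_geo (g : Geo) (K ε t L u : ℝ) (s : Site) (hε : 0 < ε) (h : GeoOK g K ε t L u s) :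
    GeoOK (gshift g ε t (gidx g ε t s)) 1 ε t L u s := by
  obtain ⟨h1, h2, h3, h4, h5, h6, h7⟩ := h
  exact ⟨h1, h2, h3, h4, h5, p9_inRect_shift K ε g.b g.a g.th _ _ hε h6,
    p9_inRect_shift K ε (g.b + t) (g.a + t) g.th _ _ hε h7⟩

/-- the finite set of possible indices -/
theorem p9_refine_nval (K : ℝ) (hK : 0 ≤ K) : ∃ S : Finset (ℤ × ℤ × ℤ × ℤ), (S.card : ℝ) ≤ (K + 3) ^ 4 ∧
    ∀ (g : Geo) (ε t L u : ℝ) (s : Site), 0 < ε → GeoOK g K ε t L u s → gidx g ε t s ∈ S := by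
  set n : ℤ := ⌊(K + 1) / 2⌋ with hn
  have hn0 : 0 ≤ n := Int.floor_nonneg.2 (by linarith)
  have hnK : (n : ℝ) ≤ (K + 1) / 2 := Int.floor_le _
  have hmem : ∀ k : ℤ, |(k : ℝ)| ≤ (K + 1) / 2 → k ∈ Finset.Icc (-n) n := by
    intro k hk
    have hk' := abs_le.1 hk
    rw [Finset.mem_Icc]
    constructor
    · have : -k ≤ n := Int.le_floor.2 (by push_cast; linarith [hk'.1])
      linarith
    · exact Int.le_floor.2 hk'.2
  have hcard : ((Finset.Icc (-n) n).card : ℝ) ≤ K + 3 := by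
    rw [Int.card_Icc]
    have h1 : ((n + 1 - -n).toNat : ℤ) = 2 * n + 1 := by
      rw [Int.toNat_of_nonneg (by linarith)]
      ring
    have h2 : (((n + 1 - -n).toNat : ℤ) : ℝ) = 2 * (n : ℝ) + 1 := by
      rw [h1]
      push_cast
      ring
    have h3 : (((n + 1 - -n).toNat : ℤ) : ℝ) = ((n + 1 - -n).toNat : ℝ) := by norm_cast
    rw [← h3, h2]
    linarith
  refine ⟨Finset.Icc (-n) n ×ˢ Finset.Icc (-n) n ×ˢ Finset.Icc (-n) n ×ˢ Finset.Icc (-n) n, ?_, ?_⟩
  · rw [Finset.card_product, Finset.card_product, Finset.card_product]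
    push_cast
    have h0 : (0 : ℝ) ≤ ((Finset.Icc (-n) n).card : ℝ) := Nat.cast_nonneg _
    calc ((Finset.Icc (-n) n).card : ℝ) * (((Finset.Icc (-n) n).card : ℝ) *
          (((Finset.Icc (-n) n).card : ℝ) * ((Finset.Icc (-n) n).card : ℝ)))
        = ((Finset.Icc (-n) n).card : ℝ) ^ 4 := by ring
      _ ≤ (K + 3) ^ 4 := pow_le_pow_left₀ h0 hcard 4
  · intro g ε t L u s hε h
    obtain ⟨-, -, -, -, -, h6, h7⟩ := h
    simp only [gidx, Finset.mem_product]
    exact ⟨hmem _ (p9_ridx _ _ K (Real.rpow_pos_of_pos hε _) h6.1).2,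
      hmem _ (p9_ridx _ _ K (Real.rpow_pos_of_pos hε _) h6.2).2,
      hmem _ (p9_ridx _ _ K (Real.rpow_pos_of_pos hε _) h7.1).2,
      hmem _ (p9_ridx _ _ K (Real.rpow_pos_of_pos hε _) h7.2).2⟩

theorem p9_refine_score (γ : ℝ) (E : PEnv) (T : PTest) (K L u : ℝ) (hK : 0 ≤ K) (h0 : 0 < E.ε) (h1 : E.ε < 1)
    (hgeo : ∀ o, 0 < T.P.p o → GeoOK (T.geo (T.D o)) K E.ε T.t L u (T.site (T.O o))) :
    score γ E T ≤ score γ E (T.refine E.ε) + Real.log ((K + 3) ^ 4) / (2 * lg E.ε) := by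
  obtain ⟨S, hS, hmem⟩ := p9_refine_nval K hK
  have hl := p9_lg_pos h0 h1
  set I : T.Ω → ℤ × ℤ × ℤ × ℤ := fun o => gidx (T.geo (T.D o)) E.ε T.t (T.site (T.O o)) with hI
  have hpp : ∀ o, T.P.p o ≠ 0 → 0 < T.P.p o := fun o h => lt_of_le_of_ne (T.P.nonneg o) (Ne.symm h)
  -- `H(O|D) ≤ log n + H(O|D,I)`
  have h2 : T.P.entC T.O T.D ≤ Real.log ((K + 3) ^ 4) + T.P.entC T.O (pair T.D I) := by
    have a := ent_entC_mono T.P (pair I T.O) T.O T.D (fun o o' _ _ h _ => (Prod.ext_iff.1 h).2)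
    rw [ent_entC_chain] at a
    have b : T.P.entC T.O (pair I T.D) = T.P.entC T.O (pair T.D I) :=
      ent_entC_congr T.P T.O T.O (pair I T.D) (pair T.D I)
        (fun o o' _ _ => by simp only [pair, Prod.mk.injEq]; tauto) (fun _ _ _ _ _ => Iff.rfl)
    have c : T.P.entC I T.D ≤ Real.log ((K + 3) ^ 4) :=
      ent_entC_le_log_nval T.P I T.D (fun _ => ⟨S, hS, fun o ho _ _ => hmem _ _ _ _ _ _ h0 (hgeo o (hpp o ho))⟩)
    linarith
  have h3 : score γ E (T.refine E.ε)
      = (T.P.ent T.O + T.P.entC T.O (pair T.D I) / 2) / lg E.ε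
        + 3 / 2 * T.P.ev (fun o => Real.log (E.m T.t (T.site (T.O o))) / lg E.ε)
        + 1 / 2 * T.P.ev (fun o => wt γ (T.geo (T.D o))) := rfl
  rw [h3]
  unfold score
  have h4 : (T.P.ent T.O + T.P.entC T.O T.D / 2) / lg E.ε
      ≤ (T.P.ent T.O + T.P.entC T.O (pair T.D I) / 2) / lg E.ε
        + Real.log ((K + 3) ^ 4) / (2 * lg E.ε) := by
    have e : (T.P.ent T.O + T.P.entC T.O (pair T.D I) / 2) / lg E.ε
        + Real.log ((K + 3) ^ 4) / (2 * lg E.ε)
        = (T.P.ent T.O + (Real.log ((K + 3) ^ 4) + T.P.entC T.O (pair T.D I)) / 2) / lg E.ε := by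
      field_simp
      ring
    rw [e]
    apply div_le_div_of_nonneg_right _ hl.le
    linarith
  linarith

/-! ## 3. colouring -/

/-- greedy colouring of the subset `A` -/
theorem p9_colour {ι : Type} [Fintype ι] (A : ι → Prop) (R : ι → ι → Prop) (hsymm : ∀ i j, R i j → R j i)
    (hrefl : ∀ i, R i i) (Mu : ℕ) (hdeg : ∀ i, A i → (Finset.univ.filter (fun j => A j ∧ R j i)).card ≤ Mu) :
    ∃ col : ι → ℕ, (∀ i, A i → col i < Mu) ∧ ∀ i j, A i → A j → i ≠ j → R i j → col i ≠ col j := by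
  have key : ∀ s : Finset ι, ∃ col : ι → ℕ, (∀ i ∈ s, A i → col i < Mu) ∧
      ∀ i ∈ s, ∀ j ∈ s, A i → A j → i ≠ j → R i j → col i ≠ col j := by
    intro s
    induction s using Finset.induction_on with
    | empty => exact ⟨fun _ => 0, by simp, by simp⟩
    | insert a s ha ih =>
      obtain ⟨col, h1, h2⟩ := ih
      by_cases hA : A a
      · -- colours used by the neighbours of `a` in `s`
        set N : Finset ι := s.filter (fun j => A j ∧ R j a) with hN
        have hNlt : N.card < Mu := by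
          have hsub : N ⊂ Finset.univ.filter (fun j => A j ∧ R j a) := by
            rw [Finset.ssubset_iff_of_subset]
            · refine ⟨a, by simp [hA, hrefl], ?_⟩
              intro h
              exact ha (Finset.mem_filter.1 h).1
            · intro j hj
              exact Finset.mem_filter.2 ⟨Finset.mem_univ _, (Finset.mem_filter.1 hj).2⟩
          exact lt_of_lt_of_le (Finset.card_lt_card hsub) (hdeg a hA)
        have hlt : (N.image col).card < (Finset.range Mu).card := by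
          rw [Finset.card_range]
          exact lt_of_le_of_lt Finset.card_image_le hNlt
        obtain ⟨c, hc, hcN⟩ := Finset.exists_mem_notMem_of_card_lt_card hlt
        have hcN' : ∀ j ∈ s, A j → R j a → col j ≠ c := by
          intro j hj hAj hR h
          exact hcN (Finset.mem_image.2 ⟨j, Finset.mem_filter.2 ⟨hj, hAj, hR⟩, h⟩)
        have hne : ∀ j ∈ s, j ≠ a := fun j hj h => ha (h ▸ hj)
        refine ⟨Function.update col a c, ?_, ?_⟩
        · intro i hi hAi
          rcases Finset.mem_insert.1 hi with rfl | hi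
          · rw [Function.update_self]
            exact Finset.mem_range.1 hc
          · rw [Function.update_of_ne (hne i hi)]
            exact h1 i hi hAi
        · intro i hi j hj hAi hAj hij hR
          rcases Finset.mem_insert.1 hi with hia | hi'
          · rcases Finset.mem_insert.1 hj with hja | hj'
            · exact absurd (hia.trans hja.symm) hij
            · rw [hia, Function.update_self, Function.update_of_ne (hne j hj')]
              exact (hcN' j hj' hAj (hsymm _ _ (hia ▸ hR))).symm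
          · rcases Finset.mem_insert.1 hj with hja | hj'
            · rw [hja, Function.update_self, Function.update_of_ne (hne i hi')]
              exact hcN' i hi' hAi (hja ▸ hR)
            · rw [Function.update_of_ne (hne i hi'), Function.update_of_ne (hne j hj')]
              exact h2 i hi' j hj' hAi hAj hij hR
      · refine ⟨col, ?_, ?_⟩
        · intro i hi hAi
          rcases Finset.mem_insert.1 hi with rfl | hi
          · exact absurd hAi hA
          · exact h1 i hi hAi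
        · intro i hi j hj hAi hAj hij hR
          rcases Finset.mem_insert.1 hi with hia | hi'
          · exact absurd (hia ▸ hAi) hA
          · rcases Finset.mem_insert.1 hj with hja | hj'
            · exact absurd (hja ▸ hAj) hA
            · exact h2 i hi' j hj' hAi hAj hij hR
  obtain ⟨col, h1, h2⟩ := key Finset.univ
  exact ⟨col, fun i hi => h1 i (Finset.mem_univ _) hi,
    fun i j hi hj hij hR => h2 i (Finset.mem_univ _) j (Finset.mem_univ _) hi hj hij hR⟩

/-! ## 4. assembly -/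

/-- **ROOT-NORMALISE** -/
theorem p9_root_norm (γ : ℝ) (M : ℕ) (Bb : ℕ → ℝ) (Mu : ℕ) (Ke : ℝ) (hKe : 0 ≤ Ke) :
    ∃ C : ℝ, 0 ≤ C ∧ ∀ (E : PEnv) (T : PTest), 0 < E.ε → E.ε < 1 → BddAbove (K0set γ M E) →
      T.IsRootG Bb Mu Ke E → score γ E T ≤ K0 γ M E + C / lg E.ε := by
  set c : ℝ := 1 + ∑ j ∈ Finset.range (M + 1), |Bb j| with hc
  have hsum : 0 ≤ ∑ j ∈ Finset.range (M + 1), |Bb j| := Finset.sum_nonneg fun _ _ => abs_nonneg _
  have hc1 : 1 ≤ c := by linarith
  have hc0 : 0 < c := by linarith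
  have hcB : ∀ j, j ≤ M → Bb j ≤ c := by
    intro j hj
    have h1 : |Bb j| ≤ ∑ j ∈ Finset.range (M + 1), |Bb j| :=
      Finset.single_le_sum (f := fun j => |Bb j|) (fun _ _ => abs_nonneg _)
        (Finset.mem_range.2 (Nat.lt_succ_of_le hj))
    have h2 := le_abs_self (Bb j)
    linarith
  have hn1 : (1 : ℝ) ≤ (Ke + 3) ^ 4 := one_le_pow₀ (by linarith)
  refine ⟨3 * Real.log c + Real.log ((Ke + 3) ^ 4) / 2 + 3 / 2 * Real.log (Mu : ℝ), ?_, ?_⟩
  · have a := Real.log_nonneg hc1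
    have b := Real.log_nonneg hn1
    have d := Real.log_natCast_nonneg Mu
    positivity
  intro E T h0 h1 hbdd hT
  have hl := p9_lg_pos h0 h1
  have hρ : 0 < E.rho 0 := Real.rpow_pos_of_pos h0 _
  have hpp : ∀ o, T.P.p o ≠ 0 → 0 < T.P.p o := fun o h => lt_of_le_of_ne (T.P.nonneg o) (Ne.symm h)
  -- 1. scaling
  have hmpos : ∀ o, 0 < T.P.p o → 0 < E.m T.t (T.site (T.O o)) := by
    intro o ho; rw [hT.t0]; exact hT.mpos o ho
  have s1 := p9_scale_score γ E T c hc0 h0 h1 hmpos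
  -- 2. refinement
  have hgeo1 : ∀ o, 0 < T.P.p o → GeoOK (T.geo (T.D o)) Ke E.ε T.t E.L (E.u 0)
      ((T.site (T.O o)).scale c⁻¹) := by
    intro o ho
    have h := hT.geo o ho
    have ht := hT.t0
    rw [ht]
    exact h
  have s2 := p9_refine_score γ E (T.scaleAmp c⁻¹) Ke E.L (E.u 0) hKe h0 h1 hgeo1
  -- 3. colouring
  obtain ⟨col, hcolM, hcol⟩ := p9_colour (ι := T.ι) T.act
    (fun i j => ‖(T.site i).V - (T.site j).V‖ < E.rho 0 ∧ ‖(T.site i).X - (T.site j).X‖ < E.rho 0)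
    (fun i j h => by rw [norm_sub_rev (T.site j).V, norm_sub_rev (T.site j).X]; exact h)
    (fun i => by simp [hρ]) Mu (fun i hi => by convert hT.mult i hi)
  let D₂ : T.Ω → T.Γ × (ℤ × ℤ × ℤ × ℤ) :=
    fun o => (T.D o, gidx (T.geo (T.D o)) E.ε T.t ((T.site (T.O o)).scale c⁻¹))
  let lm₂ : T.Ω → ℝ := fun o => Real.log (E.m T.t ((T.site (T.O o)).scale c⁻¹)) / lg E.ε
  let w₂ : T.Ω → ℝ := fun o => wt γ (gshift (T.geo (D₂ o).1) E.ε T.t (D₂ o).2)
  have e2 : score γ E ((T.scaleAmp c⁻¹).refine E.ε) = pscore (lg E.ε) T.P T.O D₂ lm₂ w₂ := rfl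
  let I : T.Ω → ℕ := fun o => col (T.O o)
  have s3 := pc_split_le hl T.P T.O D₂ lm₂ w₂ I
  have hentI : T.P.ent I ≤ Real.log (Mu : ℝ) := by
    have := ent_le_log_card T.P I (Finset.range Mu)
      (fun o ho => Finset.mem_range.2 (hcolM _ ⟨o, hpp o ho, rfl⟩))
    simpa using this
  have hcell : T.P.ev (fun o => pscore (lg E.ε) (T.P.cfib I o) T.O D₂ lm₂ w₂)
      ≤ T.P.ev (fun _ => K0 γ M E) := by
    apply ent_ev_mono
    intro o ho
    have hfib : 0 < T.P.pr (fun o' => I o' = I o) := ent_fib_pos T.P I ho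
    have hsupp : ∀ o', (T.P.cfib I o).p o' ≠ 0 → I o' = I o ∧ T.P.p o' ≠ 0 := fun o' h =>
      (ent_cnd_supp T.P (fun o' => I o' = I o) hfib).1 h
    have e : score γ E (((T.scaleAmp c⁻¹).refine E.ε).withLaw (T.P.cfib I o))
        = pscore (lg E.ε) (T.P.cfib I o) T.O D₂ lm₂ w₂ := rfl
    refine le_of_eq_of_le e.symm ?_
    apply le_csSup hbdd
    refine Or.inr ⟨_, ?_, rfl⟩
    have hact : ∀ i, (((T.scaleAmp c⁻¹).refine E.ε).withLaw (T.P.cfib I o)).act i →
        T.act i ∧ col i = col (T.O o) := by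
      rintro i ⟨o', ho', rfl⟩
      have := hsupp o' ho'.ne'
      exact ⟨⟨o', hpp o' this.2, rfl⟩, this.1⟩
    refine ⟨hT.t0, fun i hi => p9_scale_can M Bb c hc0 hcB _ (hT.amp i (hact i hi).1),
      fun i hi => hT.time i (hact i hi).1, ?_, ?_, ?_⟩
    · intro i j hi hj hij
      have hnot : ¬ (‖(T.site i).V - (T.site j).V‖ < E.rho 0 ∧ ‖(T.site i).X - (T.site j).X‖ < E.rho 0) :=
        fun hR => hcol i j (hact i hi).1 (hact j hj).1 hij hR ((hact i hi).2.trans (hact j hj).2.symm)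
      rw [not_and_or, not_lt, not_lt] at hnot
      exact hnot
    · intro o' ho'
      show 0 < E.m 0 ((T.site (T.O o')).scale c⁻¹)
      unfold PEnv.m
      rw [p9_mass_scale]
      have := hT.mpos o' (hpp o' (hsupp o' ho'.ne').2)
      unfold PEnv.m at this
      positivity
    · intro o' ho'
      have hg := hgeo1 o' (hpp o' (hsupp o' ho'.ne').2)
      have hg' := p9_refine_geo _ _ _ _ _ _ _ h0 hg
      show GeoOK (gshift (T.geo (T.D o')) E.ε T.t
          (gidx (T.geo (T.D o')) E.ε T.t ((T.site (T.O o')).scale c⁻¹))) 1 E.ε 0 E.L (E.u 0)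
        ((T.site (T.O o')).scale c⁻¹)
      have ht := hT.t0
      rw [ht] at hg' ⊢
      exact hg'
  rw [ent_ev_const] at hcell
  have s3' : score γ E ((T.scaleAmp c⁻¹).refine E.ε) ≤ K0 γ M E + 3 / 2 * Real.log (Mu : ℝ) / lg E.ε := by
    have e1 : 3 / 2 * T.P.ent I / lg E.ε ≤ 3 / 2 * Real.log (Mu : ℝ) / lg E.ε := by
      apply div_le_div_of_nonneg_right _ hl.le
      linarith
    rw [e2]
    linarith
  have e3 : (3 * Real.log c + Real.log ((Ke + 3) ^ 4) / 2 + 3 / 2 * Real.log (Mu : ℝ)) / lg E.ε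
      = 3 * Real.log c / lg E.ε + Real.log ((Ke + 3) ^ 4) / (2 * lg E.ε)
        + 3 / 2 * Real.log (Mu : ℝ) / lg E.ε := by
    field_simp
  rw [e3]
  linarith

end Claimed.Agent.R255.Pkt
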