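-- KEEP
import Claimed.Agent.R255.Pk.An
import Claimed.Agent.R255.Pk9.Core
import Claimed.Agent.R255.Pk9.RootNorm

/-!
# R255 / Pk9 / LocalRootA : P9.5 (upper half), TOOLS      (architect + prover helper150)

Standing hypotheses `PlrCtx` of the local root comparison (9.29) and their elementary consequences; geometry of enlarged caps; cap counts with enlargement.
-/

set_option autoImplicit false

namespace Claimed.Agent.R255.Pkt

open MeasureTheory Claimed.Agent.R255 Claimed.Agent.R255.Osc Claimed.Agent.R255.FLaw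
open scoped BigOperators
open Classical

/-- constants are absorbed by small negative powers -/
theorem plr_small (C δ : ℝ) (hδ : 0 < δ) : ∃ ε₁ : ℝ, 0 < ε₁ ∧ ∀ ε : ℝ, 0 < ε → ε < ε₁ → C ≤ ε ^ (-δ) := by
  have hB : 0 < max C 1 := lt_of_lt_of_le one_pos (le_max_right _ _)
  refine ⟨(max C 1) ^ (-(1 / δ)), by positivity, fun ρ h0 hρ => ?_⟩
  have h3 : ((max C 1) ^ (-(1 / δ))) ^ (-δ) ≤ ρ ^ (-δ) := Real.rpow_le_rpow_of_nonpos h0 hρ.le (by linarith)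
  rw [← Real.rpow_mul hB.le, show -(1 / δ) * -δ = 1 by field_simp, Real.rpow_one] at h3
  exact (le_max_left _ _).trans h3

/-- `log (ε^(-x)) = x ℓ` -/
theorem plr_log_rpow {ε : ℝ} (h0 : 0 < ε) (x : ℝ) : Real.log (ε ^ (-x)) = x * lg ε := by
  unfold lg
  rw [Real.log_rpow h0, one_div, Real.log_inv]
  ring

/-- `ε^(-x) = exp (x ℓ)` -/
theorem plr_rpow_exp {ε : ℝ} (h0 : 0 < ε) (x : ℝ) : ε ^ (-x) = Real.exp (x * lg ε) := by
  rw [← plr_log_rpow h0, Real.exp_log (Real.rpow_pos_of_pos h0 _)]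

/-- components in a rotated frame are bounded by the norm -/
theorem plr_ip_le (z : E2) (th : ℝ) : |ip (toP z) (tang th)| ≤ ‖z‖ ∧ |ip (toP z) (nrm th)| ≤ ‖z‖ := by
  have hn : ‖z‖ = Real.sqrt (z 0 ^ 2 + z 1 ^ 2) := by
    rw [EuclideanSpace.norm_eq, Fin.sum_univ_two, Real.norm_eq_abs, Real.norm_eq_abs, sq_abs, sq_abs]
  have hcs := Real.cos_sq_add_sin_sq th
  rw [hn]
  constructor
  · apply Real.abs_le_sqrt
    unfold ip tang toP
    simp only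
    nlinarith [sq_nonneg (z 0 * Real.sin th - z 1 * Real.cos th)]
  · apply Real.abs_le_sqrt
    unfold ip nrm toP
    simp only
    nlinarith [sq_nonneg (z 0 * Real.cos th + z 1 * Real.sin th)]

theorem plr_ip_sub (x y w : ℝ × ℝ) : ip (x - y) w = ip x w - ip y w := by
  unfold ip
  simp only [Prod.fst_sub, Prod.snd_sub]
  ring

/-- moving the point of a rectangle -/
theorem plr_inRect_move {ε K R b a th w : ℝ} (x y : E2) (c : ℝ × ℝ) (h : InRect K ε b a th (toP x - c))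
    (hxy : ‖x - y‖ ≤ R * w) (hb : R * w ≤ R * ε ^ b) (ha : R * w ≤ R * ε ^ a) :
    InRect (K + R) ε b a th (toP y - c) := by
  obtain ⟨h1, h2⟩ := h
  obtain ⟨g1, g2⟩ := plr_ip_le (x - y) th
  have e : toP y - c = (toP x - c) - toP (x - y) := by
    rw [pk_toP_sub]
    abel
  constructor
  · rw [e, plr_ip_sub]
    have := norm_sub_le (ip (toP x - c) (tang th)) (ip (toP (x - y)) (tang th))
    simp only [Real.norm_eq_abs] at this
    linarith
  · rw [e, plr_ip_sub]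
    have := norm_sub_le (ip (toP x - c) (nrm th)) (ip (toP (x - y)) (nrm th))
    simp only [Real.norm_eq_abs] at this
    linarith

/-- a site close to a site of an aperture lies in the enlarged aperture -/
theorem plr_enlarge {ε : ℝ} (h0 : 0 < ε) (h1 : ε < 1) (F : Geo) (K r L u R : ℝ) (s s₂ : Site) (hR : 0 ≤ R)
    (h : GeoOK F K ε r L u s) (hC : s₂.C = s.C) (hV : ‖s.V - s₂.V‖ ≤ R * ε ^ u)
    (hX : ‖s.X - s₂.X‖ ≤ R * ε ^ (u + r)) : GeoOK F (K + R) ε r L u s₂ := by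
  obtain ⟨a1, a2, a3, a4, a5, a6, a7⟩ := h
  have m : ∀ x y : ℝ, x ≤ y → R * ε ^ y ≤ R * ε ^ x := fun x y hxy =>
    mul_le_mul_of_nonneg_left (Real.rpow_le_rpow_of_exponent_ge h0 h1.le hxy) hR
  exact ⟨a1, a2, a3, a4, by rw [hC]; exact a5,
    plr_inRect_move s.V s₂.V F.vc a6 hV (m _ _ (by linarith)) (m _ _ a4),
    plr_inRect_move s.X s₂.X F.xc a7 hX (m _ _ (by linarith)) (m _ _ (by linarith))⟩

/-- **cap counts with enlargement** -/
theorem plr_count {γ : ℝ} {E : PEnv} {r bs ξ : ℝ} {S0 : ℕ} {At : Atoms} {Cl : Classes At} (hε : 0 < E.ε)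
    (hC : Cl.Good γ E r bs ξ S0) (K : ℝ) (hK : 0 ≤ K) (j : Loc0) (k : ℕ) (F : Geo) (h1 : bs ≤ F.b) :
    ((Finset.univ.filter (fun T => At.loc T = j ∧ Cl.cls T = k ∧
        GeoOK F K E.ε r E.L (E.u r) (At.asite T))).card : ℝ)
      ≤ (K + 3) ^ 4 * E.ε ^ (-(Cl.gB j k - (wt γ F - 2 * bs))) := by
  obtain ⟨S, hS, hmem⟩ := p9_refine_nval K hK
  have hp : 0 < E.ε ^ (-(Cl.gB j k - (wt γ F - 2 * bs))) := Real.rpow_pos_of_pos hε _
  rcases (Finset.univ.filter (fun T => At.loc T = j ∧ Cl.cls T = k ∧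
        GeoOK F K E.ε r E.L (E.u r) (At.asite T))).eq_empty_or_nonempty with he | ⟨T₀, hT₀⟩
  · rw [he, Finset.card_empty, Nat.cast_zero]
    positivity
  obtain ⟨-, -, g0, g1, g2, g3, -⟩ := (Finset.mem_filter.1 hT₀).2
  have hsub : Finset.univ.filter (fun T => At.loc T = j ∧ Cl.cls T = k ∧ GeoOK F K E.ε r E.L (E.u r) (At.asite T))
      ⊆ S.biUnion (fun κ => Finset.univ.filter (fun T => At.loc T = j ∧ Cl.cls T = k ∧
        InCap 1 E.ε r (gshift F E.ε r κ) (At.asite T))) := by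
    intro T hT
    obtain ⟨t1, t2, t3⟩ := (Finset.mem_filter.1 hT).2
    have h4 := p9_refine_geo F K E.ε r E.L (E.u r) (At.asite T) hε t3
    exact Finset.mem_biUnion.2 ⟨_, hmem F E.ε r E.L (E.u r) (At.asite T) hε t3,
      Finset.mem_filter.2 ⟨Finset.mem_univ _, t1, t2, h4.2.2.2.2.2.1, h4.2.2.2.2.2.2⟩⟩
  have hc : ∀ κ ∈ S, ((Finset.univ.filter (fun T => At.loc T = j ∧ Cl.cls T = k ∧
        InCap 1 E.ε r (gshift F E.ε r κ) (At.asite T))).card : ℝ) ≤ E.ε ^ (-(Cl.gB j k - (wt γ F - 2 * bs))) :=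
    fun κ _ => hC.capcount j k (gshift F E.ε r κ) h1 g1 g2 g3
  calc ((Finset.univ.filter (fun T => At.loc T = j ∧ Cl.cls T = k ∧
        GeoOK F K E.ε r E.L (E.u r) (At.asite T))).card : ℝ)
      ≤ ((S.biUnion (fun κ => Finset.univ.filter (fun T => At.loc T = j ∧ Cl.cls T = k ∧
        InCap 1 E.ε r (gshift F E.ε r κ) (At.asite T)))).card : ℝ) := by
        exact_mod_cast Finset.card_le_card hsub
    _ ≤ ∑ κ ∈ S, ((Finset.univ.filter (fun T => At.loc T = j ∧ Cl.cls T = k ∧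
        InCap 1 E.ε r (gshift F E.ε r κ) (At.asite T))).card : ℝ) := by
        exact_mod_cast Finset.card_biUnion_le
    _ ≤ ∑ _κ ∈ S, E.ε ^ (-(Cl.gB j k - (wt γ F - 2 * bs))) := Finset.sum_le_sum hc
    _ = (S.card : ℝ) * E.ε ^ (-(Cl.gB j k - (wt γ F - 2 * bs))) := by rw [Finset.sum_const, nsmul_eq_mul]
    _ ≤ (K + 3) ^ 4 * E.ε ^ (-(Cl.gB j k - (wt γ F - 2 * bs))) := mul_le_mul_of_nonneg_right hS hp.le

/-! ## the standing hypotheses -/

/-- the standing hypotheses of the local root comparison -/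
structure PlrCtx (γ : ℝ) (B : PBd) (p : Atoms.Par) (E : PEnv) (t r bs ξ : ℝ) (S0 : ℕ) (At : Atoms) (Cl : Classes At)
    {τ : Type} (tag : At.𝔸 → τ) (j : Classes.Lab τ) : Prop where
  obE : E.Obeys B
  nz : 0 < E.nrm2
  r0 : 0 ≤ r
  rt : r ≤ t
  bs0 : 0 ≤ bs
  bsu : bs ≤ E.u t
  bsL : bs ≤ E.L - t
  ξ0 : 0 < ξ
  gA : At.Good E B t r bs p
  gC : Cl.Good γ E r bs ξ S0
  N0 : 0 < Cl.N tag j
  j0 : 0 ≤ j.1.1
  j1 : j.1.Cr E.ε r < 1

section
variable {γ : ℝ} {B : PBd} {p : Atoms.Par} {E : PEnv} {t r bs ξ : ℝ} {S0 : ℕ} {At : Atoms} {Cl : Classes At}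
  {τ : Type} {tag : At.𝔸 → τ} {j : Classes.Lab τ}

theorem PlrCtx.rH (H : PlrCtx γ B p E t r bs ξ S0 At Cl tag j) : r ≤ E.H := by
  have h1 : bs ≤ (E.H - t) / 2 := H.bsu
  linarith [H.bs0, H.rt]

theorem PlrCtx.bsur (H : PlrCtx γ B p E t r bs ξ S0 At Cl tag j) : bs ≤ E.u r := by
  have h1 : bs ≤ (E.H - t) / 2 := H.bsu
  show bs ≤ (E.H - r) / 2
  linarith [H.rt]

theorem PlrCtx.bsLr (H : PlrCtx γ B p E t r bs ξ S0 At Cl tag j) : bs ≤ E.L - r := by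
  linarith [H.bsL, H.rt]

theorem PlrCtx.Cr0 (H : PlrCtx γ B p E t r bs ξ S0 At Cl tag j) : 0 ≤ j.1.Cr E.ε r := by
  unfold Loc0.Cr
  have h3 : (0 : ℝ) ≤ (j.1.1 : ℝ) := by exact_mod_cast H.j0
  exact mul_nonneg (Real.rpow_pos_of_pos H.obE.ε0 _).le h3

theorem PlrCtx.exT (H : PlrCtx γ B p E t r bs ξ S0 At Cl tag j) : ∃ T, Cl.lab tag T = j := by
  obtain ⟨T, hT⟩ := Finset.card_pos.1 H.N0
  exact ⟨T, (Finset.mem_filter.1 hT).2⟩

theorem plr_lab_loc {T : At.𝔸} (h : Cl.lab tag T = j) : At.loc T = j.1 := congrArg Prod.fst h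

theorem plr_lab_cls {T : At.𝔸} (h : Cl.lab tag T = j) : Cl.cls T = j.2.1 := congrArg (fun x => x.2.1) h

theorem PlrCtx.time (H : PlrCtx γ B p E t r bs ξ S0 At Cl tag j) {T : At.𝔸} (h : Cl.lab tag T = j) :
    (At.asite T).C = j.1.Cr E.ε r := by
  rw [H.gA.time T, plr_lab_loc h]

theorem PlrCtx.Ca0 (H : PlrCtx γ B p E t r bs ξ S0 At Cl tag j) : 0 ≤ p.Ca := by
  obtain ⟨T, -⟩ := H.exT
  have := (norm_nonneg _).trans (H.gA.nearV T)
  exact nonneg_of_mul_nonneg_left this (Real.rpow_pos_of_pos H.obE.ε0 _)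

theorem PlrCtx.coef_pos (H : PlrCtx γ B p E t r bs ξ S0 At Cl tag j) (T : At.𝔸) : 0 < ‖At.coef E r T‖ ^ 2 :=
  lt_of_lt_of_le (mul_pos (Real.rpow_pos_of_pos H.obE.ε0 _) H.nz) (H.gA.floor T)

theorem PlrCtx.mB0 (H : PlrCtx γ B p E t r bs ξ S0 At Cl tag j) : 0 < Cl.mB j.1 j.2.1 := by
  obtain ⟨T, hT⟩ := H.exT
  have h1 := H.gC.massHi T
  rw [plr_lab_loc hT, plr_lab_cls hT] at h1
  have h2 := lt_of_lt_of_le (H.coef_pos T) h1
  exact (pos_iff_pos_of_mul_pos h2).2 (Real.rpow_pos_of_pos H.obE.ε0 _)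

/-- the square sum of the coefficients of a set of atoms -/
noncomputable def plrSumS (E : PEnv) (r : ℝ) (At : Atoms) (S : At.𝔸 → Prop) : ℝ :=
  ∑ T, if S T then ‖At.coef E r T‖ ^ 2 else 0

theorem plr_sumS_eq (E : PEnv) (r : ℝ) (At : Atoms) (S : At.𝔸 → Prop) [DecidablePred S] :
    (∑ T, if S T then ‖At.coef E r T‖ ^ 2 else 0) = plrSumS E r At S := by
  unfold plrSumS
  refine Finset.sum_congr rfl fun T _ => ?_
  congr

theorem plr_sumS_filter (E : PEnv) (r : ℝ) (At : Atoms) (S : At.𝔸 → Prop) [DecidablePred S] :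
    plrSumS E r At S = ∑ T ∈ Finset.univ.filter S, ‖At.coef E r T‖ ^ 2 := by
  rw [← plr_sumS_eq, Finset.sum_filter]

/-- a bound by the cardinality -/
theorem plr_sumS_le (E : PEnv) (r : ℝ) (At : Atoms) (S : At.𝔸 → Prop) [DecidablePred S] (A : ℝ)
    (h : ∀ T, S T → ‖At.coef E r T‖ ^ 2 ≤ A) :
    plrSumS E r At S ≤ ((Finset.univ.filter S).card : ℝ) * A := by
  rw [plr_sumS_filter]
  refine (Finset.sum_le_sum fun T hT => h T (Finset.mem_filter.1 hT).2).trans ?_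
  rw [Finset.sum_const, nsmul_eq_mul]

/-- the square sum of the coefficients of the class -/
noncomputable def plrSum (E : PEnv) (r : ℝ) {At : Atoms} (Cl : Classes At) {τ : Type} (tag : At.𝔸 → τ)
    (j : Classes.Lab τ) : ℝ := plrSumS E r At (fun T => Cl.lab tag T = j)

theorem PlrCtx.mass_hi (H : PlrCtx γ B p E t r bs ξ S0 At Cl tag j) (T : At.𝔸) (hT : Cl.lab tag T = j) :
    ‖At.coef E r T‖ ^ 2 ≤ Cl.mB j.1 j.2.1 * E.ε ^ (-ξ) := by
  have h1 := H.gC.massHi T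
  rwa [plr_lab_loc hT, plr_lab_cls hT] at h1

theorem PlrCtx.sum_le (H : PlrCtx γ B p E t r bs ξ S0 At Cl tag j) :
    plrSum E r Cl tag j ≤ (Cl.N tag j : ℝ) * Cl.mB j.1 j.2.1 * E.ε ^ (-ξ) := by
  rw [mul_assoc]
  exact plr_sumS_le E r At (fun T => Cl.lab tag T = j) _ H.mass_hi

theorem PlrCtx.sum_pos (H : PlrCtx γ B p E t r bs ξ S0 At Cl tag j) : 0 < plrSum E r Cl tag j := by
  obtain ⟨T, hT⟩ := H.exT
  unfold plrSum
  rw [plr_sumS_filter]
  exact Finset.sum_pos (fun T _ => H.coef_pos T) ⟨T, Finset.mem_filter.2 ⟨Finset.mem_univ _, hT⟩⟩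

/-- the cap of the whole localizer -/
noncomputable def plrF0 (ε r bs : ℝ) (j : Loc0) : Geo where
  b := bs
  a := bs
  tc := j.Cr ε r
  th := 0
  vc := toP (j.VJ ε bs)
  xc := toP (j.XJ ε r bs)

/-- `N ≤ (Ca + 3)^4 ε^(-g)` -/
theorem PlrCtx.N_le (H : PlrCtx γ B p E t r bs ξ S0 At Cl tag j) :
    (Cl.N tag j : ℝ) ≤ (p.Ca + 3) ^ 4 * E.ε ^ (-(Cl.gB j.1 j.2.1)) := by
  have h1 := plr_count H.obE.ε0 H.gC p.Ca H.Ca0 j.1 j.2.1 (plrF0 E.ε r bs j.1) le_rfl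
  have e : wt γ (plrF0 E.ε r bs j.1) - 2 * bs = 0 := by
    show (1 + γ) * bs + (1 - γ) * bs - 2 * bs = 0
    ring
  rw [e, sub_zero] at h1
  refine le_trans ?_ h1
  unfold Classes.N
  have hsub : Finset.univ.filter (fun T => Cl.lab tag T = j) ⊆ Finset.univ.filter (fun T => At.loc T = j.1 ∧
      Cl.cls T = j.2.1 ∧ GeoOK (plrF0 E.ε r bs j.1) p.Ca E.ε r E.L (E.u r) (At.asite T)) := by
    intro T hT
    have hT' := (Finset.mem_filter.1 hT).2
    have hV := H.gA.nearV T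
    have hX := H.gA.nearX T
    rw [plr_lab_loc hT'] at hV hX
    obtain ⟨v1, v2⟩ := plr_ip_le ((At.asite T).V - j.1.VJ E.ε bs) 0
    obtain ⟨x1, x2⟩ := plr_ip_le ((At.asite T).X - j.1.XJ E.ε r bs) 0
    have ex : E.ε ^ (bs + r) = E.ε ^ r * E.ε ^ bs := by rw [add_comm, Real.rpow_add H.obE.ε0]
    refine Finset.mem_filter.2 ⟨Finset.mem_univ _, plr_lab_loc hT', plr_lab_cls hT', H.bs0, le_rfl, H.bsLr, H.bsur,
      (H.time hT').symm, ⟨v1.trans hV, v2.trans hV⟩, ⟨?_, ?_⟩⟩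
    · show |ip (toP (At.asite T).X - toP (j.1.XJ E.ε r bs)) (tang 0)| ≤ p.Ca * E.ε ^ (bs + r)
      rw [ex]
      exact x1.trans hX
    · show |ip (toP (At.asite T).X - toP (j.1.XJ E.ε r bs)) (nrm 0)| ≤ p.Ca * E.ε ^ (bs + r)
      rw [ex]
      exact x2.trans hX
  exact_mod_cast Finset.card_le_card hsub

end

end Claimed.Agent.R255.Pkt
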