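-- KEEP
import Claimed.Agent.R255.Pk9.LocalRootA

/-!
# R255 / Pk9 / LocalRootB : P9.5 (upper half), THE ANALYTIC INPUT      (architect + prover helper150)

* `PlrCtx.nrm_pos`   the local input does not vanish (`∫ f conj h_J = ∑ |c_T|² > 0`)
* `plr_nrm_le`       synthesis Bessel
* `plr_cap_raw`      cap Bessel for the sites of a canonical root test of the local environment
* `plr_tot`, `plr_cap`   total root mass, root mass over one aperture label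
-/

set_option autoImplicit false

namespace Claimed.Agent.R255.Pkt

open MeasureTheory Claimed.Agent.R255 Claimed.Agent.R255.Osc Claimed.Agent.R255.FLaw
open scoped BigOperators ComplexConjugate
open Classical

section
variable {γ : ℝ} {B : PBd} {p : Atoms.Par} {E : PEnv} {t r bs ξ : ℝ} {S0 : ℕ} {At : Atoms} {Cl : Classes At}
  {τ : Type} {tag : At.𝔸 → τ} {j : Classes.Lab τ}

theorem PlrCtx.hJ_memLp (H : PlrCtx γ B p E t r bs ξ S0 At Cl tag j) : MemLp (Cl.hJ E r tag j) 2 volume :=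
  pk_sup_memLp H.obE H.gA _ fun T hT => by rw [H.time hT]; exact H.Cr0

theorem PlrCtx.nrm_eq (H : PlrCtx γ B p E t r bs ξ S0 At Cl tag j) :
    (Cl.envJ E r bs tag j).nrm2 = ∫ v, ‖Cl.hJ E r tag j v‖ ^ 2 := by
  unfold Classes.envJ
  rw [pk_resc_nrm2 E r bs _ _ _ _ H.obE.ε0]
  rfl

/-- the local input does not vanish -/
theorem PlrCtx.nrm_pos (H : PlrCtx γ B p E t r bs ξ S0 At Cl tag j) : 0 < (Cl.envJ E r bs tag j).nrm2 := by
  have hε := H.obE.ε0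
  have hρ : 0 < E.rho r := Real.rpow_pos_of_pos hε _
  rw [H.nrm_eq]
  have hmem := H.hJ_memLp
  have hint : Integrable (fun v => ‖Cl.hJ E r tag j v‖ ^ 2) := (memLp_two_iff_integrable_sq_norm hmem.1).1 hmem
  by_contra hcon
  have h0 : ∫ v, ‖Cl.hJ E r tag j v‖ ^ 2 = 0 :=
    le_antisymm (not_lt.1 hcon) (integral_nonneg fun _ => sq_nonneg _)
  have hae := (integral_eq_zero_iff_of_nonneg (fun _ => sq_nonneg _) hint).1 h0
  obtain ⟨q, hq⟩ : ∃ q : At.𝔸 → E2 → ℂ, q = fun T => pkt E.lam E.Φ (At.asite T).C (E.rho r) (At.asite T).V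
      (At.asite T).X (fun z => conj ((At.asite T).ψ z)) := ⟨_, rfl⟩
  have hc : ∀ T, At.coef E r T = ∫ v, E.f v * q T v := fun T => by
    rw [hq]
    exact pk_pairing_eq _ _ _ _ _
  have hz : ∫ v, E.f v * conj (Cl.hJ E r tag j v) = 0 := by
    refine integral_eq_zero_of_ae (hae.mono fun v hv => ?_)
    have h1 : ‖Cl.hJ E r tag j v‖ ^ 2 = 0 := hv
    have h2 : Cl.hJ E r tag j v = 0 := by
      rw [sq_eq_zero_iff, norm_eq_zero] at h1
      exact h1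
    show E.f v * conj (Cl.hJ E r tag j v) = 0
    rw [h2, map_zero, mul_zero]
  have hexp : ∀ v, E.f v * conj (Cl.hJ E r tag j v)
      = ∑ T ∈ Finset.univ.filter (fun T => Cl.lab tag T = j), conj (At.coef E r T) * (E.f v * q T v) := by
    intro v
    have e1 : Cl.hJ E r tag j v = ∑ T ∈ Finset.univ.filter (fun T => Cl.lab tag T = j),
        At.coef E r T * atom E.lam (E.rho r) E.Φ (At.asite T) v := by
      rw [Finset.sum_filter]
      unfold Classes.hJ Atoms.sup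
      refine Finset.sum_congr rfl fun T _ => ?_
      congr
    rw [e1, map_sum, Finset.mul_sum]
    refine Finset.sum_congr rfl fun T _ => ?_
    rw [pk_atom_eq, map_mul, Complex.conj_conj, hq]
    ring
  have hi : ∀ T ∈ Finset.univ.filter (fun T => Cl.lab tag T = j),
      Integrable (fun v => conj (At.coef E r T) * (E.f v * q T v)) := by
    intro T hT
    have hT' := (Finset.mem_filter.1 hT).2
    have hp : MemLp (q T) 2 volume := by
      rw [hq]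
      exact pk_pkt_memLp H.obE.phase (pk_amp_conj ((pk_ampC_iff _ _ _).1 (H.gA.amp T) 0)) E.lam hρ
        (by rw [H.time hT']; exact H.Cr0) _ _
    exact (H.obE.mem.integrable_mul hp).const_mul _
  simp only [hexp] at hz
  rw [integral_finsetSum _ hi] at hz
  have h3 : ∀ T ∈ Finset.univ.filter (fun T => Cl.lab tag T = j),
      ∫ v, conj (At.coef E r T) * (E.f v * q T v) = ((‖At.coef E r T‖ ^ 2 : ℝ) : ℂ) := by
    intro T _
    rw [integral_const_mul, ← hc, mul_comm, Complex.mul_conj, Complex.normSq_eq_norm_sq]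
  rw [Finset.sum_congr rfl h3, ← Complex.ofReal_sum, Complex.ofReal_eq_zero, ← plr_sumS_filter] at hz
  exact absurd hz H.sum_pos.ne'

end

/-- synthesis Bessel for the local input -/
theorem plr_nrm_le (B : PBd) (hB : B.Good) (Ra : ℝ) (Bb : ℕ → ℝ) : ∃ C : ℝ, 0 ≤ C ∧
    ∀ (γ : ℝ) (p : Atoms.Par) (E : PEnv) (t r bs ξ : ℝ) (S0 : ℕ) (At : Atoms) (Cl : Classes At) (τ : Type)
      (tag : At.𝔸 → τ) (j : Classes.Lab τ), p.Ra = Ra → p.Bb = Bb → PlrCtx γ B p E t r bs ξ S0 At Cl tag j →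
      (Cl.envJ E r bs tag j).nrm2 ≤ C * p.Mu * plrSum E r Cl tag j := by
  obtain ⟨C, hC0, hC⟩ := pk_sup_nrm2 B.K hB.a0 Ra Bb
  refine ⟨C, hC0, fun γ p E t r bs ξ S0 At Cl τ tag j hRa hBb H => ?_⟩
  rw [H.nrm_eq]
  have h1 := hC E B t r bs p At rfl hRa hBb H.obE H.gA H.rH j.1 H.Cr0 H.j1.le (fun T => Cl.lab tag T = j)
    (fun T h => plr_lab_loc h)
  exact h1

/-- the sites of a local root test in absolute coordinates -/
noncomputable def plrSite (E : PEnv) (r bs : ℝ) (j : Loc0) (T : PTest) (i : T.ι) : Site :=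
  pkSiteUn (T.site i) E.ε r bs (j.Cr E.ε r) (j.VJ E.ε bs) (j.XJ E.ε r bs)

/-- the statement of cap Bessel for the sites of a canonical root test of the local environment, with constant `C` -/
def PlrRaw (B : PBd) (Ra : ℝ) (Bb : ℕ → ℝ) (M : ℕ) (C : ℝ) : Prop :=
    ∀ (γ : ℝ) (p : Atoms.Par) (E : PEnv) (t r bs ξ : ℝ) (S0 : ℕ) (At : Atoms) (Cl : Classes At) (τ : Type)
      (tag : At.𝔸 → τ) (j : Classes.Lab τ), p.Ra = Ra → p.Bb = Bb → PlrCtx γ B p E t r bs ξ S0 At Cl tag j →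
      ∀ T : PTest, T.IsRoot M (Cl.envJ E r bs tag j) → ∀ sO : Finset T.ι, sO ⊆ Finset.univ.filter T.act →
      ∀ (FR : At.𝔸 → Prop) (R₁ : ℝ), 0 ≤ R₁ →
      (∀ i ∈ sO, ∀ A, Cl.lab tag A = j → ¬ FR A →
        2 * max 100 Ra * E.rho r < ‖(plrSite E r bs j.1 T i).V - (At.asite A).V‖ ∨
          R₁ * E.sig r ≤ ‖(plrSite E r bs j.1 T i).X - (At.asite A).X‖) →
      ∑ i ∈ sO, (Cl.envJ E r bs tag j).m 0 (T.site i)
        ≤ C * ((max 1 p.Mu : ℕ) : ℝ) ^ 2 * plrSumS E r At (fun A => Cl.lab tag A = j ∧ FR A)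
          + C * ((max 1 p.Mu : ℕ) : ℝ) ^ 2 * (((1 + R₁) ^ (M - 3))⁻¹) ^ 2 * plrSum E r Cl tag j

/-- cap Bessel for the sites of a canonical root test of the local environment -/
theorem plr_cap_raw (B : PBd) (hB : B.Good) (Ra : ℝ) (Bb : ℕ → ℝ) (M : ℕ) (hM : 3 ≤ M) : ∃ C : ℝ, 0 ≤ C ∧
    PlrRaw B Ra Bb M C := by
  obtain ⟨C, hC0, hC⟩ := an_cap B hB Ra Bb M hM
  refine ⟨C, hC0, fun γ p E t r bs ξ S0 At Cl τ tag j hRa hBb H T hT sO hsO FR R₁ hR₁ hsep => ?_⟩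
  have hε := H.obE.ε0
  obtain ⟨u1, u2⟩ := an_root_un E hε r bs (j.1.Cr E.ε r) (j.1.VJ E.ε bs) (j.1.XJ E.ε r bs) (Cl.hJ E r tag j) M T hT
  have hact : ∀ i ∈ sO, T.act i := fun i hi => (Finset.mem_filter.1 (hsO hi)).2
  have hm : ∀ i, (Cl.envJ E r bs tag j).m 0 (T.site i)
      = mass E.lam (E.rho r) E.Φ (At.sup E r (fun A => Cl.lab tag A = j)) (plrSite E r bs j.1 T i) := fun i =>
    an_mass_un E hε r bs _ _ _ _ _
  simp only [hm]
  have h1 := hC E t r bs p At hRa hBb H.obE H.gA H.rH j.1 H.Cr0 H.j1.le (fun A => Cl.lab tag A = j)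
    (fun A h => plr_lab_loc h) T.ι sO (plrSite E r bs j.1 T) (max 1 p.Mu) (fun i hi => (u1 i (hact i hi)).1)
    (fun i hi => (u1 i (hact i hi)).2)
    (fun i hi t' ht' hn => (u2 i (hsO hi) t' (ht'.trans hsO) hn).trans (le_max_left _ _)) (le_max_right _ _) FR R₁ hR₁
    hsep
  have e := @plr_sumS_eq E r At (fun A => Cl.lab tag A = j ∧ FR A)
    (fun A => @instDecidableAnd _ _ (propDecidable _) (propDecidable _))
  rw [e] at h1
  exact h1

theorem plr_sumS_mono (E : PEnv) (r : ℝ) (At : Atoms) (S S' : At.𝔸 → Prop) (h : ∀ T, S T → S' T) :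
    plrSumS E r At S ≤ plrSumS E r At S' := by
  unfold plrSumS
  refine Finset.sum_le_sum fun T _ => ?_
  by_cases h1 : S T
  · rw [if_pos h1, if_pos (h T h1)]
  · rw [if_neg h1]
    split_ifs
    · exact sq_nonneg _
    · exact le_rfl

/-- a root aperture of the local environment, read in absolute coordinates -/
theorem plr_geo_un (E : PEnv) (hε : 0 < E.ε) (r bs Cr : ℝ) (VJ XJ : E2) (h : E2 → ℂ) (hbs : 0 ≤ bs) (g : Geo) (s : Site)
    (hg : GeoOK g 1 E.ε 0 (E.resc r bs Cr VJ XJ h).L ((E.resc r bs Cr VJ XJ h).u 0) s) :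
    GeoOK (pkGeoUn g E.ε r bs Cr VJ XJ) 1 E.ε r E.L (E.u r) (pkSiteUn s E.ε r bs Cr VJ XJ) ∧
      bs ≤ (pkGeoUn g E.ε r bs Cr VJ XJ).b := by
  refine (pk_resc_geo r bs Cr VJ XJ hε hbs (pkGeoUn g E.ε r bs Cr VJ XJ) 1 r E.L (E.u r)
    (pkSiteUn s E.ε r bs Cr VJ XJ)).1 ?_
  rw [pk_geo_un_resc r bs Cr VJ XJ hε, pk_site_un_resc r bs Cr VJ XJ hε, sub_self]
  have e := pk_resc_u E r bs Cr VJ XJ h r
  rw [sub_self] at e
  rw [← e]
  exact hg

theorem plr_wt_un (γ : ℝ) (g : Geo) (ε r bs Cr : ℝ) (VJ XJ : E2) :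
    wt γ (pkGeoUn g ε r bs Cr VJ XJ) - 2 * bs = wt γ g := by
  show (1 + γ) * (g.b + bs) + (1 - γ) * (g.a + bs) - 2 * bs = (1 + γ) * g.b + (1 - γ) * g.a
  ring

/-- the sites observed together with the aperture label `d` -/
noncomputable def plrSD (T : PTest) (d : T.Γ) : Finset T.ι :=
  Finset.univ.filter (fun i => ∃ o, 0 < T.P.p o ∧ T.O o = i ∧ T.D o = d)

theorem plr_SD_sub (T : PTest) (d : T.Γ) : plrSD T d ⊆ Finset.univ.filter T.act := by
  intro i hi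
  obtain ⟨o, ho, hO, -⟩ := (Finset.mem_filter.1 hi).2
  exact Finset.mem_filter.2 ⟨Finset.mem_univ _, o, ho, hO⟩

section
variable {γ : ℝ} {B : PBd} {p : Atoms.Par} {E : PEnv} {t r bs ξ : ℝ} {S0 : ℕ} {At : Atoms} {Cl : Classes At}
  {τ : Type} {tag : At.𝔸 → τ} {j : Classes.Lab τ} {Ra : ℝ} {Bb : ℕ → ℝ} {M : ℕ} {C : ℝ}

/-- total root mass -/
theorem plr_tot (hC0 : 0 ≤ C) (hraw : PlrRaw B Ra Bb M C) (hRa : p.Ra = Ra) (hBb : p.Bb = Bb)
    (H : PlrCtx γ B p E t r bs ξ S0 At Cl tag j) (T : PTest) (hT : T.IsRoot M (Cl.envJ E r bs tag j)) :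
    ∑ i ∈ Finset.univ.filter T.act, (Cl.envJ E r bs tag j).m 0 (T.site i)
      ≤ 2 * (C * ((max 1 p.Mu : ℕ) : ℝ) ^ 2) * plrSum E r Cl tag j := by
  have h1 := hraw γ p E t r bs ξ S0 At Cl τ tag j hRa hBb H T hT _ (Finset.Subset.refl _) (fun _ => True) 0 le_rfl
    (fun i _ A _ hA => absurd trivial hA)
  have h2 : plrSumS E r At (fun A => Cl.lab tag A = j ∧ True) ≤ plrSum E r Cl tag j :=
    plr_sumS_mono E r At _ _ fun T h => h.1
  have h3 : (((1 + (0 : ℝ)) ^ (M - 3))⁻¹) ^ 2 = 1 := by simp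
  rw [h3, mul_one] at h1
  have h4 : 0 ≤ C * ((max 1 p.Mu : ℕ) : ℝ) ^ 2 := by positivity
  have h5 := mul_le_mul_of_nonneg_left h2 h4
  linarith

/-- root mass over one aperture label -/
theorem plr_cap (hC0 : 0 ≤ C) (hraw : PlrRaw B Ra Bb M C) (hRa : p.Ra = Ra) (hBb : p.Bb = Bb)
    (H : PlrCtx γ B p E t r bs ξ S0 At Cl tag j) (T : PTest) (hT : T.IsRoot M (Cl.envJ E r bs tag j))
    (o : T.Ω) (ho : 0 < T.P.p o) (R₁ : ℝ) (hR : 2 * max 100 Ra ≤ R₁) :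
    ∑ i ∈ plrSD T (T.D o), (Cl.envJ E r bs tag j).m 0 (T.site i)
      ≤ C * ((max 1 p.Mu : ℕ) : ℝ) ^ 2 * ((R₁ + 4) ^ 4 * E.ε ^ (-(Cl.gB j.1 j.2.1 - wt γ (T.geo (T.D o))))
          * (Cl.mB j.1 j.2.1 * E.ε ^ (-ξ)))
        + C * ((max 1 p.Mu : ℕ) : ℝ) ^ 2 * (((1 + R₁) ^ (M - 3))⁻¹) ^ 2 * plrSum E r Cl tag j := by
  have hε := H.obE.ε0
  have hR0 : 0 ≤ R₁ := le_trans (by positivity) hR
  obtain ⟨F, hF⟩ : ∃ F, F = pkGeoUn (T.geo (T.D o)) E.ε r bs (j.1.Cr E.ε r) (j.1.VJ E.ε bs) (j.1.XJ E.ε r bs) :=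
    ⟨_, rfl⟩
  obtain ⟨u1, -⟩ := an_root_un E hε r bs (j.1.Cr E.ε r) (j.1.VJ E.ε bs) (j.1.XJ E.ε r bs) (Cl.hJ E r tag j) M T hT
  have hgeo : ∀ i ∈ plrSD T (T.D o), GeoOK F 1 E.ε r E.L (E.u r) (plrSite E r bs j.1 T i) ∧ bs ≤ F.b := by
    intro i hi
    obtain ⟨o', ho', hO, hD⟩ := (Finset.mem_filter.1 hi).2
    have h1 := hT.geo o' ho'
    rw [hO, hD] at h1
    rw [hF]
    exact plr_geo_un E hε r bs _ _ _ (Cl.hJ E r tag j) H.bs0 _ _ h1
  have hFb : bs ≤ F.b := (hgeo (T.O o) (Finset.mem_filter.2 ⟨Finset.mem_univ _, o, ho, rfl, rfl⟩)).2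
  obtain ⟨FR, hFR⟩ : ∃ FR : At.𝔸 → Prop, FR = fun A => ∃ i ∈ plrSD T (T.D o),
      ‖(plrSite E r bs j.1 T i).V - (At.asite A).V‖ ≤ 2 * max 100 Ra * E.rho r ∧
        ‖(plrSite E r bs j.1 T i).X - (At.asite A).X‖ < R₁ * E.sig r := ⟨_, rfl⟩
  have h1 := hraw γ p E t r bs ξ S0 At Cl τ tag j hRa hBb H T hT _ (plr_SD_sub T (T.D o)) FR R₁ hR0 (by
    intro i hi A _ hA
    by_contra hcon
    push Not at hcon
    apply hA
    rw [hFR]
    exact ⟨i, hi, hcon.1, hcon.2⟩)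
  refine h1.trans (add_le_add_left (mul_le_mul_of_nonneg_left ?_ (by positivity)) _)
  have hm0 : 0 ≤ Cl.mB j.1 j.2.1 * E.ε ^ (-ξ) := mul_nonneg H.mB0.le (Real.rpow_pos_of_pos hε _).le
  refine (plr_sumS_le E r At (fun A => Cl.lab tag A = j ∧ FR A) _ fun A hA => H.mass_hi A hA.1).trans
    (mul_le_mul_of_nonneg_right ?_ hm0)
  have h2 := plr_count hε H.gC (1 + R₁) (by linarith) j.1 j.2.1 F hFb
  have e1 : wt γ F - 2 * bs = wt γ (T.geo (T.D o)) := by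
    rw [hF]
    exact plr_wt_un _ _ _ _ _ _ _ _
  have e2 : 1 + R₁ + 3 = R₁ + 4 := by ring
  rw [e1, e2] at h2
  refine le_trans ?_ h2
  have hsub : Finset.univ.filter (fun A => Cl.lab tag A = j ∧ FR A) ⊆ Finset.univ.filter (fun A => At.loc A = j.1 ∧
      Cl.cls A = j.2.1 ∧ GeoOK F (1 + R₁) E.ε r E.L (E.u r) (At.asite A)) := by
    intro A hA
    obtain ⟨hl, hfr⟩ := (Finset.mem_filter.1 hA).2
    rw [hFR] at hfr
    obtain ⟨i, hi, hV, hX⟩ := hfr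
    have hact : T.act i := (Finset.mem_filter.1 (plr_SD_sub T _ hi)).2
    refine Finset.mem_filter.2 ⟨Finset.mem_univ _, plr_lab_loc hl, plr_lab_cls hl, ?_⟩
    refine plr_enlarge hε H.obE.ε1 F 1 r E.L (E.u r) R₁ (plrSite E r bs j.1 T i) (At.asite A) hR0 (hgeo i hi).1 ?_ ?_
      hX.le
    · rw [H.time hl]
      exact (u1 i hact).1.symm
    · exact hV.trans (mul_le_mul_of_nonneg_right hR (Real.rpow_pos_of_pos hε _).le)
  exact_mod_cast Finset.card_le_card hsub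

end

end Claimed.Agent.R255.Pkt
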