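-- KEEP
import Claimed.Agent.R255.Pk9.LocalRootB

/-!
# R255 / Pk9 / LocalRoot : P9.5 (upper half) = (9.29), THE LOCAL ROOT COMPARISON      (architect + prover helper150)

EXIT: `plr_root` = the statement of `Comp/CutThm.ct_root`.
`K_0` of the local environment of a label `J` is at most `A_J + e`:
* norm option: synthesis Bessel + `N ≤ C ε^(-g)`;
* a canonical root test: `p9_root_upper` with total mass `≤ C N m ε^(-ξ)` (Bessel) and cap masses `≤ C ε^(-4η-ξ) m ε^(-(g-w))` (cap Bessel with `R₁ = ε^(-η)` + enlarged cap counts;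
  the far term is killed by the order `Mloc` of the canonical class).
-/

set_option autoImplicit false

namespace Claimed.Agent.R255.Pkt

open MeasureTheory Claimed.Agent.R255 Claimed.Agent.R255.Osc Claimed.Agent.R255.FLaw
open scoped BigOperators
open Classical

/-- the entropy step -/
theorem plr_score_le (γ : ℝ) (E' : PEnv) (h0 : 0 < E'.ε) (h1 : E'.ε < 1) (M : ℕ) (T : PTest) (hT : T.IsRoot M E')
    (N m0 g x₁ x₂ : ℝ) (hN : 0 < N) (hm0 : 0 < m0)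
    (htot : ∑ i ∈ Finset.univ.filter T.act, E'.m 0 (T.site i) ≤ E'.ε ^ (-x₁) * N * m0)
    (hcap : ∀ o, 0 < T.P.p o → ∑ i ∈ plrSD T (T.D o), E'.m 0 (T.site i)
      ≤ E'.ε ^ (-x₂) * m0 * E'.ε ^ (-(g - wt γ (T.geo (T.D o))))) :
    score γ E' T ≤ Real.log N / lg E'.ε + 3 / 2 * (Real.log m0 / lg E'.ε) + g / 2 + x₁ + x₂ / 2 := by
  have hl := p9_lg_pos h0 h1
  obtain ⟨l, hl'⟩ : ∃ l, l = lg E'.ε := ⟨_, rfl⟩
  have hpp : ∀ o, T.P.p o ≠ 0 → 0 < T.P.p o := fun o h => lt_of_le_of_ne (T.P.nonneg o) (Ne.symm h)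
  have key := p9_root_upper T.P T.O T.D (fun i => E'.m 0 (T.site i)) (fun i => sq_nonneg _)
    (fun o ho => hT.mpos o (hpp o ho)) (Finset.univ.filter T.act)
    (fun o ho => Finset.mem_filter.2 ⟨Finset.mem_univ _, o, hpp o ho, rfl⟩) (plrSD T)
    (fun o ho => Finset.mem_filter.2 ⟨Finset.mem_univ _, o, hpp o ho, rfl, rfl⟩)
    (fun d => l * wt γ (T.geo d)) N m0 (l * g) (E'.ε ^ (-x₁)) (E'.ε ^ (-x₂)) hN hm0
    (Real.rpow_pos_of_pos h0 _) (Real.rpow_pos_of_pos h0 _) htot (fun o ho => by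
      have h2 := hcap o (hpp o ho)
      rw [plr_rpow_exp h0 (g - wt γ (T.geo (T.D o))), ← hl'] at h2
      have e : (g - wt γ (T.geo (T.D o))) * l = l * g - l * wt γ (T.geo (T.D o)) := by ring
      rw [e] at h2
      exact h2)
  rw [plr_log_rpow h0, plr_log_rpow h0, ← hl', ent_ev_mul_left] at key
  unfold score
  rw [hT.t0, ← hl']
  rw [← hl'] at hl
  have e1 : T.P.ev (fun o => Real.log (E'.m 0 (T.site (T.O o))) / l)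
      = T.P.ev (fun o => Real.log (E'.m 0 (T.site (T.O o)))) / l := by
    rw [div_eq_inv_mul, ← ent_ev_mul_left]
    congr 1
    funext o
    rw [div_eq_inv_mul]
  rw [e1]
  obtain ⟨a, ha⟩ : ∃ a, a = T.P.ent T.O := ⟨_, rfl⟩
  obtain ⟨b, hb⟩ : ∃ b, b = T.P.entC T.O T.D := ⟨_, rfl⟩
  obtain ⟨c, hc⟩ : ∃ c, c = T.P.ev (fun o => Real.log (E'.m 0 (T.site (T.O o)))) := ⟨_, rfl⟩
  obtain ⟨d, hd⟩ : ∃ d, d = T.P.ev (fun o => wt γ (T.geo (T.D o))) := ⟨_, rfl⟩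
  rw [← ha, ← hb, ← hc, ← hd] at key ⊢
  have e2 : (a + b / 2) / l + 3 / 2 * (c / l) + 1 / 2 * d = (a + 1 / 2 * b + 3 / 2 * c + 1 / 2 * (l * d)) / l := by
    field_simp
  have e3 : Real.log N / l + 3 / 2 * (Real.log m0 / l) + g / 2 + x₁ + x₂ / 2
      = (Real.log N + 3 / 2 * Real.log m0 + 1 / 2 * (l * g) + x₁ * l + 1 / 2 * (x₂ * l)) / l := by
    field_simp
  rw [e2, e3]
  exact div_le_div_of_nonneg_right key hl.le

/-- the far factor of cap Bessel -/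
theorem plr_far {ε η Hm w : ℝ} {n : ℕ} (h0 : 0 < ε) (h1 : ε < 1) (hn : Hm ≤ 2 * η * (n : ℝ)) (hw : w ≤ Hm) :
    (((1 + ε ^ (-η)) ^ n)⁻¹) ^ 2 ≤ ε ^ w := by
  have hR : 0 < ε ^ (-η) := Real.rpow_pos_of_pos h0 _
  have a1 : ((1 + ε ^ (-η)) ^ n)⁻¹ ≤ ((ε ^ (-η)) ^ n)⁻¹ :=
    inv_anti₀ (by positivity) (pow_le_pow_left₀ hR.le (by linarith) _)
  have a2 : ((ε ^ (-η)) ^ n)⁻¹ = ε ^ (η * (n : ℝ)) := by
    rw [← Real.rpow_natCast, ← Real.rpow_mul h0.le, ← Real.rpow_neg h0.le]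
    congr 1
    ring
  rw [a2] at a1
  calc (((1 + ε ^ (-η)) ^ n)⁻¹) ^ 2 ≤ (ε ^ (η * (n : ℝ))) ^ 2 := pow_le_pow_left₀ (by positivity) a1 2
    _ = ε ^ (2 * η * (n : ℝ)) := by
        rw [← Real.rpow_natCast, ← Real.rpow_mul h0.le]
        congr 1
        push_cast
        ring
    _ ≤ ε ^ w := Real.rpow_le_rpow_of_exponent_ge h0 h1.le (hw.trans hn)

section
variable {γ : ℝ} {B : PBd} {p : Atoms.Par} {E : PEnv} {t r bs ξ : ℝ} {S0 : ℕ} {At : Atoms} {Cl : Classes At}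
  {τ : Type} {tag : At.𝔸 → τ} {j : Classes.Lab τ} {M : ℕ} {C δ : ℝ}

/-- weights of local root apertures are bounded -/
theorem PlrCtx.wt_le (H : PlrCtx γ B p E t r bs ξ S0 At Cl tag j) (h0 : 0 < γ) (g : Geo) (s : Site)
    (hg : GeoOK g 1 E.ε 0 (Cl.envJ E r bs tag j).L ((Cl.envJ E r bs tag j).u 0) s) : wt γ g ≤ B.Hmax := by
  obtain ⟨-, a2, -, a4, -⟩ := hg
  have a4' : g.a ≤ (E.H - r - 2 * bs - 0) / 2 := a4
  have h3 := H.obE.H1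
  have h4 := H.r0
  have h5 := H.bs0
  show (1 + γ) * g.b + (1 - γ) * g.a ≤ B.Hmax
  have h6 : (1 + γ) * g.b ≤ (1 + γ) * g.a := mul_le_mul_of_nonneg_left a2 (by linarith)
  linarith

/-- the norm option -/
theorem PlrCtx.norm_opt (H : PlrCtx γ B p E t r bs ξ S0 At Cl tag j)
    (hn : (Cl.envJ E r bs tag j).nrm2 ≤ C * p.Mu * plrSum E r Cl tag j)
    (s3 : C * p.Mu ≤ E.ε ^ (-δ)) (s4 : (p.Ca + 3) ^ 4 ≤ E.ε ^ (-δ)) :
    3 / 2 * (Real.log (Cl.envJ E r bs tag j).nrm2 / lg (Cl.envJ E r bs tag j).ε)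
      ≤ Cl.AJ E tag j + (2 * δ + 3 / 2 * ξ) := by
  have hε := H.obE.ε0
  have hl := p9_lg_pos hε H.obE.ε1
  show 3 / 2 * (Real.log (Cl.envJ E r bs tag j).nrm2 / lg E.ε) ≤ _
  obtain ⟨l, hl'⟩ : ∃ l, l = lg E.ε := ⟨_, rfl⟩
  obtain ⟨N, hN'⟩ : ∃ N : ℝ, N = (Cl.N tag j : ℝ) := ⟨_, rfl⟩
  obtain ⟨m0, hm'⟩ : ∃ m0 : ℝ, m0 = Cl.mB j.1 j.2.1 := ⟨_, rfl⟩
  obtain ⟨g, hg'⟩ : ∃ g : ℝ, g = Cl.gB j.1 j.2.1 := ⟨_, rfl⟩
  have hN : 0 < N := by rw [hN']; exact_mod_cast H.N0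
  have hm0 : 0 < m0 := by rw [hm']; exact H.mB0
  have hsum := H.sum_le
  have hNle := H.N_le
  rw [← hN', ← hm'] at hsum
  rw [← hN', ← hg'] at hNle
  have p1 : 0 < E.ε ^ (-δ) := Real.rpow_pos_of_pos hε _
  have p2 : 0 < E.ε ^ (-ξ) := Real.rpow_pos_of_pos hε _
  have p3 : 0 < E.ε ^ (-g) := Real.rpow_pos_of_pos hε _
  have b1 : (Cl.envJ E r bs tag j).nrm2 ≤ E.ε ^ (-δ) * (N * m0 * E.ε ^ (-ξ)) :=
    hn.trans (mul_le_mul s3 hsum H.sum_pos.le p1.le)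
  have b2 : N ≤ E.ε ^ (-δ) * E.ε ^ (-g) := hNle.trans (mul_le_mul_of_nonneg_right s4 p3.le)
  have l1 := Real.log_le_log H.nrm_pos b1
  rw [Real.log_mul p1.ne' (by positivity), Real.log_mul (by positivity) p2.ne', Real.log_mul hN.ne' hm0.ne',
    plr_log_rpow hε, plr_log_rpow hε, ← hl'] at l1
  have l2 := Real.log_le_log hN b2
  rw [Real.log_mul p1.ne' p3.ne', plr_log_rpow hε, plr_log_rpow hε, ← hl'] at l2
  unfold Classes.AJ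
  rw [← hl', ← hN', ← hm', ← hg']
  rw [← hl'] at hl
  have e3 : Real.log N / l + 3 / 2 * (Real.log m0 / l) + g / 2 + (2 * δ + 3 / 2 * ξ)
      = (Real.log N + 3 / 2 * Real.log m0 + 1 / 2 * (g * l) + (2 * δ + 3 / 2 * ξ) * l) / l := by
    field_simp
  rw [e3, ← mul_div_assoc]
  apply div_le_div_of_nonneg_right _ hl.le
  linarith

/-- a canonical root test -/
theorem PlrCtx.root_opt (H : PlrCtx γ B p E t r bs ξ S0 At Cl tag j) (h0 : 0 < γ) (hC0 : 0 ≤ C)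
    (hraw : PlrRaw B p.Ra p.Bb M C) (hM : B.Hmax ≤ 2 * δ * ((M - 3 : ℕ) : ℝ)) (hδ : 0 < δ)
    (s1 : 2 * (C * ((max 1 p.Mu : ℕ) : ℝ) ^ 2) ≤ E.ε ^ (-δ))
    (s2 : C * ((max 1 p.Mu : ℕ) : ℝ) ^ 2 * (625 + (p.Ca + 3) ^ 4) ≤ E.ε ^ (-δ))
    (s5 : 2 * max 100 p.Ra ≤ E.ε ^ (-δ)) (T : PTest) (hT : T.IsRoot M (Cl.envJ E r bs tag j)) :
    score γ (Cl.envJ E r bs tag j) T ≤ Cl.AJ E tag j + (3 / 2 * ξ + 7 / 2 * δ) := by
  have hε := H.obE.ε0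
  have hε1 := H.obE.ε1
  obtain ⟨N, hN'⟩ : ∃ N : ℝ, N = (Cl.N tag j : ℝ) := ⟨_, rfl⟩
  obtain ⟨m0, hm'⟩ : ∃ m0 : ℝ, m0 = Cl.mB j.1 j.2.1 := ⟨_, rfl⟩
  obtain ⟨g, hg'⟩ : ∃ g : ℝ, g = Cl.gB j.1 j.2.1 := ⟨_, rfl⟩
  obtain ⟨Q, hQ'⟩ : ∃ Q : ℝ, Q = C * ((max 1 p.Mu : ℕ) : ℝ) ^ 2 := ⟨_, rfl⟩
  have hQ : 0 ≤ Q := by rw [hQ']; positivity
  have hN : 0 < N := by rw [hN']; exact_mod_cast H.N0
  have hm0 : 0 < m0 := by rw [hm']; exact H.mB0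
  have hsum := H.sum_le
  have hNle := H.N_le
  rw [← hN', ← hm'] at hsum
  rw [← hN', ← hg'] at hNle
  rw [← hQ'] at s1 s2
  have p1 : 0 < E.ε ^ (-δ) := Real.rpow_pos_of_pos hε _
  have p2 : 0 < E.ε ^ (-ξ) := Real.rpow_pos_of_pos hε _
  have hCa := H.Ca0
  have hR1 : 1 ≤ E.ε ^ (-δ) := Real.one_le_rpow_of_pos_of_le_one_of_nonpos hε hε1.le (by linarith)
  have main := plr_score_le γ (Cl.envJ E r bs tag j) hε hε1 M T hT N m0 g (ξ + δ) (δ + 4 * δ + ξ) hN hm0 ?_ ?_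
  · have e : Cl.AJ E tag j = Real.log N / lg (Cl.envJ E r bs tag j).ε
        + 3 / 2 * (Real.log m0 / lg (Cl.envJ E r bs tag j).ε) + g / 2 := by
      rw [hN', hm', hg']
      rfl
    rw [e]
    linarith
  · -- total mass
    have h1 := plr_tot hC0 hraw rfl rfl H T hT
    rw [← hQ'] at h1
    show _ ≤ E.ε ^ (-(ξ + δ)) * N * m0
    have e : E.ε ^ (-(ξ + δ)) * N * m0 = E.ε ^ (-δ) * (N * m0 * E.ε ^ (-ξ)) := by
      rw [show -(ξ + δ) = -δ + -ξ by ring, Real.rpow_add hε]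
      ring
    rw [e]
    exact h1.trans (mul_le_mul s1 hsum H.sum_pos.le p1.le)
  · -- cap masses
    intro o ho
    have h1 := plr_cap hC0 hraw rfl rfl H T hT o ho (E.ε ^ (-δ)) s5
    rw [← hQ', ← hm', ← hg'] at h1
    obtain ⟨w, hw'⟩ : ∃ w, w = wt γ (T.geo (T.D o)) := ⟨_, rfl⟩
    rw [← hw'] at h1 ⊢
    show _ ≤ E.ε ^ (-(δ + 4 * δ + ξ)) * m0 * E.ε ^ (-(g - w))
    have hw : w ≤ B.Hmax := by
      rw [hw']
      exact H.wt_le h0 _ _ (hT.geo o ho)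
    have hfar := plr_far (η := δ) hε hε1 hM hw
    obtain ⟨φ, hφ⟩ : ∃ φ, φ = (((1 + E.ε ^ (-δ)) ^ (M - 3))⁻¹) ^ 2 := ⟨_, rfl⟩
    rw [← hφ] at h1 hfar
    have hφ0 : 0 ≤ φ := by rw [hφ]; positivity
    obtain ⟨G, hG⟩ : ∃ G, G = E.ε ^ (-(g - w)) := ⟨_, rfl⟩
    have hG0 : 0 < G := by rw [hG]; exact Real.rpow_pos_of_pos hε _
    rw [← hG] at h1 ⊢
    obtain ⟨R, hR⟩ : ∃ R, R = E.ε ^ (-δ) := ⟨_, rfl⟩
    rw [← hR] at h1 hR1 s2 p1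
    -- the far term
    have f1 : φ * plrSum E r Cl tag j ≤ (p.Ca + 3) ^ 4 * G * (m0 * E.ε ^ (-ξ)) := by
      have f2 : φ * N ≤ (p.Ca + 3) ^ 4 * G := by
        calc φ * N ≤ E.ε ^ w * ((p.Ca + 3) ^ 4 * E.ε ^ (-g)) := mul_le_mul hfar hNle hN.le (Real.rpow_pos_of_pos hε _).le
          _ = (p.Ca + 3) ^ 4 * (E.ε ^ w * E.ε ^ (-g)) := by ring
          _ = (p.Ca + 3) ^ 4 * G := by
              rw [← Real.rpow_add hε, hG]
              congr 2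
              ring
      calc φ * plrSum E r Cl tag j ≤ φ * (N * m0 * E.ε ^ (-ξ)) := mul_le_mul_of_nonneg_left hsum hφ0
        _ = (φ * N) * (m0 * E.ε ^ (-ξ)) := by ring
        _ ≤ (p.Ca + 3) ^ 4 * G * (m0 * E.ε ^ (-ξ)) := mul_le_mul_of_nonneg_right f2 (by positivity)
    have f3 : (R + 4) ^ 4 ≤ 625 * R ^ 4 := by
      calc (R + 4) ^ 4 ≤ (5 * R) ^ 4 := pow_le_pow_left₀ (by linarith) (by linarith) 4
        _ = 625 * R ^ 4 := by ring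
    have f4 : (p.Ca + 3) ^ 4 ≤ (p.Ca + 3) ^ 4 * R ^ 4 :=
      le_mul_of_one_le_right (by positivity) (one_le_pow₀ hR1)
    have hX : 0 ≤ G * (m0 * E.ε ^ (-ξ)) := by positivity
    have e4 : E.ε ^ (-(δ + 4 * δ + ξ)) = R * R ^ 4 * E.ε ^ (-ξ) := by
      rw [show -(δ + 4 * δ + ξ) = -δ + (-δ) * ((4 : ℕ) : ℝ) + -ξ by push_cast; ring, Real.rpow_add hε,
        Real.rpow_add hε, Real.rpow_mul hε.le, Real.rpow_natCast, hR]
    calc ∑ i ∈ plrSD T (T.D o), (Cl.envJ E r bs tag j).m 0 (T.site i)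
        ≤ Q * ((R + 4) ^ 4 * G * (m0 * E.ε ^ (-ξ))) + Q * φ * plrSum E r Cl tag j := h1
      _ = Q * ((R + 4) ^ 4 * (G * (m0 * E.ε ^ (-ξ)))) + Q * (φ * plrSum E r Cl tag j) := by ring
      _ ≤ Q * (625 * R ^ 4 * (G * (m0 * E.ε ^ (-ξ)))) + Q * ((p.Ca + 3) ^ 4 * R ^ 4 * (G * (m0 * E.ε ^ (-ξ)))) := by
          refine add_le_add (mul_le_mul_of_nonneg_left (mul_le_mul_of_nonneg_right f3 hX) hQ)
            (mul_le_mul_of_nonneg_left (f1.trans ?_) hQ)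
          calc (p.Ca + 3) ^ 4 * G * (m0 * E.ε ^ (-ξ)) = (p.Ca + 3) ^ 4 * (G * (m0 * E.ε ^ (-ξ))) := by ring
            _ ≤ (p.Ca + 3) ^ 4 * R ^ 4 * (G * (m0 * E.ε ^ (-ξ))) := mul_le_mul_of_nonneg_right f4 hX
      _ = (Q * (625 + (p.Ca + 3) ^ 4)) * (R ^ 4 * (G * (m0 * E.ε ^ (-ξ)))) := by ring
      _ ≤ R * (R ^ 4 * (G * (m0 * E.ε ^ (-ξ)))) := mul_le_mul_of_nonneg_right s2 (by positivity)
      _ = E.ε ^ (-(δ + 4 * δ + ξ)) * m0 * G := by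
          rw [e4]
          ring

end

/-- **(9.29) = T-ROOT** : the statement of `ct_root`. -/
theorem plr_root (γ : ℝ) (h0 : 0 < γ) (_h1 : γ < 1) (B : PBd) (hB : B.Good) (p : Atoms.Par) (e : ℝ) (he : 0 < e) :
    ∃ (Mloc : ℕ) (ε₀ : ℝ), 10 ≤ Mloc ∧ 0 < ε₀ ∧ ∀ (E : PEnv) (t r bs ξ : ℝ) (S0 : ℕ) (At : Atoms) (Cl : Classes At)
      (τ : Type) (tag : At.𝔸 → τ), E.Obeys B → E.ε < ε₀ → 0 < E.nrm2 → 0 ≤ r → r ≤ t → 0 ≤ bs → bs ≤ E.u t →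
      bs ≤ E.L - t → 0 < ξ → ξ ≤ e / 4 → At.Good E B t r bs p → Cl.Good γ E r bs ξ S0 →
      ∀ j : Classes.Lab τ, 0 < Cl.N tag j → 0 ≤ j.1.1 → j.1.Cr E.ε r < 1 →
        K0 γ Mloc (Cl.envJ E r bs tag j) ≤ Cl.AJ E tag j + e := by
  obtain ⟨δ, hδ'⟩ : ∃ δ, δ = e / 8 := ⟨_, rfl⟩
  have hδ : 0 < δ := by rw [hδ']; positivity
  obtain ⟨n, hn⟩ : ∃ n : ℕ, B.Hmax / (2 * δ) ≤ n := exists_nat_ge _
  obtain ⟨M, hM'⟩ : ∃ M : ℕ, M = max 10 (3 + n) := ⟨_, rfl⟩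
  have hM10 : 10 ≤ M := by rw [hM']; exact le_max_left _ _
  have hMn : n ≤ M - 3 := by
    have : 3 + n ≤ M := by rw [hM']; exact le_max_right _ _
    omega
  have hM : B.Hmax ≤ 2 * δ * ((M - 3 : ℕ) : ℝ) := by
    rw [div_le_iff₀ (by positivity)] at hn
    have h2 : (n : ℝ) ≤ ((M - 3 : ℕ) : ℝ) := by exact_mod_cast hMn
    have h3 : (n : ℝ) * (2 * δ) ≤ ((M - 3 : ℕ) : ℝ) * (2 * δ) := mul_le_mul_of_nonneg_right h2 (by positivity)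
    linarith
  obtain ⟨C, hC0, hraw⟩ := plr_cap_raw B hB p.Ra p.Bb M (by omega)
  obtain ⟨C', -, hnrm⟩ := plr_nrm_le B hB p.Ra p.Bb
  obtain ⟨ε₀, hε₀, hsm⟩ := plr_small (max (max (2 * (C * ((max 1 p.Mu : ℕ) : ℝ) ^ 2))
    (C * ((max 1 p.Mu : ℕ) : ℝ) ^ 2 * (625 + (p.Ca + 3) ^ 4))) (max (max (C' * p.Mu) ((p.Ca + 3) ^ 4))
      (2 * max 100 p.Ra))) δ hδ
  refine ⟨M, ε₀, hM10, hε₀, ?_⟩
  intro E t r bs ξ S0 At Cl τ tag hE hε hnz hr hrt hbs hbu hbL hξ hξe hA hC j hN hj0 hj1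
  have H : PlrCtx γ B p E t r bs ξ S0 At Cl tag j := ⟨hE, hnz, hr, hrt, hbs, hbu, hbL, hξ, hA, hC, hN, hj0, hj1⟩
  have hs := hsm E.ε hE.ε0 hε
  have s1 := ((le_max_left _ _).trans (le_max_left _ _)).trans hs
  have s2 := ((le_max_right _ _).trans (le_max_left _ _)).trans hs
  have s3 := (((le_max_left _ _).trans (le_max_left _ _)).trans (le_max_right _ _)).trans hs
  have s4 := (((le_max_right _ _).trans (le_max_left _ _)).trans (le_max_right _ _)).trans hs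
  have s5 := ((le_max_right _ _).trans (le_max_right _ _)).trans hs
  unfold K0
  refine csSup_le ⟨_, Or.inl rfl⟩ ?_
  rintro x (rfl | ⟨T, hT, rfl⟩)
  · have h2 := H.norm_opt (hnrm γ p E t r bs ξ S0 At Cl τ tag j rfl rfl H) s3 s4
    linarith
  · have h2 := H.root_opt h0 hC0 hraw hM hδ s1 s2 s5 T hT
    linarith

end Claimed.Agent.R255.Pkt
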