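import Mathlib

/-!
# Row 255 (BR paper), Sec. 9, Lemma 9.4 (greedy cap classes), abstract form      (helper256)   -- KEEP

PAPER-FREE finite combinatorics.  `T` = atoms (of one mass bin of one geometric localizer), `R : Finset T` the population,
`Cap` = the finite cap menu, `mem E t` = "the atom `t` lies in the cap `E`", `w E` = weight of the cap.
ALL QUANTITIES ARE IN NATURAL UNITS: `w E = ℓ · w(b,a)`, `ξ = ℓ · ξ_paper`, `Real.log (card)` instead of `logeps`.

* `p9_greedy` : the greedy removal.  Output `v t` = value of the maximum at the removal of `t`, `E t` = assigned cap: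
  (1) `t ∈ E t`;  (2) `v t = log #{t' ∈ R | E t' = E t} + w (E t)`;
  (3) for every threshold `θ` and every menu cap `F`: `log #{t' ∈ R | v t' < θ, t' ∈ F} + w F < θ` (if the set is nonempty).
* `p9_cap_class` : Lemma 9.4.  Class of `t` = `(k t, sh (E t))`, `k t = ⌊v t / ξ⌋`, `g = (k + 1) ξ`:
  (9.cap-count), (9.assigned-fiber), range of `k`.
* `p9_cap_count_cover` : (9.cap-count) for an arbitrary set of atoms covered by `K` menu caps of weight `≥ W`.
-/

set_option autoImplicit false

namespace Claimed.Agent.R255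

open Classical

/-- the greedy removal of Lemma 9.4 (induction on the size of the population) -/
theorem p9_greedy_aux {T Cap : Type} [Finite Cap] [Nonempty Cap] (mem : Cap → T → Prop) (w : Cap → ℝ) :
    ∀ (n : ℕ) (R : Finset T), R.card = n → (∀ t ∈ R, ∃ E, mem E t) →
    ∃ (v : T → ℝ) (E : T → Cap),
      (∀ t ∈ R, mem (E t) t) ∧
      (∀ t ∈ R, v t = Real.log ((R.filter fun t' => E t' = E t).card : ℝ) + w (E t)) ∧
      (∀ (θ : ℝ) (F : Cap), (R.filter fun t' => v t' < θ ∧ mem F t').Nonempty →
          Real.log ((R.filter fun t' => v t' < θ ∧ mem F t').card : ℝ) + w F < θ) := by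
  intro n
  induction n using Nat.strong_induction_on with
  | _ n ih =>
  intro R hR hcov
  rcases R.eq_empty_or_nonempty with rfl | hne
  · refine ⟨fun _ => 0, fun _ => Classical.arbitrary Cap, by simp, by simp, ?_⟩
    intro θ F h
    simp at h
  · -- the maximising cap
    set val : Cap → ℝ := fun E => Real.log ((R.filter fun t => mem E t).card : ℝ) + w E with hval
    have hS : ({E : Cap | (R.filter fun t => mem E t).Nonempty} : Set Cap).Nonempty := by
      obtain ⟨t, ht⟩ := hne
      obtain ⟨E, hE⟩ := hcov t ht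
      exact ⟨E, ⟨t, by simp [ht, hE]⟩⟩
    obtain ⟨E₀, hE₀, hmax⟩ := Set.exists_max_image _ val (Set.toFinite _) hS
    set R' : Finset T := R.filter fun t => ¬ mem E₀ t with hR'
    have hlt : R'.card < n := by
      rw [← hR]
      apply Finset.card_lt_card
      refine ⟨Finset.filter_subset _ _, fun hsub => ?_⟩
      obtain ⟨t, ht⟩ := hE₀
      rw [Finset.mem_filter] at ht
      have := hsub ht.1
      rw [hR', Finset.mem_filter] at this
      exact this.2 ht.2
    obtain ⟨v', E', h1, h2, h3⟩ := ih R'.card hlt R' rfl (fun t ht => hcov t (Finset.mem_filter.1 ht).1)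
    have memR' : ∀ t, t ∈ R' ↔ t ∈ R ∧ ¬ mem E₀ t := fun t => by rw [hR', Finset.mem_filter]
    refine ⟨fun t => if mem E₀ t then val E₀ else v' t, fun t => if mem E₀ t then E₀ else E' t,
      ?_, ?_, ?_⟩
    · intro t ht
      by_cases hm : mem E₀ t
      · simp [hm]
      · simpa [hm] using h1 t ((memR' t).2 ⟨ht, hm⟩)
    · intro t ht
      by_cases hm : mem E₀ t
      · have hset : (R.filter fun t' => (if mem E₀ t' then E₀ else E' t') = E₀)
            = R.filter fun t' => mem E₀ t' := by
          apply Finset.filter_congr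
          intro t' ht'
          by_cases hm' : mem E₀ t'
          · simp [hm']
          · simp only [hm', if_false, iff_false]
            intro he
            exact hm' (he ▸ h1 t' ((memR' t').2 ⟨ht', hm'⟩))
        simp only [hm, if_true]
        rw [hset]
      · have htR' : t ∈ R' := (memR' t).2 ⟨ht, hm⟩
        have hset : (R.filter fun t' => (if mem E₀ t' then E₀ else E' t') = E' t)
            = R'.filter fun t' => E' t' = E' t := by
          ext t'
          simp only [Finset.mem_filter, memR']
          by_cases hm' : mem E₀ t'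
          · simp only [hm', if_true, not_true, and_false, false_and, iff_false, not_and]
            intro _ he
            exact hm (he ▸ h1 t htR')
          · simp [hm']
        simp only [hm, if_false]
        rw [hset]
        exact h2 t htR'
    · intro θ F hne'
      by_cases hθ : val E₀ < θ
      · have hsub : (R.filter fun t' => (if mem E₀ t' then val E₀ else v' t') < θ ∧ mem F t')
            ⊆ R.filter fun t' => mem F t' := by
          intro t' ht'
          rw [Finset.mem_filter] at ht' ⊢
          exact ⟨ht'.1, ht'.2.2⟩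
        have hF : (R.filter fun t' => mem F t').Nonempty := hne'.mono hsub
        have hle := hmax F hF
        have hc : (0 : ℝ) < ((R.filter fun t' => (if mem E₀ t' then val E₀ else v' t') < θ ∧ mem F t').card : ℝ) := by
          exact_mod_cast Finset.card_pos.2 hne'
        have hlog := Real.log_le_log hc (by exact_mod_cast Finset.card_le_card hsub :
          ((R.filter fun t' => (if mem E₀ t' then val E₀ else v' t') < θ ∧ mem F t').card : ℝ)
            ≤ ((R.filter fun t' => mem F t').card : ℝ))
        have : val F = Real.log ((R.filter fun t => mem F t).card : ℝ) + w F := rfl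
        linarith
      · have hset : (R.filter fun t' => (if mem E₀ t' then val E₀ else v' t') < θ ∧ mem F t')
            = R'.filter fun t' => v' t' < θ ∧ mem F t' := by
          ext t'
          simp only [Finset.mem_filter, memR']
          by_cases hm' : mem E₀ t'
          · simp [hm', hθ]
          · simp [hm']
        rw [hset] at hne' ⊢
        exact h3 θ F hne'

/-- the greedy removal of Lemma 9.4 -/
theorem p9_greedy {T Cap : Type} [Finite Cap] [Nonempty Cap] (mem : Cap → T → Prop) (w : Cap → ℝ)
    (R : Finset T) (hcov : ∀ t ∈ R, ∃ E, mem E t) :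
    ∃ (v : T → ℝ) (E : T → Cap),
      (∀ t ∈ R, mem (E t) t) ∧
      (∀ t ∈ R, v t = Real.log ((R.filter fun t' => E t' = E t).card : ℝ) + w (E t)) ∧
      (∀ (θ : ℝ) (F : Cap), (R.filter fun t' => v t' < θ ∧ mem F t').Nonempty →
          Real.log ((R.filter fun t' => v t' < θ ∧ mem F t').card : ℝ) + w F < θ) :=
  p9_greedy_aux mem w R.card R rfl hcov

/-- **Lemma 9.4** (greedy cap classes).  The class of `t` is `(k t, sh (E t))` for any shape function `sh` of the caps
(the statements below hold for every subpopulation `A` of `{k = κ}`, hence for the classes and for all their tagged subdivisions);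
`g = (κ + 1) ξ`. -/
theorem p9_cap_class {T Cap : Type} [Finite Cap] [Nonempty Cap] (mem : Cap → T → Prop) (w : Cap → ℝ)
    (hw : ∀ E, 0 ≤ w E) (ξ : ℝ) (hξ : 0 < ξ) (R : Finset T) (hcov : ∀ t ∈ R, ∃ E, mem E t) :
    ∃ (k : T → ℕ) (E : T → Cap),
      (∀ t ∈ R, mem (E t) t) ∧
      (∀ (κ : ℕ) (A : Finset T), A ⊆ R → (∀ t ∈ A, k t = κ) → ∀ F : Cap,
        ((A.filter fun t => mem F t).card : ℝ) ≤ Real.exp (((κ : ℝ) + 1) * ξ - w F)) ∧
      (∀ t ∈ R, Real.exp (((k t : ℝ) + 1) * ξ - ξ - w (E t)) ≤ ((R.filter fun t' => E t' = E t).card : ℝ)) ∧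
      (∀ t ∈ R, ∀ t' ∈ R, E t' = E t → k t' = k t) ∧
      (∀ t ∈ R, (k t : ℝ) * ξ ≤ Real.log (R.card : ℝ) + w (E t)) := by
  obtain ⟨v, E, h1, h2, h3⟩ := p9_greedy mem w R hcov
  have hcard : ∀ t ∈ R, (1 : ℝ) ≤ ((R.filter fun t' => E t' = E t).card : ℝ) := by
    intro t ht
    have : 0 < (R.filter fun t' => E t' = E t).card :=
      Finset.card_pos.2 ⟨t, by simp [ht]⟩
    exact_mod_cast this
  have hv0 : ∀ t ∈ R, 0 ≤ v t := by
    intro t ht
    rw [h2 t ht]
    exact add_nonneg (Real.log_nonneg (hcard t ht)) (hw _)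
  have hfl : ∀ t ∈ R, ((⌊v t / ξ⌋₊ : ℕ) : ℝ) * ξ ≤ v t ∧ v t < ((⌊v t / ξ⌋₊ : ℕ) + 1 : ℝ) * ξ := by
    intro t ht
    have h0 : 0 ≤ v t / ξ := div_nonneg (hv0 t ht) hξ.le
    constructor
    · have := Nat.floor_le h0
      calc ((⌊v t / ξ⌋₊ : ℕ) : ℝ) * ξ ≤ v t / ξ * ξ := by gcongr
        _ = v t := by field_simp
    · have := Nat.lt_floor_add_one (v t / ξ)
      calc v t = v t / ξ * ξ := by field_simp
        _ < ((⌊v t / ξ⌋₊ : ℕ) + 1 : ℝ) * ξ := by gcongr
  refine ⟨fun t => ⌊v t / ξ⌋₊, E, h1, ?_, ?_, ?_, ?_⟩
  · intro κ A hA hk F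
    rcases (A.filter fun t => mem F t).eq_empty_or_nonempty with he | hne
    · rw [he]; simpa using (Real.exp_pos _).le
    · have hsub : (A.filter fun t => mem F t) ⊆ R.filter fun t' => v t' < ((κ : ℝ) + 1) * ξ ∧ mem F t' := by
        intro t ht
        rw [Finset.mem_filter] at ht ⊢
        refine ⟨hA ht.1, ?_, ht.2⟩
        have := (hfl t (hA ht.1)).2
        have hk' : ⌊v t / ξ⌋₊ = κ := hk t ht.1
        rw [hk'] at this
        exact this
      have hlt := h3 _ F (hne.mono hsub)
      have hpos : (0 : ℝ) < ((A.filter fun t => mem F t).card : ℝ) := by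
        exact_mod_cast Finset.card_pos.2 hne
      have hle : ((A.filter fun t => mem F t).card : ℝ)
          ≤ ((R.filter fun t' => v t' < ((κ : ℝ) + 1) * ξ ∧ mem F t').card : ℝ) := by
        exact_mod_cast Finset.card_le_card hsub
      have hlog := Real.log_le_log hpos hle
      rw [← Real.log_le_iff_le_exp hpos]
      linarith
  · intro t ht
    have hpos : (0 : ℝ) < ((R.filter fun t' => E t' = E t).card : ℝ) := lt_of_lt_of_le one_pos (hcard t ht)
    rw [← Real.le_log_iff_exp_le hpos]
    have := (hfl t ht).1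
    have h2' := h2 t ht
    simp only at this ⊢
    linarith
  · intro t ht t' ht' he
    have : v t' = v t := by rw [h2 t ht, h2 t' ht', he]
    simp only [this]
  · intro t ht
    have hpos : (0 : ℝ) < ((R.filter fun t' => E t' = E t).card : ℝ) := lt_of_lt_of_le one_pos (hcard t ht)
    have hle : ((R.filter fun t' => E t' = E t).card : ℝ) ≤ (R.card : ℝ) := by
      exact_mod_cast Finset.card_le_card (Finset.filter_subset _ _)
    have := Real.log_le_log hpos hle
    have h2' := h2 t ht
    have := (hfl t ht).1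
    simp only at this ⊢
    linarith

/-- (9.cap-count) for an arbitrary set `G` of atoms covered by at most `K` menu caps of weight at least `W` -/
theorem p9_cap_count_cover {T Cap : Type} (mem : Cap → T → Prop) (w : Cap → ℝ) (A : Finset T) (g : ℝ)
    (hcount : ∀ F : Cap, ((A.filter fun t => mem F t).card : ℝ) ≤ Real.exp (g - w F))
    (G : Finset T) (hG : G ⊆ A) (Fs : Finset Cap) (W : ℝ) (hW : ∀ F ∈ Fs, W ≤ w F)
    (hcov : ∀ t ∈ G, ∃ F ∈ Fs, mem F t) :
    (G.card : ℝ) ≤ (Fs.card : ℝ) * Real.exp (g - W) := by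
  have h1 : G ⊆ Fs.biUnion fun F => A.filter fun t => mem F t := by
    intro t ht
    obtain ⟨F, hF, hm⟩ := hcov t ht
    rw [Finset.mem_biUnion]
    exact ⟨F, hF, by simp [hG ht, hm]⟩
  have h2 : (G.card : ℝ) ≤ ∑ F ∈ Fs, ((A.filter fun t => mem F t).card : ℝ) := by
    have := (Finset.card_le_card h1).trans Finset.card_biUnion_le
    exact_mod_cast this
  calc (G.card : ℝ) ≤ ∑ F ∈ Fs, ((A.filter fun t => mem F t).card : ℝ) := h2
    _ ≤ ∑ _F ∈ Fs, Real.exp (g - W) := by
        apply Finset.sum_le_sum
        intro F hF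
        refine (hcount F).trans (Real.exp_le_exp.2 ?_)
        have := hW F hF
        linarith
    _ = (Fs.card : ℝ) * Real.exp (g - W) := by simp

end Claimed.Agent.R255
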