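import Claimed.Agent.R255.Pkt.Cut
import Claimed.Agent.R255.Pk9.Greedy
import Claimed.Agent.R255.Pk.Schur

/-!
# R255 / Pk9 / Classes : L9.4 IN THE PACKET VOCABULARY = `Pkt.classes_exist`      (architect helper256)   -- KEEP

`p9_classes_exist` has VERBATIM the statement of the contract `classes_exist` of `Pkt/Cut.lean`.
PIECES (all paper-free):
* L-CL-A `p9_pairing_le`      one test: `‖pairing‖² ≤ C₁ ‖f‖₂²`  (Cauchy-Schwarz; `∫ |ψ((v-V)/ρ)|² dv ≤ b₀² vol (ball V (ρ Ra)) = b₀² π Ra² ρ²`).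
* L-CL-B `p9_pack`            packing: a family of pairs `(V_T, X_T)` in `ball × ball` of radii `R₁ ρ`, `R₂ σ` with at most `Mu` members in each box `|V'-V| < ρ, |X'-X| < σ` has at most
                              `Mu (4 R₁ + 2)² (4 R₂ + 2)²` members  (cells of side `ρ/2`, `σ/2`).
* L-CL-C `p9_cap_class_sup`   greedy classes for an INFINITE family of caps: apply `p9_cap_class` in each population with the finite menu
                              `{U : Finset 𝔸 | U ⊆ some admissible cap}`, `mem U T := T ∈ U`, weight `W U := sSup {wl F | F admissible, U ⊆ F}`; the assigned cap of `T` is an admissible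
                              `F ⊇ E T` with `wl F > W (E T) - ξ` (a function of `E T` : `Classical.choose`).  Cap count for `F`: use the menu element `U_F = {T ∈ A | T ∈ F}`, `W U_F ≥ wl F`.
* L-CL-D `p9_classes_exist`   assembly, PLAN below.
PLAN of L-CL-D.  `ℓ = lg ε`, `ε^y = exp (-ℓ y)` (`p9_rpow_exp`).  Constants `C₁ ≥ 1` (A, for `Ra, Bb 0` of `p`), `C₂ = Mu (4 Ca + 2)^4` (B).  Choose `ε₀ < 1` with `log C₁ ≤ ℓ`, `log C₂ ≤ ℓ`.
 mass bin  `mb T = ⌊x_T / ξ⌋₊`, `x_T = log (C₁ nrm2 / ‖c_T‖²) / ℓ ∈ [0, Bx + 1]` (A and `Good.floor`);   `mB = C₁ nrm2 ε^((mb + 1) ξ)`.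
 population `pop T = (loc T, mb T)`;  `adm (j,μ) F := bs ≤ F.b ≤ F.a ≤ min (L - r) (u r) ∧ F.tc = j.Cr ε r`;  `inc F T := InCap 1 ε r F (asite T)`;  `wl F = ℓ (wt γ F - 2 bs) ∈ [0, ℓ Hmax]`;
 mesh `ℓ ξ`;  cover: the cap centred at the atom, `b = a = bs`, `th = 0`.   C gives `k`, `acap`.   `gB = (k + 1) ξ`.
 width bins `jb T = ⌊((acap T).b - bs)/ξ⌋₊`, `lb T` likewise, `jB = jb ξ`, `lB = lb ξ`;   `cls T = Nat.pair (Nat.pair (mb T) (k T)) (Nat.pair (jb T) (lb T))`, decode with `Nat.unpair`.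
 all four indices are `≤ n₀ = ⌈(Bx + 3 Hmax + 3)/ξ⌉₊` (for `k`: C(4), B: `log #pop ≤ log C₂ + 4 ℓ (u r - bs)`, `u r ≤ Hmax/2`), `S0 = ((n₀+1)^2+1)^2` (`Nat.pair_lt_max_add_one_sq`).
 `capcount` for an arbitrary `F` : replace `F.tc` by `j.Cr ε r` (neither `InCap` nor `wt` sees `tc`).   `fibre`: `acap T' = acap T`, same population, same `k` ⟹ same `cls`.
-/

set_option autoImplicit false

namespace Claimed.Agent.R255.Pkt

open MeasureTheory Claimed.Agent.R255.Osc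
open scoped BigOperators
open Classical

theorem p9_rpow_exp {ε : ℝ} (h0 : 0 < ε) (y : ℝ) : ε ^ y = Real.exp (-(lg ε * y)) := by
  rw [Real.rpow_def_of_pos h0]
  unfold lg
  rw [one_div, Real.log_inv]
  ring_nf

/-- L-CL-A: the norm bound for one test -/
theorem p9_pairing_le (Ra b0 : ℝ) (hRa : 0 ≤ Ra) (hb0 : 0 ≤ b0) : ∃ C₁ : ℝ, 1 ≤ C₁ ∧
    ∀ (lam ρ : ℝ) (Φ : ℝ → E2 → E2 → ℝ) (f : E2 → ℂ) (s : Site), 0 < ρ → MemLp f 2 volume →
      Continuous s.ψ → (∀ z, s.ψ z ≠ 0 → ‖z‖ ≤ Ra) → (∀ z, ‖s.ψ z‖ ≤ b0) →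
      ‖pairing lam ρ Φ f s‖ ^ 2 ≤ C₁ * ∫ v : E2, ‖f v‖ ^ 2 := by
  refine ⟨max 1 (b0 ^ 2 * (Real.pi * Ra ^ 2)), le_max_left _ _, ?_⟩
  intro lam ρ Φ f s hρ hf hψc hψs hψb
  obtain ⟨h, hh⟩ : ∃ h : E2 → ℂ, h = fun v => s.ψ (ρ⁻¹ • (v - s.V)) := ⟨_, rfl⟩
  have hcont : Continuous h := by
    rw [hh]
    have hc1 : Continuous fun v : E2 => ρ⁻¹ • (v - s.V) := by fun_prop
    exact hψc.comp hc1
  have hzero : ∀ v, v ∉ Metric.closedBall s.V (ρ * Ra) → h v = 0 := by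
    intro v hv
    rw [hh]
    by_contra hne
    apply hv
    have h1 := hψs _ hne
    rw [norm_smul, norm_inv, Real.norm_eq_abs, abs_of_pos hρ, inv_mul_le_iff₀ hρ] at h1
    rw [Metric.mem_closedBall, dist_eq_norm]
    exact h1
  have hcs : HasCompactSupport h := HasCompactSupport.intro (isCompact_closedBall s.V (ρ * Ra)) hzero
  have hmem : MemLp h 2 volume := hcont.memLp_of_hasCompactSupport hcs
  have hbd : ∀ v, ‖h v‖ ≤ b0 := fun v => by rw [hh]; exact hψb _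
  -- the `L²` norm of the window
  have hint : ∫ v : E2, ‖h v‖ ^ 2 ≤ b0 ^ 2 * (Real.pi * Ra ^ 2) * ρ ^ 2 := by
    have hc2 : Continuous fun v : E2 => ‖h v‖ ^ 2 := by fun_prop
    have hi1 : Integrable (fun v : E2 => ‖h v‖ ^ 2) volume :=
      hc2.integrable_of_hasCompactSupport
        (HasCompactSupport.intro (isCompact_closedBall s.V (ρ * Ra)) fun v hv => by
          show ‖h v‖ ^ 2 = 0
          rw [hzero v hv]; simp)
    have hi2 : Integrable ((Metric.closedBall s.V (ρ * Ra)).indicator fun _ : E2 => b0 ^ 2) volume :=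
      (integrable_indicator_iff measurableSet_closedBall).2
        (integrableOn_const (isCompact_closedBall s.V (ρ * Ra)).measure_lt_top.ne)
    have hle : ∫ v : E2, ‖h v‖ ^ 2 ≤ ∫ v : E2, (Metric.closedBall s.V (ρ * Ra)).indicator (fun _ : E2 => b0 ^ 2) v := by
      refine integral_mono hi1 hi2 fun v => ?_
      by_cases hv : v ∈ Metric.closedBall s.V (ρ * Ra)
      · rw [Set.indicator_of_mem hv]
        exact pow_le_pow_left₀ (norm_nonneg _) (hbd v) 2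
      · rw [Set.indicator_of_notMem hv, hzero v hv]
        simp
    refine hle.trans (le_of_eq ?_)
    rw [integral_indicator_const _ measurableSet_closedBall, Measure.real,
      EuclideanSpace.volume_closedBall_fin_two, ENNReal.toReal_mul, ENNReal.toReal_pow,
      ENNReal.toReal_ofReal (by positivity), ENNReal.toReal_ofReal Real.pi_pos.le, smul_eq_mul]
    ring
  -- Cauchy-Schwarz
  have hCS := Claimed.Agent.R255.pk_pair_le (μ := (volume : Measure E2)) (fun v => ((‖f v‖ : ℝ) : ℂ))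
    (fun v => ((‖h v‖ : ℝ) : ℂ)) hf.norm.ofReal hmem.norm.ofReal
  have e1 : ∫ v : E2, ((‖f v‖ : ℝ) : ℂ) * ((‖h v‖ : ℝ) : ℂ) = ((∫ v : E2, ‖f v‖ * ‖h v‖ : ℝ) : ℂ) := by
    rw [← integral_complex_ofReal]
    refine integral_congr_ae (Filter.Eventually.of_forall fun v => ?_)
    simp
  rw [e1, Complex.norm_real] at hCS
  simp only [Complex.norm_real, norm_norm] at hCS
  have hI0 : 0 ≤ ∫ v : E2, ‖f v‖ * ‖h v‖ := integral_nonneg fun v => by positivity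
  rw [Real.norm_of_nonneg hI0] at hCS
  have hf0 : 0 ≤ ∫ v : E2, ‖f v‖ ^ 2 := integral_nonneg fun v => by positivity
  -- the pairing
  have hnorm : ‖pairing lam ρ Φ f s‖ ≤ ρ⁻¹ * ∫ v : E2, ‖f v‖ * ‖h v‖ := by
    unfold pairing
    rw [norm_mul, Complex.norm_real, Real.norm_of_nonneg (by positivity)]
    refine mul_le_mul_of_nonneg_left ?_ (by positivity)
    refine (norm_integral_le_integral_norm _).trans (le_of_eq ?_)
    refine integral_congr_ae (Filter.Eventually.of_forall fun v => ?_)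
    simp only
    rw [norm_mul, norm_mul, mul_comm Complex.I, Complex.norm_exp_ofReal_mul_I, mul_one, hh]
  calc ‖pairing lam ρ Φ f s‖ ^ 2 ≤ (ρ⁻¹ * ∫ v : E2, ‖f v‖ * ‖h v‖) ^ 2 :=
        pow_le_pow_left₀ (norm_nonneg _) hnorm 2
    _ = (ρ⁻¹) ^ 2 * (∫ v : E2, ‖f v‖ * ‖h v‖) ^ 2 := mul_pow _ _ _
    _ ≤ (ρ⁻¹) ^ 2 * ((∫ v : E2, ‖f v‖ ^ 2) * (b0 ^ 2 * (Real.pi * Ra ^ 2) * ρ ^ 2)) :=
        mul_le_mul_of_nonneg_left (hCS.trans (mul_le_mul_of_nonneg_left hint hf0)) (by positivity)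
    _ = b0 ^ 2 * (Real.pi * Ra ^ 2) * ∫ v : E2, ‖f v‖ ^ 2 := by
        field_simp
    _ ≤ max 1 (b0 ^ 2 * (Real.pi * Ra ^ 2)) * ∫ v : E2, ‖f v‖ ^ 2 :=
        mul_le_mul_of_nonneg_right (le_max_right _ _) hf0

theorem p9_cell_card (a R : ℝ) (hR : 0 ≤ R) : ((Finset.Icc ⌊a - 2 * R⌋ ⌊a + 2 * R⌋).card : ℝ) ≤ 4 * R + 2 := by
  rw [Int.card_Icc]
  have hle : ⌊a - 2 * R⌋ ≤ ⌊a + 2 * R⌋ := Int.floor_mono (by linarith)
  have h0 : 0 ≤ ⌊a + 2 * R⌋ + 1 - ⌊a - 2 * R⌋ := by omega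
  have e : (((⌊a + 2 * R⌋ + 1 - ⌊a - 2 * R⌋).toNat : ℕ) : ℝ) = ((⌊a + 2 * R⌋ + 1 - ⌊a - 2 * R⌋ : ℤ) : ℝ) := by
    conv_rhs => rw [← Int.toNat_of_nonneg h0]
    rw [Int.cast_natCast]
  rw [e]
  push_cast
  have h1 := Int.floor_le (a + 2 * R)
  have h2 := Int.lt_floor_add_one (a - 2 * R)
  linarith

theorem p9_cell_mem {x x₀ R ρ : ℝ} (hρ : 0 < ρ) (h : |x - x₀| ≤ R * ρ) :
    ⌊2 * x / ρ⌋ ∈ Finset.Icc ⌊2 * x₀ / ρ - 2 * R⌋ ⌊2 * x₀ / ρ + 2 * R⌋ := by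
  obtain ⟨h1, h2⟩ := abs_le.1 h
  have e : 2 * x / ρ = 2 * x₀ / ρ + 2 * ((x - x₀) / ρ) := by field_simp; ring
  have h3 : (x - x₀) / ρ ≤ R := by rw [div_le_iff₀ hρ]; exact h2
  have h4 : -R ≤ (x - x₀) / ρ := by rw [le_div_iff₀ hρ]; linarith
  rw [Finset.mem_Icc]
  exact ⟨Int.floor_mono (by rw [e]; linarith), Int.floor_mono (by rw [e]; linarith)⟩

theorem p9_cell_close {x y ρ : ℝ} (hρ : 0 < ρ) (h : ⌊2 * x / ρ⌋ = ⌊2 * y / ρ⌋) : |x - y| < ρ / 2 := by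
  have h1 := Int.abs_sub_lt_one_of_floor_eq_floor h
  have e : 2 * x / ρ - 2 * y / ρ = (x - y) * (2 / ρ) := by field_simp
  rw [e, abs_mul, abs_of_pos (by positivity : 0 < 2 / ρ)] at h1
  have h2 : |x - y| * (2 / ρ) * (ρ / 2) < 1 * (ρ / 2) := mul_lt_mul_of_pos_right h1 (by positivity)
  have e2 : |x - y| * (2 / ρ) * (ρ / 2) = |x - y| := by field_simp
  rw [e2] at h2
  linarith

theorem p9_norm_lt {w : E2} {ρ : ℝ} (hρ : 0 < ρ) (h0 : |w 0| < ρ / 2) (h1 : |w 1| < ρ / 2) : ‖w‖ < ρ := by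
  have h2 : ‖w‖ ^ 2 = w 0 ^ 2 + w 1 ^ 2 := by
    rw [EuclideanSpace.norm_sq_eq, Fin.sum_univ_two]
    simp [sq_abs]
  have h3 : w 0 ^ 2 < (ρ / 2) ^ 2 := sq_lt_sq' (by linarith [(abs_lt.1 h0).1]) (abs_lt.1 h0).2
  have h4 : w 1 ^ 2 < (ρ / 2) ^ 2 := sq_lt_sq' (by linarith [(abs_lt.1 h1).1]) (abs_lt.1 h1).2
  have h5 : ‖w‖ ^ 2 < ρ ^ 2 := by nlinarith
  exact lt_of_pow_lt_pow_left₀ 2 hρ.le h5

theorem p9_coord_le (w : E2) (k : Fin 2) : |w k| ≤ ‖w‖ := by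
  have := PiLp.norm_apply_le w k
  rwa [Real.norm_eq_abs] at this

/-- L-CL-B: packing -/
theorem p9_pack {ι : Type} (s : Finset ι) (V X : ι → E2) (V₀ X₀ : E2) (ρ σ R₁ R₂ : ℝ) (Mu : ℕ)
    (hρ : 0 < ρ) (hσ : 0 < σ) (hR₁ : 0 ≤ R₁) (hR₂ : 0 ≤ R₂)
    (hV : ∀ i ∈ s, ‖V i - V₀‖ ≤ R₁ * ρ) (hX : ∀ i ∈ s, ‖X i - X₀‖ ≤ R₂ * σ)
    (hmult : ∀ i ∈ s, (s.filter fun j => ‖V j - V i‖ < ρ ∧ ‖X j - X i‖ < σ).card ≤ Mu) :
    (s.card : ℝ) ≤ Mu * ((4 * R₁ + 2) ^ 2 * (4 * R₂ + 2) ^ 2) := by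
  set c : ι → ℤ × ℤ × ℤ × ℤ := fun i =>
    (⌊2 * V i 0 / ρ⌋, ⌊2 * V i 1 / ρ⌋, ⌊2 * X i 0 / σ⌋, ⌊2 * X i 1 / σ⌋) with hc
  have h1 : s.card ≤ Mu * (s.image c).card := by
    refine Finset.card_le_mul_card_image s Mu ?_
    intro a ha
    obtain ⟨i, hi, rfl⟩ := Finset.mem_image.1 ha
    refine le_trans (Finset.card_le_card ?_) (hmult i hi)
    intro j hj
    rw [Finset.mem_filter] at hj ⊢
    obtain ⟨hj, e⟩ := hj
    simp only [hc, Prod.mk.injEq] at e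
    obtain ⟨e0, e1, e2, e3⟩ := e
    exact ⟨hj, p9_norm_lt hρ (p9_cell_close hρ e0) (p9_cell_close hρ e1),
      p9_norm_lt hσ (p9_cell_close hσ e2) (p9_cell_close hσ e3)⟩
  have h2 : s.image c ⊆ (Finset.Icc ⌊2 * V₀ 0 / ρ - 2 * R₁⌋ ⌊2 * V₀ 0 / ρ + 2 * R₁⌋) ×ˢ
      ((Finset.Icc ⌊2 * V₀ 1 / ρ - 2 * R₁⌋ ⌊2 * V₀ 1 / ρ + 2 * R₁⌋) ×ˢ
      ((Finset.Icc ⌊2 * X₀ 0 / σ - 2 * R₂⌋ ⌊2 * X₀ 0 / σ + 2 * R₂⌋) ×ˢ
      (Finset.Icc ⌊2 * X₀ 1 / σ - 2 * R₂⌋ ⌊2 * X₀ 1 / σ + 2 * R₂⌋))) := by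
    intro a ha
    obtain ⟨i, hi, rfl⟩ := Finset.mem_image.1 ha
    simp only [Finset.mem_product, hc]
    exact ⟨p9_cell_mem hρ ((p9_coord_le (V i - V₀) 0).trans (hV i hi)),
      p9_cell_mem hρ ((p9_coord_le (V i - V₀) 1).trans (hV i hi)),
      p9_cell_mem hσ ((p9_coord_le (X i - X₀) 0).trans (hX i hi)),
      p9_cell_mem hσ ((p9_coord_le (X i - X₀) 1).trans (hX i hi))⟩
  have h3 := Finset.card_le_card h2
  rw [Finset.card_product, Finset.card_product, Finset.card_product] at h3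
  have a0 := p9_cell_card (2 * V₀ 0 / ρ) R₁ hR₁
  have a1 := p9_cell_card (2 * V₀ 1 / ρ) R₁ hR₁
  have a2 := p9_cell_card (2 * X₀ 0 / σ) R₂ hR₂
  have a3 := p9_cell_card (2 * X₀ 1 / σ) R₂ hR₂
  have h4 : ((s.image c).card : ℝ) ≤ (4 * R₁ + 2) ^ 2 * (4 * R₂ + 2) ^ 2 := by
    refine le_trans (Nat.cast_le.2 h3) ?_
    push_cast
    calc _ ≤ (4 * R₁ + 2) * ((4 * R₁ + 2) * ((4 * R₂ + 2) * (4 * R₂ + 2))) := by gcongr
      _ = _ := by ring
  calc (s.card : ℝ) ≤ ((Mu * (s.image c).card : ℕ) : ℝ) := Nat.cast_le.2 h1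
    _ = Mu * ((s.image c).card : ℝ) := by push_cast; ring
    _ ≤ _ := by gcongr

/-- the weight of a menu element: supremum of `wl` over the admissible caps containing it -/
noncomputable def p9W {𝔸 Λ G : Type} (adm : Λ → G → Prop) (inc : G → 𝔸 → Prop) (wl : G → ℝ) (j : Λ)
    (U : Finset 𝔸) : ℝ :=
  sSup {x | ∃ F, adm j F ∧ (∀ T ∈ U, inc F T) ∧ x = wl F}

theorem p9W_bdd {𝔸 Λ G : Type} (adm : Λ → G → Prop) (inc : G → 𝔸 → Prop) (wl : G → ℝ) (Wmax : ℝ)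
    (hw1 : ∀ j F, adm j F → wl F ≤ Wmax) (j : Λ) (U : Finset 𝔸) :
    BddAbove {x | ∃ F, adm j F ∧ (∀ T ∈ U, inc F T) ∧ x = wl F} :=
  ⟨Wmax, by rintro x ⟨F, hF, -, rfl⟩; exact hw1 j F hF⟩

theorem p9W_ge {𝔸 Λ G : Type} (adm : Λ → G → Prop) (inc : G → 𝔸 → Prop) (wl : G → ℝ) (Wmax : ℝ)
    (hw1 : ∀ j F, adm j F → wl F ≤ Wmax) (j : Λ) (U : Finset 𝔸) (F : G) (hF : adm j F)
    (hU : ∀ T ∈ U, inc F T) : wl F ≤ p9W adm inc wl j U :=
  le_csSup (p9W_bdd adm inc wl Wmax hw1 j U) ⟨F, hF, hU, rfl⟩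

theorem p9W_le {𝔸 Λ G : Type} (adm : Λ → G → Prop) (inc : G → 𝔸 → Prop) (wl : G → ℝ) (Wmax : ℝ)
    (hw1 : ∀ j F, adm j F → wl F ≤ Wmax) (j : Λ) (U : Finset 𝔸)
    (h : ∃ F, adm j F ∧ ∀ T ∈ U, inc F T) : p9W adm inc wl j U ≤ Wmax := by
  obtain ⟨F, hF, hU⟩ := h
  refine csSup_le ⟨wl F, F, hF, hU, rfl⟩ ?_
  rintro x ⟨F', hF', -, rfl⟩
  exact hw1 j F' hF'

theorem p9W_near {𝔸 Λ G : Type} (adm : Λ → G → Prop) (inc : G → 𝔸 → Prop) (wl : G → ℝ) (ξ : ℝ) (hξ : 0 < ξ)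
    (j : Λ) (U : Finset 𝔸) (h : ∃ F, adm j F ∧ ∀ T ∈ U, inc F T) :
    ∃ F, adm j F ∧ (∀ T ∈ U, inc F T) ∧ p9W adm inc wl j U - ξ < wl F := by
  obtain ⟨F, hF, hU⟩ := h
  obtain ⟨x, ⟨F', hF', hU', rfl⟩, hx⟩ :=
    exists_lt_of_lt_csSup (s := {x | ∃ F, adm j F ∧ (∀ T ∈ U, inc F T) ∧ x = wl F})
      ⟨wl F, F, hF, hU, rfl⟩ (show p9W adm inc wl j U - ξ < sSup _ by unfold p9W; linarith)
  exact ⟨F', hF', hU', hx⟩

/-- one population -/
theorem p9_cap_class_pop {𝔸 Λ G : Type} [Fintype 𝔸] (pop : 𝔸 → Λ) (adm : Λ → G → Prop)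
    (inc : G → 𝔸 → Prop) (wl : G → ℝ) (Wmax ξ : ℝ) (hξ : 0 < ξ)
    (hw0 : ∀ j F, adm j F → 0 ≤ wl F) (hw1 : ∀ j F, adm j F → wl F ≤ Wmax)
    (hcov : ∀ T, ∃ F, adm (pop T) F ∧ inc F T) (j : Λ) :
    ∃ (k : 𝔸 → ℕ) (E : 𝔸 → Finset 𝔸),
      (∀ t, pop t = j → t ∈ E t ∧ ∃ F, adm j F ∧ ∀ T ∈ E t, inc F T) ∧
      (∀ (κ : ℕ) (F : G), adm j F →
        ((Finset.univ.filter fun T => pop T = j ∧ k T = κ ∧ inc F T).card : ℝ)
          ≤ Real.exp (((κ : ℝ) + 1) * ξ - wl F)) ∧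
      (∀ t, pop t = j → Real.exp (((k t : ℝ) + 1) * ξ - ξ - p9W adm inc wl j (E t))
        ≤ ((Finset.univ.filter fun t' => pop t' = j ∧ E t' = E t).card : ℝ)) ∧
      (∀ t t', pop t = j → pop t' = j → E t' = E t → k t' = k t) ∧
      (∀ t, pop t = j → (k t : ℝ) * ξ
        ≤ Real.log ((Finset.univ.filter fun t' => pop t' = j).card : ℝ) + p9W adm inc wl j (E t)) := by
  by_cases hj : ∃ T₀, pop T₀ = j
  swap
  · push Not at hj
    refine ⟨fun _ => 0, fun _ => ∅, fun t ht => absurd ht (hj t), ?_, fun t ht => absurd ht (hj t),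
      fun t _ ht => absurd ht (hj t), fun t ht => absurd ht (hj t)⟩
    intro κ F _
    have : (Finset.univ.filter fun T => pop T = j ∧ (0 : ℕ) = κ ∧ inc F T) = ∅ := by
      ext T
      simp [hj T]
    rw [this]
    simpa using (Real.exp_pos _).le
  obtain ⟨T₀, hT₀⟩ := hj
  obtain ⟨F₀, hF₀, -⟩ := hcov T₀
  rw [hT₀] at hF₀
  let Cap : Type := {U : Finset 𝔸 // ∃ F, adm j F ∧ ∀ T ∈ U, inc F T}
  have : Nonempty Cap := ⟨⟨∅, F₀, hF₀, by simp⟩⟩
  have : Finite Cap := Subtype.finite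
  let R : Finset 𝔸 := Finset.univ.filter fun t => pop t = j
  have memR : ∀ t, t ∈ R ↔ pop t = j := by intro t; simp [R]
  obtain ⟨k, E, h1, h2, h3, h4, h5⟩ := p9_cap_class (T := 𝔸) (Cap := Cap) (fun U t => t ∈ U.1)
    (fun U => p9W adm inc wl j U.1) (by
      rintro ⟨U, F, hF, hU⟩
      exact le_trans (hw0 j F hF) (p9W_ge adm inc wl Wmax hw1 j U F hF hU)) ξ hξ R (by
      intro t ht
      obtain ⟨F, hF, hi⟩ := hcov t
      rw [(memR t).1 ht] at hF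
      exact ⟨⟨{t}, F, hF, by simpa using hi⟩, by simp⟩)
  refine ⟨k, fun t => (E t).1, ?_, ?_, ?_, ?_, ?_⟩
  · intro t ht
    exact ⟨h1 t ((memR t).2 ht), (E t).2⟩
  · intro κ F hF
    have := h2 κ (R.filter fun t => k t = κ) (Finset.filter_subset _ _) (by
      intro t ht; exact (Finset.mem_filter.1 ht).2)
      ⟨Finset.univ.filter fun T => inc F T, F, hF, by intro T hT; exact (Finset.mem_filter.1 hT).2⟩
    have hW := p9W_ge adm inc wl Wmax hw1 j (Finset.univ.filter fun T => inc F T) F hF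
      (by intro T hT; exact (Finset.mem_filter.1 hT).2)
    refine le_trans ?_ (this.trans (Real.exp_le_exp.2 (by
      change _ - p9W adm inc wl j (Finset.univ.filter fun T => inc F T) ≤ _
      linarith)))
    refine Nat.cast_le.2 (Finset.card_le_card ?_)
    intro T hT
    have hT' := (Finset.mem_filter.1 hT).2
    simp only [Finset.mem_filter, Finset.mem_univ, true_and]
    exact ⟨⟨(memR T).2 hT'.1, hT'.2.1⟩, hT'.2.2⟩
  · intro t ht
    have := h3 t ((memR t).2 ht)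
    refine this.trans ?_
    refine Nat.cast_le.2 (Finset.card_le_card ?_)
    intro T hT
    simp only [Finset.mem_filter, Finset.mem_univ, true_and] at hT ⊢
    exact ⟨(memR T).1 hT.1, congrArg Subtype.val hT.2⟩
  · intro t t' ht ht' hE
    exact h4 t ((memR t).2 ht) t' ((memR t').2 ht') (Subtype.ext hE)
  · intro t ht
    exact h5 t ((memR t).2 ht)

/-- L-CL-C: greedy classes, supremum over an arbitrary family of caps -/
theorem p9_cap_class_sup {𝔸 Λ G : Type} [Fintype 𝔸] (pop : 𝔸 → Λ) (adm : Λ → G → Prop)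
    (inc : G → 𝔸 → Prop) (wl : G → ℝ) (Wmax ξ : ℝ) (hξ : 0 < ξ)
    (hw0 : ∀ j F, adm j F → 0 ≤ wl F) (hw1 : ∀ j F, adm j F → wl F ≤ Wmax)
    (hcov : ∀ T, ∃ F, adm (pop T) F ∧ inc F T) :
    ∃ (k : 𝔸 → ℕ) (acap : 𝔸 → G),
      (∀ T, adm (pop T) (acap T) ∧ inc (acap T) T) ∧
      (∀ (j : Λ) (κ : ℕ) (F : G), adm j F →
        ((Finset.univ.filter fun T => pop T = j ∧ k T = κ ∧ inc F T).card : ℝ)
          ≤ Real.exp (((κ : ℝ) + 1) * ξ - wl F)) ∧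
      (∀ T, Real.exp (((k T : ℝ) + 1) * ξ - 2 * ξ - wl (acap T))
        ≤ ((Finset.univ.filter fun T' => pop T' = pop T ∧ k T' = k T ∧ acap T' = acap T).card : ℝ)) ∧
      (∀ T, (k T : ℝ) * ξ
        ≤ Real.log ((Finset.univ.filter fun T' => pop T' = pop T).card : ℝ) + Wmax) := by
  choose kk EE h1 h2 h3 h4 h5 using p9_cap_class_pop pop adm inc wl Wmax ξ hξ hw0 hw1 hcov
  choose ch hch using p9W_near adm inc wl ξ hξ
  have hcong : ∀ (j j' : Λ) (U U' : Finset 𝔸) (h : ∃ F, adm j F ∧ ∀ T ∈ U, inc F T)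
      (h' : ∃ F, adm j' F ∧ ∀ T ∈ U', inc F T), j = j' → U = U' → ch j U h = ch j' U' h' := by
    intro j j' U U' h h' e1 e2
    subst e1
    subst e2
    rfl
  refine ⟨fun T => kk (pop T) T, fun T => ch (pop T) (EE (pop T) T) (h1 (pop T) T rfl).2, ?_, ?_, ?_, ?_⟩
  · intro T
    have := hch (pop T) (EE (pop T) T) (h1 (pop T) T rfl).2
    exact ⟨this.1, this.2.1 T (h1 (pop T) T rfl).1⟩
  · intro j κ F hF
    refine le_trans ?_ (h2 j κ F hF)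
    refine Nat.cast_le.2 (Finset.card_le_card ?_)
    intro T hT
    simp only [Finset.mem_filter, Finset.mem_univ, true_and] at hT ⊢
    obtain ⟨e, hk, hi⟩ := hT
    subst e
    exact ⟨rfl, hk, hi⟩
  · intro T
    have hn := (hch (pop T) (EE (pop T) T) (h1 (pop T) T rfl).2).2.2
    refine le_trans (Real.exp_le_exp.2 ?_) (le_trans (h3 (pop T) T rfl) ?_)
    · linarith
    · refine Nat.cast_le.2 (Finset.card_le_card ?_)
      intro T' hT'
      simp only [Finset.mem_filter, Finset.mem_univ, true_and] at hT' ⊢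
      obtain ⟨e, hE⟩ := hT'
      refine ⟨e, ?_, ?_⟩
      · rw [e]
        exact h4 (pop T) T T' rfl e hE
      · exact hcong _ _ _ _ _ _ e (by rw [e]; exact hE)
  · intro T
    have := h5 (pop T) T rfl
    have hW := p9W_le adm inc wl Wmax hw1 (pop T) (EE (pop T) T) (h1 (pop T) T rfl).2
    linarith

theorem p9_cd_floor_bin {ξ y : ℝ} (hξ : 0 < ξ) (hy : 0 ≤ y) :
    (⌊y / ξ⌋₊ : ℝ) * ξ ≤ y ∧ y < ((⌊y / ξ⌋₊ : ℝ) + 1) * ξ := by
  have h0 : 0 ≤ y / ξ := div_nonneg hy hξ.le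
  constructor
  · have := Nat.floor_le h0
    calc (⌊y / ξ⌋₊ : ℝ) * ξ ≤ y / ξ * ξ := by gcongr
      _ = y := by field_simp
  · have := Nat.lt_floor_add_one (y / ξ)
    calc y = y / ξ * ξ := by field_simp
      _ < _ := by gcongr

theorem p9_cd_coef_le {C₁ : ℝ} (p : Atoms.Par)
    (hC : ∀ (lam ρ : ℝ) (Φ : ℝ → E2 → E2 → ℝ) (f : E2 → ℂ) (s : Site), 0 < ρ → MemLp f 2 volume →
      Continuous s.ψ → (∀ z, s.ψ z ≠ 0 → ‖z‖ ≤ max p.Ra 0) → (∀ z, ‖s.ψ z‖ ≤ max (p.Bb 0) 0) →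
      ‖pairing lam ρ Φ f s‖ ^ 2 ≤ C₁ * ∫ v : E2, ‖f v‖ ^ 2)
    (E : PEnv) (B : PBd) (hE : E.Obeys B) (At : Atoms) (r : ℝ) (T : At.𝔸)
    (hamp : AmpC p.Ra p.Bb (At.asite T).ψ) :
    ‖At.coef E r T‖ ^ 2 ≤ C₁ * E.nrm2 := by
  unfold Atoms.coef PEnv.nrm2
  apply hC
  · exact Real.rpow_pos_of_pos hE.ε0 _
  · exact hE.mem
  · show Continuous fun z => (starRingEnd ℂ) ((At.asite T).ψ z)
    exact Complex.continuous_conj.comp hamp.smooth.continuous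
  · intro z hz
    have : (At.asite T).ψ z ≠ 0 := by
      intro h
      apply hz
      show (starRingEnd ℂ) ((At.asite T).ψ z) = 0
      rw [h]; simp
    exact (hamp.supp z this).trans (le_max_left _ _)
  · intro z
    show ‖(starRingEnd ℂ) ((At.asite T).ψ z)‖ ≤ _
    rw [RCLike.norm_conj]
    have := hamp.bound 0 z
    rw [norm_iteratedFDeriv_zero] at this
    exact this.trans (le_max_left _ _)

theorem p9_cd_pop_card (E : PEnv) (B : PBd) (hE : E.Obeys B) (t r bs : ℝ) (p : Atoms.Par) (At : Atoms)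
    (hA : At.Good E B t r bs p) (hbs : bs ≤ E.u r) (j : Loc0) :
    ((Finset.univ.filter fun T => At.loc T = j).card : ℝ)
      ≤ (p.Mu * (4 * max p.Ca 0 + 2) ^ 4) * E.ε ^ (-(4 * (E.u r - bs))) := by
  have hε0 := hE.ε0
  have hε1 := hE.ε1
  set Ca : ℝ := max p.Ca 0 with hCa
  have hCa0 : 0 ≤ Ca := le_max_right _ _
  set w : ℝ := E.ε ^ (bs - E.u r) with hw
  have hw0 : 0 < w := Real.rpow_pos_of_pos hε0 _
  have hw1 : 1 ≤ w := Real.one_le_rpow_of_pos_of_le_one_of_nonpos hε0 hε1.le (by linarith)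
  have key := p9_pack (Finset.univ.filter fun T => At.loc T = j) (fun T => (At.asite T).V)
    (fun T => (At.asite T).X) (j.VJ E.ε bs) (j.XJ E.ε r bs) (E.rho r) (E.sig r) (Ca * w) (Ca * w) p.Mu
    (Real.rpow_pos_of_pos hε0 _) (Real.rpow_pos_of_pos hε0 _) (by positivity) (by positivity)
    (by
      intro T hT
      rw [Finset.mem_filter] at hT
      have h := hA.nearV T
      rw [hT.2] at h
      refine h.trans ?_
      have e : Ca * w * E.rho r = Ca * E.ε ^ bs := by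
        unfold PEnv.rho
        rw [mul_assoc, hw, ← Real.rpow_add hε0]
        congr 2; ring
      rw [e]
      exact mul_le_mul_of_nonneg_right (le_max_left _ _) (Real.rpow_pos_of_pos hε0 _).le)
    (by
      intro T hT
      rw [Finset.mem_filter] at hT
      have h := hA.nearX T
      rw [hT.2] at h
      refine h.trans ?_
      have e : Ca * w * E.sig r = Ca * (E.ε ^ r * E.ε ^ bs) := by
        unfold PEnv.sig
        rw [mul_assoc, hw, ← Real.rpow_add hε0, ← Real.rpow_add hε0]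
        congr 2; ring
      rw [e]
      exact mul_le_mul_of_nonneg_right (le_max_left _ _)
        (mul_pos (Real.rpow_pos_of_pos hε0 _) (Real.rpow_pos_of_pos hε0 _)).le)
    (by
      intro T hT
      rw [Finset.mem_filter] at hT
      have h := hA.mult T
      rw [Finset.filter_filter]
      rw [hT.2] at h
      exact h)
  refine key.trans ?_
  have e4 : E.ε ^ (-(4 * (E.u r - bs))) = w ^ 4 := by
    rw [hw, ← Real.rpow_natCast, ← Real.rpow_mul hε0.le]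
    congr 1; push_cast; ring
  rw [e4, mul_assoc]
  apply mul_le_mul_of_nonneg_left _ (Nat.cast_nonneg _)
  have h1 : 4 * (Ca * w) + 2 ≤ (4 * Ca + 2) * w := by nlinarith
  have h0 : 0 ≤ 4 * (Ca * w) + 2 := by positivity
  calc (4 * (Ca * w) + 2) ^ 2 * (4 * (Ca * w) + 2) ^ 2 = (4 * (Ca * w) + 2) ^ 4 := by ring
    _ ≤ ((4 * Ca + 2) * w) ^ 4 := by gcongr
    _ = (4 * Ca + 2) ^ 4 * w ^ 4 := by ring

/-- L-CL-D: **L9.4** (verbatim the contract `classes_exist` of `Pkt/Cut.lean`) -/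
theorem p9_classes_exist (γ : ℝ) (h0 : 0 < γ) (h1 : γ < 1) (B : PBd) (hB : B.Good) (p : Atoms.Par) (ξ : ℝ) (hξ : 0 < ξ) :
    ∃ (S0 : ℕ) (ε₀ : ℝ), 0 < ε₀ ∧
      ∀ E : PEnv, E.Obeys B → E.ε < ε₀ → 0 < E.nrm2 → ∀ t r bs : ℝ, 0 ≤ r → r ≤ t → 0 ≤ bs → bs ≤ E.u t → bs ≤ E.L - t →
        ∀ At : Atoms, At.Good E B t r bs p → ∃ Cl : Classes At, Cl.Good γ E r bs ξ S0 := by
  obtain ⟨C₁, hC₁1, hC₁⟩ := p9_pairing_le (max p.Ra 0) (max (p.Bb 0) 0) (le_max_right _ _) (le_max_right _ _)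
  set C₂ : ℝ := max 1 (p.Mu * (4 * max p.Ca 0 + 2) ^ 4) with hC₂
  have hC₂1 : 1 ≤ C₂ := le_max_left _ _
  set n₀ : ℕ := ⌈(max p.Bx 0 + 3 * B.Hmax + 3) / ξ⌉₊ with hn₀
  refine ⟨((n₀ + 1) ^ 2) ^ 2, min (1 / C₁) (1 / C₂), by positivity, ?_⟩
  intro E hE hε hn t r bs hr hrt hbs hbsu hbsL At hA
  have hε0 := hE.ε0
  have hε1 := hE.ε1
  have hH0 : 0 ≤ B.Hmax := hE.H0.le.trans hE.H1
  set ℓ : ℝ := lg E.ε with hℓ
  have hℓ0 : 0 < ℓ := by
    rw [hℓ]; unfold lg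
    apply Real.log_pos
    rw [one_div]
    exact (one_lt_inv₀ hε0).2 hε1
  have hlog : ∀ C : ℝ, 1 ≤ C → E.ε < 1 / C → Real.log C ≤ ℓ := by
    intro C hC h
    rw [hℓ]; unfold lg
    apply Real.log_le_log (by linarith)
    rw [le_div_iff₀ hε0]
    have := (lt_div_iff₀ (by linarith)).1 h
    linarith
  have hlC₁ : Real.log C₁ ≤ ℓ := hlog C₁ hC₁1 (hε.trans_le (min_le_left _ _))
  have hlC₂ : Real.log C₂ ≤ ℓ := hlog C₂ hC₂1 (hε.trans_le (min_le_right _ _))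
  have hur : E.u t ≤ E.u r := by unfold PEnv.u; linarith
  have hurH : 2 * E.u r ≤ B.Hmax := by
    have := hE.H1
    unfold PEnv.u; linarith
  have hbsr : bs ≤ E.u r := hbsu.trans hur
  -- coefficients
  have hcU : ∀ T, ‖At.coef E r T‖ ^ 2 ≤ C₁ * E.nrm2 := fun T =>
    p9_cd_coef_le p hC₁ E B hE At r T (hA.amp T)
  have hcL : ∀ T, E.ε ^ p.Bx * E.nrm2 ≤ ‖At.coef E r T‖ ^ 2 := hA.floor
  have hc0 : ∀ T, 0 < ‖At.coef E r T‖ ^ 2 := fun T =>
    lt_of_lt_of_le (mul_pos (Real.rpow_pos_of_pos hε0 _) hn) (hcL T)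
  have hCn : 0 < C₁ * E.nrm2 := mul_pos (by linarith) hn
  set x : At.𝔸 → ℝ := fun T => Real.log (C₁ * E.nrm2 / ‖At.coef E r T‖ ^ 2) / ℓ with hx
  have hx0 : ∀ T, 0 ≤ x T := by
    intro T
    apply div_nonneg _ hℓ0.le
    apply Real.log_nonneg
    rw [le_div_iff₀ (hc0 T)]
    linarith [hcU T]
  have hx1 : ∀ T, x T ≤ max p.Bx 0 + 1 := by
    intro T
    rw [hx]
    simp only
    rw [div_le_iff₀ hℓ0]
    have h1 : C₁ * E.nrm2 / ‖At.coef E r T‖ ^ 2 ≤ C₁ * E.ε ^ (-p.Bx) := by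
      rw [div_le_iff₀ (hc0 T)]
      have h2 : C₁ * E.ε ^ (-p.Bx) * (E.ε ^ p.Bx * E.nrm2) = C₁ * E.nrm2 := by
        rw [Real.rpow_neg hε0.le]
        have := (Real.rpow_pos_of_pos hε0 p.Bx).ne'
        field_simp
      rw [← h2]
      apply mul_le_mul_of_nonneg_left (hcL T)
      have := Real.rpow_pos_of_pos hε0 (-p.Bx)
      positivity
    have h3 := Real.log_le_log (div_pos hCn (hc0 T)) h1
    rw [Real.log_mul (by linarith) (Real.rpow_pos_of_pos hε0 _).ne', p9_rpow_exp hε0, Real.log_exp] at h3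
    have h4 : p.Bx ≤ max p.Bx 0 := le_max_left _ _
    have h5 : ℓ * p.Bx ≤ ℓ * max p.Bx 0 := mul_le_mul_of_nonneg_left h4 hℓ0.le
    rw [← hℓ] at h3
    nlinarith
  have hcx : ∀ T, ‖At.coef E r T‖ ^ 2 = C₁ * E.nrm2 * E.ε ^ (x T) := by
    intro T
    rw [p9_rpow_exp hε0, ← hℓ, hx]
    simp only
    rw [mul_div_cancel₀ _ hℓ0.ne', Real.exp_neg, Real.exp_log (div_pos hCn (hc0 T))]
    have := (hc0 T).ne'
    field_simp
  set mb : At.𝔸 → ℕ := fun T => ⌊x T / ξ⌋₊ with hmb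
  set pop : At.𝔸 → Loc0 × ℕ := fun T => (At.loc T, mb T) with hpop
  set adm : Loc0 × ℕ → Geo → Prop := fun j F =>
    bs ≤ F.b ∧ F.b ≤ F.a ∧ F.a ≤ E.L - r ∧ F.a ≤ E.u r ∧ F.tc = j.1.Cr E.ε r with hadm
  set inc : Geo → At.𝔸 → Prop := fun F T => InCap 1 E.ε r F (At.asite T) with hinc
  set wl : Geo → ℝ := fun F => ℓ * (wt γ F - 2 * bs) with hwl
  have hw0 : ∀ j F, adm j F → 0 ≤ wl F := by
    intro j F hF
    obtain ⟨a1, a2, a3, a4, a5⟩ := hF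
    apply mul_nonneg hℓ0.le
    unfold wt
    nlinarith
  have hw1 : ∀ j F, adm j F → wl F ≤ ℓ * B.Hmax := by
    intro j F hF
    obtain ⟨a1, a2, a3, a4, a5⟩ := hF
    apply mul_le_mul_of_nonneg_left _ hℓ0.le
    unfold wt
    nlinarith
  have hcov : ∀ T, ∃ F, adm (pop T) F ∧ inc F T := by
    intro T
    refine ⟨⟨bs, bs, (At.loc T).Cr E.ε r, 0, toP (At.asite T).V, toP (At.asite T).X⟩,
      ⟨le_refl _, le_refl _, by linarith, hbsr, rfl⟩, ?_, ?_⟩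
    · constructor <;>
      · simp only [sub_self]
        have : ∀ z : ℝ × ℝ, ip 0 z = 0 := fun z => by simp [ip]
        rw [this, abs_zero]
        have := Real.rpow_pos_of_pos hε0 bs
        linarith
    · constructor <;>
      · simp only [sub_self]
        have : ∀ z : ℝ × ℝ, ip 0 z = 0 := fun z => by simp [ip]
        rw [this, abs_zero]
        have := Real.rpow_pos_of_pos hε0 (bs + r)
        linarith
  obtain ⟨k, acap, h1, h2, h3, h4⟩ :=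
    p9_cap_class_sup pop adm inc wl (ℓ * B.Hmax) (ℓ * ξ) (mul_pos hℓ0 hξ) hw0 hw1 hcov
  set jb : At.𝔸 → ℕ := fun T => ⌊((acap T).b - bs) / ξ⌋₊ with hjb
  set lb : At.𝔸 → ℕ := fun T => ⌊((acap T).a - bs) / ξ⌋₊ with hlb
  set cls : At.𝔸 → ℕ := fun T => Nat.pair (Nat.pair (mb T) (k T)) (Nat.pair (jb T) (lb T)) with hcls
  have hn₀ξ : max p.Bx 0 + 3 * B.Hmax + 3 ≤ (n₀ : ℝ) * ξ := by
    have := Nat.le_ceil ((max p.Bx 0 + 3 * B.Hmax + 3) / ξ)
    rw [div_le_iff₀ hξ] at this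
    exact this
  have hBx0 : 0 ≤ max p.Bx 0 := le_max_right _ _
  have hidx : ∀ (m : ℕ) (y : ℝ), (m : ℝ) * ξ ≤ y → y ≤ max p.Bx 0 + 3 * B.Hmax + 3 → m ≤ n₀ := by
    intro m y h h'
    have : (m : ℝ) * ξ ≤ (n₀ : ℝ) * ξ := h.trans (h'.trans hn₀ξ)
    exact_mod_cast le_of_mul_le_mul_right this hξ
  have hmbn : ∀ T, mb T ≤ n₀ := fun T =>
    hidx _ (x T) (p9_cd_floor_bin hξ (hx0 T)).1 (by linarith [hx1 T])
  have hjbn : ∀ T, jb T ≤ n₀ := fun T => by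
    obtain ⟨⟨a1, a2, a3, a4, a5⟩, -⟩ := h1 T
    exact hidx _ ((acap T).b - bs) (p9_cd_floor_bin hξ (by linarith)).1 (by linarith)
  have hlbn : ∀ T, lb T ≤ n₀ := fun T => by
    obtain ⟨⟨a1, a2, a3, a4, a5⟩, -⟩ := h1 T
    exact hidx _ ((acap T).a - bs) (p9_cd_floor_bin hξ (by linarith)).1 (by linarith)
  have hkn : ∀ T, k T ≤ n₀ := fun T => by
    have hcard : ∀ s : Finset At.𝔸, (∀ T', T' ∈ s ↔ pop T' = pop T) →
        Real.log (s.card : ℝ) ≤ Real.log C₂ + ℓ * (4 * (E.u r - bs)) := by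
      intro s hs
      have hsub : s ⊆ (Finset.univ.filter fun T' => At.loc T' = At.loc T) := by
        intro T' hT'
        rw [Finset.mem_filter]
        exact ⟨Finset.mem_univ _, congrArg Prod.fst ((hs T').1 hT')⟩
      have hpos : (0 : ℝ) < (s.card : ℝ) := by
        have : 0 < s.card := Finset.card_pos.2 ⟨T, (hs T).2 rfl⟩
        exact_mod_cast this
      have hle : (s.card : ℝ) ≤ C₂ * E.ε ^ (-(4 * (E.u r - bs))) := by
        have a := p9_cd_pop_card E B hE t r bs p At hA hbsr (At.loc T)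
        have b : (s.card : ℝ) ≤ ((Finset.univ.filter fun T' => At.loc T' = At.loc T).card : ℝ) := by
          exact_mod_cast Finset.card_le_card hsub
        refine b.trans (a.trans ?_)
        exact mul_le_mul_of_nonneg_right (le_max_right _ _) (Real.rpow_pos_of_pos hε0 _).le
      have hl := Real.log_le_log hpos hle
      rw [Real.log_mul (by linarith) (Real.rpow_pos_of_pos hε0 _).ne', p9_rpow_exp hε0, Real.log_exp,
        ← hℓ] at hl
      linarith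
    have h4T := (h4 T).trans (add_le_add_left (hcard _ (by intro T'; simp [Finset.mem_filter])) _)
    have hb : (k T : ℝ) * (ℓ * ξ) ≤ ℓ * (1 + 3 * B.Hmax) := by
      have : ℓ * (4 * (E.u r - bs)) ≤ ℓ * (2 * B.Hmax) :=
        mul_le_mul_of_nonneg_left (by linarith) hℓ0.le
      linarith
    have hb' : (k T : ℝ) * ξ ≤ 1 + 3 * B.Hmax := by
      have : ℓ * ((k T : ℝ) * ξ) ≤ ℓ * (1 + 3 * B.Hmax) := by linarith
      exact le_of_mul_le_mul_left this hℓ0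
    exact hidx _ _ hb' (by linarith)
  refine ⟨{ cls := cls
            mB := fun _ c => C₁ * E.nrm2 * E.ε ^ (((c.unpair.1.unpair.1 : ℝ) + 1) * ξ)
            gB := fun _ c => ((c.unpair.1.unpair.2 : ℝ) + 1) * ξ
            jB := fun _ c => (c.unpair.2.unpair.1 : ℝ) * ξ
            lB := fun _ c => (c.unpair.2.unpair.2 : ℝ) * ξ
            acap := acap }, ?_⟩
  have u1 : ∀ T, (cls T).unpair.1.unpair.1 = mb T := fun T => by simp [hcls, Nat.unpair_pair]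
  have u2 : ∀ T, (cls T).unpair.1.unpair.2 = k T := fun T => by simp [hcls, Nat.unpair_pair]
  have u3 : ∀ T, (cls T).unpair.2.unpair.1 = jb T := fun T => by simp [hcls, Nat.unpair_pair]
  have u4 : ∀ T, (cls T).unpair.2.unpair.2 = lb T := fun T => by simp [hcls, Nat.unpair_pair]
  constructor
  · -- ncls
    intro T
    show cls T < ((n₀ + 1) ^ 2) ^ 2
    have a1 : Nat.pair (mb T) (k T) < (n₀ + 1) ^ 2 :=
      lt_of_lt_of_le (Nat.pair_lt_max_add_one_sq _ _)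
        (Nat.pow_le_pow_left (Nat.succ_le_succ (max_le (hmbn T) (hkn T))) 2)
    have a2 : Nat.pair (jb T) (lb T) < (n₀ + 1) ^ 2 :=
      lt_of_lt_of_le (Nat.pair_lt_max_add_one_sq _ _)
        (Nat.pow_le_pow_left (Nat.succ_le_succ (max_le (hjbn T) (hlbn T))) 2)
    exact lt_of_lt_of_le (Nat.pair_lt_max_add_one_sq _ _)
      (Nat.pow_le_pow_left (Nat.succ_le_of_lt (max_lt a1 a2)) 2)
  · -- massLo
    intro T
    show C₁ * E.nrm2 * E.ε ^ (((((cls T).unpair.1.unpair.1 : ℕ) : ℝ) + 1) * ξ) ≤ _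
    rw [u1, hcx T]
    apply mul_le_mul_of_nonneg_left _ hCn.le
    exact Real.rpow_le_rpow_of_exponent_ge hε0 hε1.le (p9_cd_floor_bin hξ (hx0 T)).2.le
  · -- massHi
    intro T
    show _ ≤ C₁ * E.nrm2 * E.ε ^ (((((cls T).unpair.1.unpair.1 : ℕ) : ℝ) + 1) * ξ) * E.ε ^ (-ξ)
    rw [u1, hcx T, mul_assoc (C₁ * E.nrm2), ← Real.rpow_add hε0]
    apply mul_le_mul_of_nonneg_left _ hCn.le
    apply Real.rpow_le_rpow_of_exponent_ge hε0 hε1.le
    have := (p9_cd_floor_bin hξ (hx0 T)).1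
    linarith
  · -- capcount
    intro j c F b1 b2 b3 b4
    show ((Finset.univ.filter (fun T => At.loc T = j ∧ cls T = c ∧ InCap 1 E.ε r F (At.asite T))).card : ℝ)
      ≤ E.ε ^ (-(((c.unpair.1.unpair.2 : ℝ) + 1) * ξ - (wt γ F - 2 * bs)))
    have hF := h2 (j, c.unpair.1.unpair.1) c.unpair.1.unpair.2 { F with tc := j.Cr E.ε r }
      ⟨b1, b2, b3, b4, rfl⟩
    refine le_trans ?_ (hF.trans (le_of_eq ?_))
    · refine Nat.cast_le.2 (Finset.card_le_card ?_)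
      intro T hT
      simp only [Finset.mem_filter, Finset.mem_univ, true_and] at hT ⊢
      obtain ⟨e1, e2, e3⟩ := hT
      refine ⟨?_, ?_, e3⟩
      · rw [← e2, u1, ← e1]
      · rw [← e2, u2]
    · rw [p9_rpow_exp hε0, ← hℓ]
      congr 1
      show ((c.unpair.1.unpair.2 : ℝ) + 1) * (ℓ * ξ) - ℓ * (wt γ F - 2 * bs) = _
      ring
  · -- fibre
    intro T
    show E.ε ^ (-(((((cls T).unpair.1.unpair.2 : ℕ) : ℝ) + 1) * ξ - (wt γ (acap T) - 2 * bs) - 2 * ξ)) ≤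
      ((Finset.univ.filter (fun T' => At.loc T' = At.loc T ∧ cls T' = cls T ∧ acap T' = acap T)).card : ℝ)
    rw [u2]
    refine le_trans (le_of_eq ?_) ((h3 T).trans ?_)
    · rw [p9_rpow_exp hε0, ← hℓ]
      congr 1
      show _ = ((k T : ℝ) + 1) * (ℓ * ξ) - 2 * (ℓ * ξ) - ℓ * (wt γ (acap T) - 2 * bs)
      ring
    · refine Nat.cast_le.2 (Finset.card_le_card ?_)
      intro T' hT'
      simp only [Finset.mem_filter, Finset.mem_univ, true_and] at hT' ⊢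
      obtain ⟨e1, e2, e3⟩ := hT'
      refine ⟨congrArg Prod.fst e1, ?_, e3⟩
      have e1' : mb T' = mb T := congrArg Prod.snd e1
      show Nat.pair (Nat.pair (mb T') (k T')) (Nat.pair (jb T') (lb T')) =
        Nat.pair (Nat.pair (mb T) (k T)) (Nat.pair (jb T) (lb T))
      have e4 : jb T' = jb T := by simp only [hjb, e3]
      have e5 : lb T' = lb T := by simp only [hlb, e3]
      rw [e1', e2, e4, e5]
  · -- capOK
    intro T
    obtain ⟨⟨a1, a2, a3, a4, a5⟩, a6, a7⟩ := h1 T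
    exact ⟨hbs.trans a1, a2, a3, a4, a5.trans (hA.time T).symm, a6, a7⟩
  · -- capbs
    intro T
    exact (h1 T).1.1
  · -- widthj
    intro T
    obtain ⟨⟨a1, a2, a3, a4, a5⟩, -⟩ := h1 T
    show |(acap T).b - bs - (((cls T).unpair.2.unpair.1 : ℕ) : ℝ) * ξ| ≤ ξ
    rw [u3]
    have := p9_cd_floor_bin hξ (show 0 ≤ (acap T).b - bs by linarith)
    rw [abs_le]
    constructor <;> linarith [this.1, this.2]
  · -- widthl
    intro T
    obtain ⟨⟨a1, a2, a3, a4, a5⟩, -⟩ := h1 T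
    show |(acap T).a - bs - (((cls T).unpair.2.unpair.2 : ℕ) : ℝ) * ξ| ≤ ξ
    rw [u4]
    have := p9_cd_floor_bin hξ (show 0 ≤ (acap T).a - bs by linarith)
    rw [abs_le]
    constructor <;> linarith [this.1, this.2]

end Claimed.Agent.R255.Pkt
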