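import Claimed.Agent.R255.Pk9.TrivGeo

/-!
# R255 / Pk9 / TrivLow : THE OUTPUT FLOOR (BR l.642-656)      (architect helper256)   -- KEEP

L-TR-L `p9_triv_low` : a law on endpoint masses below `ε^A₀ ‖f‖²` has score at most the norm option.     PAPER-FREE.
PLAN.  `Cact` from `p9_act_count`;  `A₀ = 4 |Hmax| + 2`,  `ε₁ = min (1/2) (1 / Cact)`;   `ℓ = lg ε > 0` (`p9_lg_pos`), `log Cact ≤ ℓ`;  `n2 = E.nrm2 > 0` (`p9_nrm2_pos`).
 `score γ E (T.withLaw Q) = (Q.ent T.O + Q.entC T.O T.D / 2) / ℓ + 3/2 Q.ev (log m / ℓ) + 1/2 Q.ev wt`   (`rfl`, or `unfold score PTest.withLaw`).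
 * `Q.ent T.O ≤ log #act` (`ent_le_log_card`, `S = univ.filter T.act`), `Q.entC T.O T.D ≤ Q.ent T.O` (`ent_entC_le`),  `log #act ≤ log Cact + 3 Hmax ℓ`   (`Real.log_rpow`, `lg ε = - log ε`; `#act ≥ 1`).
 * on the support `0 < m < ε^A₀ n2` (`Obeys.mpos`) : `log m / ℓ ≤ - A₀ + log n2 / ℓ`   (`ent_ev_mono`, `ent_ev_const`).
 * on the support `wt γ g = (1+γ) b + (1-γ) a ≤ 2 a ≤ 2 u_t = H - t ≤ Hmax`   (`Obeys.geo`, `p9_t_le`, `tmin > 0`).
 Sum: `≤ 3/2 log n2 / ℓ + 3/2 + 9/2 Hmax + Hmax / 2 - 3/2 A₀ ≤ 3/2 log n2 / ℓ`.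
-/

set_option autoImplicit false

namespace Claimed.Agent.R255.Pkt

open MeasureTheory Claimed.Agent.R255 Claimed.Agent.R255.Osc Claimed.Agent.R255.FLaw
open scoped BigOperators
open Classical

/-- L-TR-L -/
theorem p9_triv_low (γ : ℝ) (h0 : 0 < γ) (h1 : γ < 1) (B : PBd) (hB : B.Good) :
    ∃ (A₀ ε₁ : ℝ), 0 < A₀ ∧ 0 < ε₁ ∧ ε₁ < 1 ∧ ∀ (E : PEnv) (T : PTest), E.ε < ε₁ → E.Obeys B → T.Obeys B E →
      ∀ Q : FLaw T.Ω, (∀ o, Q.p o ≠ 0 → 0 < T.P.p o) →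
        (∀ o, Q.p o ≠ 0 → E.m T.t (T.site (T.O o)) < E.ε ^ A₀ * E.nrm2) →
        score γ E (T.withLaw Q) ≤ 3 / 2 * (Real.log E.nrm2 / lg E.ε) := by
  obtain ⟨C, hC1, hcount⟩ := p9_act_count B hB
  have hC0 : 0 < C := lt_of_lt_of_le one_pos hC1
  refine ⟨4 * |B.Hmax| + 2, min (1 / 2) (1 / C), by positivity, lt_min (by norm_num) (by positivity),
    lt_of_le_of_lt (min_le_left _ _) (by norm_num), ?_⟩
  intro E T hε hE hT Q hQ hlow
  obtain ⟨A0, hA0⟩ : ∃ A0 : ℝ, A0 = 4 * |B.Hmax| + 2 := ⟨_, rfl⟩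
  rw [← hA0] at hlow
  have hl : 0 < lg E.ε := p9_lg_pos hE.ε0 hE.ε1
  have hn := p9_nrm2_pos hE hT
  have ht : 0 < T.t := lt_of_lt_of_le hB.tmin hT.t0
  have hεC : E.ε < 1 / C := lt_of_lt_of_le hε (min_le_right _ _)
  have hlogC : Real.log C ≤ lg E.ε := by
    unfold lg
    apply Real.log_le_log hC0
    rw [le_div_iff₀ hE.ε0]
    rw [lt_div_iff₀ hC0] at hεC
    linarith
  -- entropy
  have hS : ∀ o, Q.p o ≠ 0 → T.O o ∈ Finset.univ.filter T.act := fun o ho => by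
    rw [Finset.mem_filter]
    exact ⟨Finset.mem_univ _, o, hQ o ho, rfl⟩
  have hH := ent_le_log_card Q T.O _ hS
  obtain ⟨o₀, ho₀⟩ := ent_exists_supp Q
  have hcpos : (0 : ℝ) < ((Finset.univ.filter T.act).card : ℝ) := by
    exact_mod_cast Finset.card_pos.2 ⟨_, hS o₀ ho₀⟩
  have hcnt := hcount E T hE hT
  have hlogc : Real.log ((Finset.univ.filter T.act).card : ℝ) ≤ Real.log C + 3 * B.Hmax * lg E.ε := by
    refine (Real.log_le_log hcpos hcnt).trans (le_of_eq ?_)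
    rw [Real.log_mul hC0.ne' (Real.rpow_pos_of_pos hE.ε0 _).ne', Real.log_rpow hE.ε0]
    unfold lg
    rw [one_div, Real.log_inv]
    ring
  have hHC := ent_entC_le Q T.O T.D
  -- mass
  have hmass : ∀ o, Q.p o ≠ 0 →
      Real.log (E.m T.t (T.site (T.O o))) / lg E.ε ≤ -A0 + Real.log E.nrm2 / lg E.ε := by
    intro o ho
    have hm := hT.mpos o (hQ o ho)
    have h2 := (Real.log_lt_log hm (hlow o ho)).le
    rw [Real.log_mul (Real.rpow_pos_of_pos hE.ε0 _).ne' hn.ne', Real.log_rpow hE.ε0] at h2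
    have e : A0 * Real.log E.ε = -A0 * lg E.ε := by
      unfold lg
      rw [one_div, Real.log_inv]
      ring
    rw [e] at h2
    rw [div_le_iff₀ hl]
    have e2 : (-A0 + Real.log E.nrm2 / lg E.ε) * lg E.ε = -A0 * lg E.ε + Real.log E.nrm2 := by
      field_simp
    rw [e2]
    exact h2
  -- weight
  have hw : ∀ o, Q.p o ≠ 0 → wt γ (T.geo (T.D o)) ≤ B.Hmax := by
    intro o ho
    obtain ⟨b0, ba, _, au, _⟩ := hT.geo o (hQ o ho)
    have hu : E.u T.t = (E.H - T.t) / 2 := rfl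
    rw [hu] at au
    have h2 := mul_nonneg (by linarith : 0 ≤ 1 + γ) (sub_nonneg.2 ba)
    show (1 + γ) * (T.geo (T.D o)).b + (1 - γ) * (T.geo (T.D o)).a ≤ B.Hmax
    nlinarith [hE.H1]
  -- assemble
  show (Q.ent T.O + Q.entC T.O T.D / 2) / lg E.ε
      + 3 / 2 * Q.ev (fun o => Real.log (E.m T.t (T.site (T.O o))) / lg E.ε)
      + 1 / 2 * Q.ev (fun o => wt γ (T.geo (T.D o))) ≤ _
  have e1 := ent_ev_mono Q hmass
  rw [ent_ev_const] at e1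
  have e2 := ent_ev_mono Q hw
  rw [ent_ev_const] at e2
  have e3 : (Q.ent T.O + Q.entC T.O T.D / 2) / lg E.ε ≤ 3 / 2 * (1 + 3 * B.Hmax) := by
    rw [div_le_iff₀ hl]
    nlinarith
  have a1 := le_abs_self B.Hmax
  have a2 := abs_nonneg B.Hmax
  linarith

end Claimed.Agent.R255.Pkt
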