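import Claimed.Agent.R255.Pk9.TrivAn
import Claimed.Agent.R255.Pk9.TrivLow

/-!
# R255 / Pk9 / Triv : **PROPOSITION 9.6**, `PRate γ 1`      (architect helper256)   -- KEEP

GLUE ONLY (route: header of `Pk9/TrivDefs.lean`).
* `p9_triv_core` : a law above the output floor, inside one unit localizer: `score ≤ K0 + t + C/ℓ`.
   From `pk_atoms_exist` (L9.3 at `r = bs = 0`), `p9_massz`, `p9_zloc`, `p9_anchor_count`, `p9_weighted_core`, `p9_root_geo`, `p9_root_norm`, `pk_K0_obeys_bdd`.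
* `p9_prate_one` : split by (floor event, localizer) (`pc_split_le`, `p9_loc_count`), `p9_triv_low`, `pk_K0_norm_le`.
-/

set_option autoImplicit false

namespace Claimed.Agent.R255.Pkt

open MeasureTheory Claimed.Agent.R255 Claimed.Agent.R255.Osc Claimed.Agent.R255.FLaw
open scoped BigOperators
open Classical

theorem p9_ampC_conj {R R' : ℝ} {Bd : ℕ → ℝ} {ψ : E2 → ℂ} (h : AmpC R Bd ψ) (hR : R ≤ R') :
    AmpC R' Bd (fun z => (starRingEnd ℂ) (ψ z)) := by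
  rw [pk_ampC_iff]
  intro M
  exact (pk_amp_conj ((pk_ampC_iff _ _ _).1 h M)).mono le_rfl hR (fun _ _ => le_rfl)

/-- monotonicity of filtered cardinalities, with the instances as plain implicit arguments (they are found by unification) -/
theorem p9_card_filter_le {ι : Type} {_ : Fintype ι} {p q : ι → Prop} {_ : DecidablePred p} {_ : DecidablePred q}
    (h : ∀ i, p i → q i) : (Finset.univ.filter p).card ≤ (Finset.univ.filter q).card :=
  Finset.card_le_card fun i hi => by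
    rw [Finset.mem_filter] at hi ⊢
    exact ⟨hi.1, h i hi.2⟩

theorem p9_triv_core (γ : ℝ) (hγ : -1 ≤ γ) (B : PBd) (hB : B.Good) (A₀ : ℝ) (hA₀ : 0 < A₀) :
    ∃ (C ε₁ : ℝ), 0 < ε₁ ∧ ε₁ < 1 ∧ ∀ (E : PEnv) (T : PTest), E.ε < ε₁ → E.Obeys B → T.Obeys B E →
      ∀ (j : Loc0) (Q : FLaw T.Ω), (∀ o, Q.p o ≠ 0 → 0 < T.P.p o) →
        (∀ o, Q.p o ≠ 0 → E.ε ^ A₀ * E.nrm2 ≤ E.m T.t (T.site (T.O o))) →
        (∀ o, Q.p o ≠ 0 → loc0 E.ε 0 0 (T.site (T.O o)) = j) →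
        score γ E (T.withLaw Q) ≤ K0 γ B.M E + T.t + C / lg E.ε := by
  obtain ⟨Ra, Bb, Mu, Ca, hRa, -, hex⟩ := pk_atoms_exist B hB B.tmin hB.tmin
  obtain ⟨Bx, εa, hεa, hAt⟩ := hex (A₀ / 2 + 1) (by positivity)
  obtain ⟨p, hp⟩ : ∃ p : Atoms.Par, p = ⟨Ra, Bb, Mu, Ca, A₀ / 2 + 1, Bx⟩ := ⟨_, rfl⟩
  rw [← hp] at hAt
  have hpA : A₀ / 2 + 1 ≤ p.A := by rw [hp]
  have hpRa : p.Ra ≤ 100 := by rw [hp]; exact hRa
  obtain ⟨K₁, εm, hK₁, hεm, hmassz⟩ := p9_massz B hB p A₀ hA₀ hpA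
  obtain ⟨Rn, hRn⟩ : ∃ Rn : ℝ, Rn = |B.Ra + p.Ra| := ⟨_, rfl⟩
  have hRn0 : 0 ≤ Rn := by rw [hRn]; exact abs_nonneg _
  obtain ⟨K₂, hK₂, hzloc⟩ := p9_zloc Rn hRn0
  obtain ⟨Cr, hCr, hroot⟩ := p9_root_norm γ B.M p.Bb p.Mu (2 * |B.Ke| + Rn + 3) (by positivity)
  refine ⟨Cr + Real.log (2 * B.Mu) + 3 / 2 * Real.log K₁ + 3 / 2 * Real.log K₂, min (min εa εm) (1 / 2),
    lt_min (lt_min hεa hεm) (by norm_num), lt_of_le_of_lt (min_le_right _ _) (by norm_num), ?_⟩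
  intro E T hε hE hT j Q hQ hfl hloc
  have h0 := hE.ε0
  have h1 := hE.ε1
  have hl := p9_lg_pos h0 h1
  have hn2 : 0 < E.nrm2 := p9_nrm2_pos hE hT
  have hu : 0 ≤ E.u T.t := p9_u_nonneg hT
  have ht0 : 0 < T.t := lt_of_lt_of_le hB.tmin hT.t0
  have hεa' : E.ε < εa := lt_of_lt_of_le hε ((min_le_left _ _).trans (min_le_left _ _))
  have hεm' : E.ε < εm := lt_of_lt_of_le hε ((min_le_left _ _).trans (min_le_right _ _))
  obtain ⟨At, hG⟩ := hAt E hE hεa' hn2 T.t 0 0 le_rfl (by rw [zero_add]; exact hT.t0) le_rfl hu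
  have hbdd : BddAbove (K0set γ B.M E) := pk_K0_obeys_bdd hB hγ hE
  -- the data of the weighted core
  let Zf : T.Ω → ℝ × (ℤ × ℤ) × (ℤ × ℤ) := fun o => p9zobs E T.t (T.site (T.O o))
  let Cf : T.Ω → ℝ := fun o => (T.site (T.O o)).C
  let m : T.ι → ℝ := fun i => E.m T.t (T.site i)
  let c : At.𝔸 → ℝ := fun a => ‖At.coef E 0 a‖ ^ 2
  have hc : ∀ a, 0 ≤ c a := fun a => sq_nonneg _
  have hm : ∀ i, 0 ≤ m i := fun i => sq_nonneg _
  have hact : ∀ o, Q.p o ≠ 0 → T.act (T.O o) := fun o ho => ⟨o, hQ o ho, rfl⟩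
  have hS : ∀ o, Q.p o ≠ 0 → T.O o ∈ p9Sz T E A₀ j (Zf o) := fun o ho =>
    Finset.mem_filter.2 ⟨Finset.mem_univ _, hact o ho, hfl o ho, hloc o ho, rfl⟩
  have hmass : ∀ o, Q.p o ≠ 0 → ∑ i ∈ p9Sz T E A₀ j (Zf o), m i
      ≤ K₁ * ∑ a ∈ p9TT T E A₀ At (B.tmin / 2) (B.Ra + p.Ra) j (Zf o), c a := fun o ho =>
    hmassz E T hE hT hεm' At hG j (Zf o) ⟨_, hS o ho⟩
  have hpos : ∀ o, Q.p o ≠ 0 → 0 < m (T.O o) := fun o ho => hT.mpos o (hQ o ho)
  -- the atoms are there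
  have : Nonempty At.𝔸 := by
    obtain ⟨o, ho⟩ := ent_exists_supp Q
    by_contra hne
    rw [not_nonempty_iff] at hne
    have h2 := hmass o ho
    have h3 : 0 < ∑ i ∈ p9Sz T E A₀ j (Zf o), m i :=
      lt_of_lt_of_le (hpos o ho) (Finset.single_le_sum (fun i _ => hm i) (hS o ho))
    have h4 : p9TT T E A₀ At (B.tmin / 2) (B.Ra + p.Ra) j (Zf o) = ∅ := Finset.eq_empty_of_isEmpty _
    rw [h4, Finset.sum_empty, mul_zero] at h2
    exact absurd (lt_of_lt_of_le h3 h2) (lt_irrefl _)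
  -- membership in `p9TT`
  have hTT : ∀ (z : ℝ × (ℤ × ℤ) × (ℤ × ℤ)) (a : At.𝔸), a ∈ p9TT T E A₀ At (B.tmin / 2) (B.Ra + p.Ra) j z →
      At.loc a = j ∧ (At.asite a).C = 0 ∧ ∃ i, T.act i ∧ p9zobs E T.t (T.site i) = z ∧
        P9Near E T.t Rn (T.site i) (At.asite a) := by
    intro z a ha
    obtain ⟨hj, i, hi, hnear⟩ := (Finset.mem_filter.1 ha).2
    obtain ⟨hia, -, hij, hiz⟩ := (Finset.mem_filter.1 hi).2
    have hti := hT.time i hia
    have hC0 : (At.asite a).C = 0 := by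
      rw [hG.time a, hj, ← hij]
      exact p9_loc0_time E.ε _ hti.1 hti.2
    refine ⟨hj, hC0, i, hia, hiz, ?_⟩
    rw [hRn]
    exact p9_near_of_an E h0 h1 T.t (B.tmin / 2) _ (by linarith [hT.t0]) _ _ hC0 hnear
  have hlocZ : ∀ (a : At.𝔸) (c' : ℝ), ∃ Zs : Finset (ℝ × (ℤ × ℤ) × (ℤ × ℤ)), (Zs.card : ℝ) ≤ K₂ ∧
      ∀ o, Q.p o ≠ 0 → a ∈ p9TT T E A₀ At (B.tmin / 2) (B.Ra + p.Ra) j (Zf o) → Cf o = c' → Zf o ∈ Zs := by
    intro a c'
    obtain ⟨Zs, hZs, hmem⟩ := hzloc E T.t h0 (At.asite a) c'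
    refine ⟨Zs, hZs, fun o ho ha hc' => ?_⟩
    obtain ⟨-, -, i, hia, hiz, hnear⟩ := hTT _ a ha
    have hti := hT.time i hia
    have hCi : (T.site i).C = c' := by
      have : (p9zobs E T.t (T.site i)).1 = (Zf o).1 := by rw [hiz]
      exact this.trans hc'
    rw [← hiz]
    exact hmem (T.site i) hCi hti.1 hti.2.le hnear
  obtain ⟨hsupp, hcore⟩ := p9_weighted_core Q T.O T.D Zf Cf
    (fun o o' _ _ e => by show p9zobs E T.t (T.site (T.O o)) = p9zobs E T.t (T.site (T.O o')); rw [e])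
    (fun o o' _ _ e => congrArg Prod.fst e)
    (fun o o' ho ho' e => by
      have a1 := (hT.geo o (hQ o ho)).2.2.2.2.1
      have a2 := (hT.geo o' (hQ o' ho')).2.2.2.2.1
      show (T.site (T.O o)).C = (T.site (T.O o')).C
      rw [← a1, ← a2, e])
    m hm hpos (fun z => p9Sz T E A₀ j z) hS
    (fun z => p9TT T E A₀ At (B.tmin / 2) (B.Ra + p.Ra) j z) c hc K₁ K₂ (by linarith) hmass hlocZ
    ((Finset.univ.filter T.act).image (fun i => (T.site i).C))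
    (fun o ho => Finset.mem_image.2 ⟨T.O o, Finset.mem_filter.2 ⟨Finset.mem_univ _, hact o ho⟩, rfl⟩)
  obtain ⟨Q', hQ'⟩ : ∃ Q' : FLaw (T.Ω × At.𝔸), Q' = Q.ext (p9_wker
    (fun o => p9TT T E A₀ At (B.tmin / 2) (B.Ra + p.Ra) j (Zf o)) c hc) := ⟨_, rfl⟩
  rw [← hQ'] at hsupp hcore
  -- the root test
  have hactR : ∀ a, (p9rootT T At Q').act a → ∃ o, Q.p o ≠ 0 ∧
      a ∈ p9TT T E A₀ At (B.tmin / 2) (B.Ra + p.Ra) j (Zf o) := by
    rintro a ⟨x, hx, rfl⟩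
    exact ⟨x.1, (hsupp x hx.ne').1, (hsupp x hx.ne').2.1⟩
  have hsig : E.sig 0 = E.rho 0 := by
    unfold PEnv.sig PEnv.rho
    rw [add_zero]
  have hR : (p9rootT T At Q').IsRootG p.Bb p.Mu (2 * |B.Ke| + Rn + 3) E := by
    refine ⟨rfl, fun a _ => p9_ampC_conj (hG.amp a) hpRa, ?_, ?_, ?_, ?_⟩
    · intro a ha
      obtain ⟨o, -, hao⟩ := hactR a ha
      exact (hTT _ a hao).2.1
    · intro a ha
      obtain ⟨o, -, hao⟩ := hactR a ha
      refine le_trans (p9_card_filter_le ?_) (hG.mult a)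
      intro a' ha'
      obtain ⟨h1', h2', h3'⟩ := ha'
      obtain ⟨o', -, hao'⟩ := hactR a' h1'
      refine ⟨?_, h2', ?_⟩
      · rw [(hTT _ a' hao').1, (hTT _ a hao).1]
      · rw [hsig]
        exact h3'
    · intro x hx
      exact (hsupp x hx.ne').2.2
    · intro x hx
      obtain ⟨hx1, hx2, -⟩ := hsupp x hx.ne'
      obtain ⟨-, hC0, i, hia, hiz, hnear⟩ := hTT _ x.2 hx2
      have hto := hT.time (T.O x.1) (hact x.1 hx1)
      exact p9_root_geo B.Ke Rn hRn0 E T.t h0 h1 ht0.le (T.geo (T.D x.1)) (T.site (T.O x.1)) (T.site i)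
        (At.asite x.2).conj (hT.geo x.1 (hQ x.1 hx1)) hto.1 hto.2.le hiz hnear hC0
  have hRs := hroot E (p9rootT T At Q') h0 h1 hbdd hR
  -- the two scores
  have e0 : Q'.ev (fun x => wt γ (T.geo (T.D x.1))) = Q.ev (fun o => wt γ (T.geo (T.D o))) := by
    rw [hQ']
    exact p9_ext_ev Q _ (fun o => wt γ (T.geo (T.D o)))
  have e1 : score γ E (p9rootT T At Q') = (Q'.ent (fun x => x.2) + Q'.entC (fun x => x.2) (fun x => T.D x.1) / 2) / lg E.ε
      + 3 / 2 * (Q'.ev (fun x => Real.log (c x.2)) / lg E.ε) + 1 / 2 * Q.ev (fun o => wt γ (T.geo (T.D o))) := by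
    rw [← p9_ev_div, ← e0]
    rfl
  have e2 : score γ E (T.withLaw Q) = (Q.ent T.O + Q.entC T.O T.D / 2) / lg E.ε
      + 3 / 2 * (Q.ev (fun o => Real.log (m (T.O o))) / lg E.ε) + 1 / 2 * Q.ev (fun o => wt γ (T.geo (T.D o))) := by
    rw [← p9_ev_div]
    rfl
  -- the number of anchors
  have hcard : Real.log ((((Finset.univ.filter T.act).image (fun i => (T.site i).C)).card : ℕ) : ℝ)
      ≤ Real.log (2 * B.Mu) + T.t * lg E.ε := by
    have hcnt := p9_anchor_count B hB E T hE hT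
    obtain ⟨o, ho⟩ := ent_exists_supp Q
    have hpos' : (0 : ℝ) < ((((Finset.univ.filter T.act).image (fun i => (T.site i).C)).card : ℕ) : ℝ) := by
      exact_mod_cast Finset.card_pos.2 ⟨_, Finset.mem_image.2
        ⟨T.O o, Finset.mem_filter.2 ⟨Finset.mem_univ _, hact o ho⟩, rfl⟩⟩
    have hεt : 0 < E.ε ^ (-T.t) := Real.rpow_pos_of_pos h0 _
    have hMu : (0 : ℝ) < 2 * B.Mu := by
      by_contra hcon
      have : 2 * (B.Mu : ℝ) * E.ε ^ (-T.t) ≤ 0 := mul_nonpos_of_nonpos_of_nonneg (not_lt.1 hcon) hεt.le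
      linarith
    have h2 := Real.log_le_log hpos' hcnt
    rw [Real.log_mul hMu.ne' hεt.ne', Real.log_rpow h0] at h2
    have h3 : lg E.ε = - Real.log E.ε := by
      unfold lg
      rw [one_div, Real.log_inv]
    rw [h3]
    linarith
  -- conclusion
  have hfin : (Q.ent T.O + Q.entC T.O T.D / 2) / lg E.ε + 3 / 2 * (Q.ev (fun o => Real.log (m (T.O o))) / lg E.ε)
      ≤ (Q'.ent (fun x => x.2) + Q'.entC (fun x => x.2) (fun x => T.D x.1) / 2) / lg E.ε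
        + 3 / 2 * (Q'.ev (fun x => Real.log (c x.2)) / lg E.ε) + T.t
        + (Real.log (2 * B.Mu) + 3 / 2 * Real.log K₁ + 3 / 2 * Real.log K₂) / lg E.ε := by
    have e3 : (Q.ent T.O + Q.entC T.O T.D / 2) / lg E.ε + 3 / 2 * (Q.ev (fun o => Real.log (m (T.O o))) / lg E.ε)
        = (Q.ent T.O + 1 / 2 * Q.entC T.O T.D + 3 / 2 * Q.ev (fun o => Real.log (m (T.O o)))) / lg E.ε := by ring
    have e4 : (Q'.ent (fun x => x.2) + Q'.entC (fun x => x.2) (fun x => T.D x.1) / 2) / lg E.ε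
        + 3 / 2 * (Q'.ev (fun x => Real.log (c x.2)) / lg E.ε) + T.t
        + (Real.log (2 * B.Mu) + 3 / 2 * Real.log K₁ + 3 / 2 * Real.log K₂) / lg E.ε
        = (Q'.ent (fun x => x.2) + 1 / 2 * Q'.entC (fun x => x.2) (fun x => T.D x.1)
          + 3 / 2 * Q'.ev (fun x => Real.log (c x.2)) + (Real.log (2 * B.Mu) + T.t * lg E.ε)
          + 3 / 2 * Real.log K₁ + 3 / 2 * Real.log K₂) / lg E.ε := by
      field_simp
      ring
    rw [e3, e4]
    apply div_le_div_of_nonneg_right _ hl.le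
    linarith
  have e5 : (Cr + Real.log (2 * B.Mu) + 3 / 2 * Real.log K₁ + 3 / 2 * Real.log K₂) / lg E.ε
      = Cr / lg E.ε + (Real.log (2 * B.Mu) + 3 / 2 * Real.log K₁ + 3 / 2 * Real.log K₂) / lg E.ε := by ring
  rw [e2, e5]
  rw [e1] at hRs
  linarith

/-- **Proposition 9.6** -/
theorem p9_prate_one (γ : ℝ) (h0 : 0 < γ) (h1 : γ < 1) : PRate γ 1 := by
  intro B hB ν hν
  obtain ⟨A₀, εl, hA₀, hεl, hεl1, hlow⟩ := p9_triv_low γ h0 h1 B hB
  obtain ⟨C, εc, hεc, hεc1, hcore⟩ := p9_triv_core γ (by linarith) B hB A₀ hA₀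
  obtain ⟨N, hN, hlocs⟩ := p9_loc_count B
  have hN1 : (1 : ℝ) ≤ 2 * (N : ℝ) := by
    have : (1 : ℝ) ≤ (N : ℝ) := by exact_mod_cast hN
    linarith
  obtain ⟨K, hK⟩ : ∃ K : ℝ, K = |C| + 3 / 2 * Real.log (2 * (N : ℝ)) := ⟨_, rfl⟩
  have hK0 : 0 ≤ K := by
    rw [hK]
    have := Real.log_nonneg hN1
    positivity
  refine ⟨min (min εl εc) (Real.exp (-(K / ν))), lt_min (lt_min hεl hεc) (Real.exp_pos _),
    lt_of_le_of_lt ((min_le_left _ _).trans (min_le_left _ _)) hεl1, ?_⟩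
  intro E T hε hE hT
  have hεl' : E.ε < εl := lt_of_lt_of_le hε ((min_le_left _ _).trans (min_le_left _ _))
  have hεc' : E.ε < εc := lt_of_lt_of_le hε ((min_le_left _ _).trans (min_le_right _ _))
  have hεK : E.ε < Real.exp (-(K / ν)) := lt_of_lt_of_le hε (min_le_right _ _)
  have e0 := hE.ε0
  have e1 := hE.ε1
  have hl := p9_lg_pos e0 e1
  have hlK : K / lg E.ε ≤ ν := by
    have h2 : Real.log E.ε < -(K / ν) := by
      have := Real.log_lt_log e0 hεK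
      rwa [Real.log_exp] at this
    have h3 : lg E.ε = - Real.log E.ε := by
      unfold lg
      rw [one_div, Real.log_inv]
    have h4 : K / ν ≤ lg E.ε := by rw [h3]; linarith
    rw [div_le_iff₀ hl]
    rw [div_le_iff₀ hν] at h4
    linarith
  have hbdd : BddAbove (K0set γ B.M E) := pk_K0_obeys_bdd hB (by linarith) hE
  have ht0 : 0 < T.t := lt_of_lt_of_le hB.tmin hT.t0
  have hpp : ∀ o, T.P.p o ≠ 0 → 0 < T.P.p o := fun o h => lt_of_le_of_ne (T.P.nonneg o) (Ne.symm h)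
  obtain ⟨F, hF, hFmem⟩ := hlocs E.ε e0
  let I : T.Ω → Prop × Loc0 := fun o =>
    (E.ε ^ A₀ * E.nrm2 ≤ E.m T.t (T.site (T.O o)), loc0 E.ε 0 0 (T.site (T.O o)))
  let lm : T.Ω → ℝ := fun o => Real.log (E.m T.t (T.site (T.O o))) / lg E.ε
  let w : T.Ω → ℝ := fun o => wt γ (T.geo (T.D o))
  have s := pc_split_le hl T.P T.O T.D lm w I
  have hentI : T.P.ent I ≤ Real.log (2 * (N : ℝ)) := by
    have h2 := ent_le_log_card T.P I ((({True, False} : Finset Prop)) ×ˢ F) (fun o ho => by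
      have hadm := p9_adm hT (T.O o) ⟨o, hpp o ho, rfl⟩
      refine Finset.mem_product.2 ⟨?_, hFmem _ hadm.2.1 hadm.2.2.1 hadm.2.2.2.1 hadm.2.2.2.2⟩
      show (E.ε ^ A₀ * E.nrm2 ≤ E.m T.t (T.site (T.O o))) ∈ ({True, False} : Finset Prop)
      by_cases h : E.ε ^ A₀ * E.nrm2 ≤ E.m T.t (T.site (T.O o)) <;> simp [h])
    refine h2.trans ?_
    obtain ⟨o, ho⟩ := ent_exists_supp T.P
    have hadm := p9_adm hT (T.O o) ⟨o, hpp o ho, rfl⟩
    have hFne : 0 < F.card := Finset.card_pos.2 ⟨_, hFmem _ hadm.2.1 hadm.2.2.1 hadm.2.2.2.1 hadm.2.2.2.2⟩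
    have hc2 : (({True, False} : Finset Prop)).card ≤ 2 := Finset.card_le_two
    have hc1 : 0 < (({True, False} : Finset Prop)).card := Finset.card_pos.2 ⟨True, by simp⟩
    apply Real.log_le_log
    · rw [Finset.card_product]
      exact_mod_cast Nat.mul_pos hc1 hFne
    · rw [Finset.card_product]
      have : (({True, False} : Finset Prop)).card * F.card ≤ 2 * N := Nat.mul_le_mul hc2 hF
      exact_mod_cast this
  have hcell : T.P.ev (fun o => pscore (lg E.ε) (T.P.cfib I o) T.O T.D lm w)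
      ≤ T.P.ev (fun _ => K0 γ B.M E + T.t + |C| / lg E.ε) := by
    apply ent_ev_mono
    intro o ho
    have hfib : 0 < T.P.pr (fun o' => I o' = I o) := ent_fib_pos T.P I ho
    have hsupp : ∀ o', (T.P.cfib I o).p o' ≠ 0 → I o' = I o ∧ T.P.p o' ≠ 0 := fun o' h =>
      (ent_cnd_supp T.P (fun o' => I o' = I o) hfib).1 h
    have e : score γ E (T.withLaw (T.P.cfib I o)) = pscore (lg E.ε) (T.P.cfib I o) T.O T.D lm w := rfl
    refine le_of_eq_of_le e.symm ?_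
    have hCl : C / lg E.ε ≤ |C| / lg E.ε := div_le_div_of_nonneg_right (le_abs_self C) hl.le
    have hCl0 : 0 ≤ |C| / lg E.ε := div_nonneg (abs_nonneg C) hl.le
    by_cases hfl : E.ε ^ A₀ * E.nrm2 ≤ E.m T.t (T.site (T.O o))
    · have h2 := hcore E T hεc' hE hT (loc0 E.ε 0 0 (T.site (T.O o))) (T.P.cfib I o)
        (fun o' ho' => hpp o' (hsupp o' ho').2)
        (fun o' ho' => by
          have h3 : (E.ε ^ A₀ * E.nrm2 ≤ E.m T.t (T.site (T.O o'))) = (E.ε ^ A₀ * E.nrm2 ≤ E.m T.t (T.site (T.O o))) :=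
            congrArg Prod.fst (hsupp o' ho').1
          rw [h3]
          exact hfl)
        (fun o' ho' => congrArg Prod.snd (hsupp o' ho').1)
      linarith
    · have h2 := hlow E T hεl' hE hT (T.P.cfib I o)
        (fun o' ho' => hpp o' (hsupp o' ho').2)
        (fun o' ho' => by
          have h3 : (E.ε ^ A₀ * E.nrm2 ≤ E.m T.t (T.site (T.O o'))) = (E.ε ^ A₀ * E.nrm2 ≤ E.m T.t (T.site (T.O o))) :=
            congrArg Prod.fst (hsupp o' ho').1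
          rw [← not_le, h3]
          exact hfl)
      have h4 := pk_K0_norm_le hbdd
      linarith
  rw [ent_ev_const] at hcell
  have e : score γ E T = pscore (lg E.ε) T.P T.O T.D lm w := rfl
  have h5 : 3 / 2 * T.P.ent I / lg E.ε ≤ 3 / 2 * Real.log (2 * (N : ℝ)) / lg E.ε := by
    apply div_le_div_of_nonneg_right _ hl.le
    linarith
  have h6 : K / lg E.ε = |C| / lg E.ε + 3 / 2 * Real.log (2 * (N : ℝ)) / lg E.ε := by
    rw [hK]
    ring
  rw [e]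
  linarith

end Claimed.Agent.R255.Pkt
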