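import Claimed.Agent.R255.Pk9.TrivGeo

/-!
# R255 / Pk9 / TrivAn : THE ANALYTIC INPUT OF P9.6 = (9.contributor-mass), WEIGHTED FORM      (architect helper256)   -- KEEP

* `p9_end_bessel`   Bessel at one endpoint anchor for an ARBITRARY input `h ∈ L²` (proof = `an_bessel` of `Pk/An.lean`).     PROVED
* `p9_tail`         for every set `U` of atoms of the localizer of `s` which contains the atoms `AnNear s` : `|⟨sup (loc = j); s⟩ - ⟨sup U; s⟩| ≤ 2 ε^Atr ‖f‖`  (twice `an_transport`).     PROVED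
* L-TR-A `p9_massz` `∑_{i ∈ p9Sz z} m_i(f) ≤ K₁ ∑_{a ∈ p9TT z} |c_a|²`.
  PLAN (paper-free; `n2 = E.nrm2 > 0` by `p9_nrm2_pos`; `t = T.t`; `U a := a ∈ p9TT z`; `p_i(h) = pairing E.lam (E.rho t) E.Φ h (T.site i)`, `E.m t (T.site i) = ‖p_i(E.f)‖²` by `rfl`).
  CONSTANTS: `Cact` (`p9_act_count`), `CB` (`p9_end_bessel`), `CS` (`pk_sup_nrm2 B.K hB.a0 p.Ra p.Bb`), `Atr = (3 |Hmax| + |p.Bx| + A₀ + 2) / 2`, `ε_tr` (`p9_tail` with `η = tmin/2`, `Atr`);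
     `K₁ = 8 CB CS p.Mu + 1`,  `ε₁ = min ε_tr (min (1/2) (1 / (32 Cact)))`.
  For `i ∈ p9Sz z` : `T.site i` is admissible (`p9_adm`), `loc0 … = j`, floor `ε^A₀ n2 ≤ ‖p_i(f)‖²`.
   (1) `Atoms.Good.trunc` : `‖p_i(f) - p_i(sup (loc = j))‖ ≤ ε^(p.A) √n2 ≤ ε · ε^(A₀/2) √n2 ≤ ‖p_i(f)‖ / 2`   ⟹   `‖p_i(f)‖ ≤ 2 ‖p_i(sup (loc = j))‖`.
   (2) `p9_tail` (`U` contains the atoms of `j` near `T.site i` because `i ∈ p9Sz z`) : `‖p_i(sup (loc = j))‖ ≤ ‖p_i(sup U)‖ + 2 ε^Atr √n2`.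
   (3) `m_i(f) ≤ 4 (x + y)² ≤ 8 ‖p_i(sup U)‖² + 32 ε^(2 Atr) n2`.
   (4) all `i ∈ p9Sz z` are active with `C_i = z.1` : `∑_i ‖p_i(sup U)‖² ≤ CB ∫ ‖sup U‖² ≤ CB CS p.Mu ∑_{U} |c_a|²`   (`pk_sup_memLp`; time of the atoms `= j.Cr ε 0 = 0` by `Good.time`, `p9_loc0_time`).
   (5) `#p9Sz z ≤ Cact ε^(-3 Hmax)`, so `∑_i 32 ε^(2 Atr) n2 ≤ 32 Cact ε · ε^(|Bx| + A₀ + 1) n2 ≤ ε^(|Bx| + A₀ + 1) n2`.
   (6) `U ≠ ∅` : otherwise `sup U = 0`, `p_i(0) = 0` and (3) gives `m_i(f) ≤ 32 ε^(2 Atr) n2 < ε^A₀ n2`, against the floor.   For `a₀ ∈ U` : `ε^(|Bx| + A₀ + 1) n2 ≤ ε^Bx n2 ≤ |c_{a₀}|² ≤ ∑_U |c_a|²` (`Good.floor`).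
-/

set_option autoImplicit false

namespace Claimed.Agent.R255.Pkt

open MeasureTheory Claimed.Agent.R255 Claimed.Agent.R255.Osc Claimed.Agent.R255.FLaw
open scoped BigOperators
open Classical

/-- Bessel at one anchor for an arbitrary input -/
theorem p9_end_bessel (B : PBd) (hB : B.Good) : ∃ C : ℝ, 0 ≤ C ∧ ∀ (E : PEnv) (T : PTest), E.Obeys B → T.Obeys B E →
    ∀ (c : ℝ) (h : E2 → ℂ), MemLp h 2 volume →
      ∑ i ∈ Finset.univ.filter (fun i => T.act i ∧ (T.site i).C = c), mass E.lam (E.rho T.t) E.Φ h (T.site i)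
        ≤ C * ∫ v, ‖h v‖ ^ 2 := by
  obtain ⟨C, hC0, hC⟩ := pk_site_bessel B.K hB.a0 B.Ra B.K.Bb
  refine ⟨C * B.Mu, by positivity, fun E T hE hT c h hh => ?_⟩
  have hn : 0 ≤ ∫ v, ‖h v‖ ^ 2 := integral_nonneg fun v => by positivity
  rcases (Finset.univ.filter (fun i => T.act i ∧ (T.site i).C = c)).eq_empty_or_nonempty with he | ⟨i₀, hi₀⟩
  · rw [he, Finset.sum_empty]
    positivity
  obtain ⟨ha₀, hc₀⟩ := (Finset.mem_filter.1 hi₀).2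
  have htH : T.t ≤ E.H := (p9_t_le hE hT).1
  obtain ⟨s1, s2, s3, s4⟩ := an_scales E hE.ε0 hE.ε1 T.t
  have hc := hT.time i₀ ha₀
  rw [hc₀] at hc
  refine hC E.Φ E.ζ hE.phase E.lam (E.rho T.t) c s1 s2 (s4 htH) hc.1 hc.2.le T.ι _ T.site B.Mu
    (fun i hi => (Finset.mem_filter.1 hi).2.2)
    (fun i hi => (pk_ampC_iff _ _ _).1 (hT.amp i (Finset.mem_filter.1 hi).2.1) 3)
    (fun i hi t' ht' hnear => ?_) h hh
  refine le_trans (Finset.card_le_card fun j hj => ?_) (hT.multS i (Finset.mem_filter.1 hi).2.1)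
  have hj' := (Finset.mem_filter.1 (ht' hj)).2
  have hn' := hnear j hj
  rw [s3] at hn'
  exact Finset.mem_filter.2 ⟨Finset.mem_univ _, hj'.1, hj'.2.trans (Finset.mem_filter.1 hi).2.2.symm, hn'.1, hn'.2⟩

/-- the tail outside any set of atoms containing the near ones -/
theorem p9_tail (B : PBd) (hB : B.Good) (p : Atoms.Par) (η Atr : ℝ) (hη : 0 < η) (hA : 0 < Atr) : ∃ ε₀ : ℝ, 0 < ε₀ ∧
    ∀ (E : PEnv) (t : ℝ) (At : Atoms), E.Obeys B → E.ε < ε₀ → 0 ≤ t → 0 ≤ E.u t → At.Good E B t 0 0 p →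
      ∀ s : Site, AmpC B.Ra B.K.Bb s.ψ → 0 ≤ s.C → s.C < 1 → ∀ U : At.𝔸 → Prop,
      (∀ a, U a → At.loc a = loc0 E.ε 0 0 s) →
      (∀ a, At.loc a = loc0 E.ε 0 0 s → AnNear E t 0 η (B.Ra + p.Ra) s (At.asite a) → U a) →
      ‖pairing E.lam (E.rho t) E.Φ (At.sup E 0 (fun a => At.loc a = loc0 E.ε 0 0 s)) s
        - pairing E.lam (E.rho t) E.Φ (At.sup E 0 U) s‖ ≤ 2 * (E.ε ^ Atr * Real.sqrt E.nrm2) := by
  obtain ⟨ε₀, hε₀, H⟩ := an_transport B hB p.Ra p.Bb p.Mu p.Ca η Atr hη hA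
  refine ⟨ε₀, hε₀, fun E t At hE hε ht hu hG s hs hs0 hs1 U hU1 hU2 => ?_⟩
  have h1 := H E t 0 0 p At rfl rfl rfl rfl hE hε le_rfl ht le_rfl hu hG s hs hs0 hs1 (fun _ => True)
  have h2 := H E t 0 0 p At rfl rfl rfl rfl hE hε le_rfl ht le_rfl hu hG s hs hs0 hs1 U
  have e1 : (fun T => True ∧ At.loc T = loc0 E.ε 0 0 s) = fun a => At.loc a = loc0 E.ε 0 0 s := by
    funext T
    simp
  have e2 : (fun T => U T ∧ At.loc T = loc0 E.ε 0 0 s) = U := by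
    funext T
    exact propext ⟨fun h => h.1, fun h => ⟨h, hU1 T h⟩⟩
  have e3 : (fun T => U T ∧ At.loc T = loc0 E.ε 0 0 s ∧ AnNear E t 0 η (B.Ra + p.Ra) s (At.asite T))
      = fun T => True ∧ At.loc T = loc0 E.ε 0 0 s ∧ AnNear E t 0 η (B.Ra + p.Ra) s (At.asite T) := by
    funext T
    exact propext ⟨fun h => ⟨trivial, h.2⟩, fun h => ⟨hU2 T h.2.1 h.2.2, h.2⟩⟩
  rw [e1] at h1
  rw [e2, e3] at h2
  have h3 := norm_sub_le_norm_sub_add_norm_sub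
    (pairing E.lam (E.rho t) E.Φ (At.sup E 0 (fun a => At.loc a = loc0 E.ε 0 0 s)) s)
    (pairing E.lam (E.rho t) E.Φ
      (At.sup E 0 (fun T => True ∧ At.loc T = loc0 E.ε 0 0 s ∧ AnNear E t 0 η (B.Ra + p.Ra) s (At.asite T))) s)
    (pairing E.lam (E.rho t) E.Φ (At.sup E 0 U) s)
  rw [norm_sub_rev] at h2
  linarith

/-- elementary: `‖a - b‖ ≤ ‖a‖ / 2`, `‖b - c‖ ≤ y` give `‖a‖² ≤ 8 ‖c‖² + 8 y²` -/
theorem p9_mz_sq (a b c : ℂ) (y : ℝ) (h1 : ‖a - b‖ ≤ ‖a‖ / 2) (h2 : ‖b - c‖ ≤ y) :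
    ‖a‖ ^ 2 ≤ 8 * ‖c‖ ^ 2 + 8 * y ^ 2 := by
  have h3 : ‖a‖ ≤ ‖a - b‖ + ‖b‖ := by
    have := norm_add_le (a - b) b
    rwa [sub_add_cancel] at this
  have h4 : ‖b‖ ≤ ‖b - c‖ + ‖c‖ := by
    have := norm_add_le (b - c) c
    rwa [sub_add_cancel] at this
  have h5 : ‖a‖ ≤ 2 * (‖c‖ + y) := by linarith
  have h6 : 0 ≤ ‖a‖ := norm_nonneg _
  have h7 : ‖a‖ ^ 2 ≤ (2 * (‖c‖ + y)) ^ 2 := pow_le_pow_left₀ h6 h5 2
  nlinarith [sq_nonneg (‖c‖ - y)]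

/-- L-TR-A : (9.contributor-mass), weighted form -/
theorem p9_massz (B : PBd) (hB : B.Good) (p : Atoms.Par) (A₀ : ℝ) (hA₀ : 0 < A₀) (hA : A₀ / 2 + 1 ≤ p.A) :
    ∃ (K₁ ε₁ : ℝ), 1 ≤ K₁ ∧ 0 < ε₁ ∧ ∀ (E : PEnv) (T : PTest), E.Obeys B → T.Obeys B E → E.ε < ε₁ →
      ∀ At : Atoms, At.Good E B T.t 0 0 p → ∀ (j : Loc0) (z : ℝ × (ℤ × ℤ) × (ℤ × ℤ)), (p9Sz T E A₀ j z).Nonempty →
        ∑ i ∈ p9Sz T E A₀ j z, E.m T.t (T.site i)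
          ≤ K₁ * ∑ a ∈ p9TT T E A₀ At (B.tmin / 2) (B.Ra + p.Ra) j z, ‖At.coef E 0 a‖ ^ 2 := by
  obtain ⟨Cact, hCact1, hCact⟩ := p9_act_count B hB
  obtain ⟨CB, hCB0, hCB⟩ := p9_end_bessel B hB
  obtain ⟨CS, hCS0, hCS⟩ := pk_sup_nrm2 B.K hB.a0 p.Ra p.Bb
  obtain ⟨Atr, hAtr⟩ : ∃ Atr : ℝ, Atr = (3 * |B.Hmax| + |p.Bx| + A₀ + 2) / 2 := ⟨_, rfl⟩
  have hAtr0 : 0 < Atr := by
    rw [hAtr]
    positivity
  obtain ⟨εtr, hεtr0, htail⟩ := p9_tail B hB p (B.tmin / 2) Atr (half_pos hB.tmin) hAtr0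
  have hCact0 : 0 < Cact := lt_of_lt_of_le one_pos hCact1
  refine ⟨8 * CB * CS * p.Mu + 1, min εtr (min (1 / 2) (1 / (32 * Cact))), ?_, ?_, ?_⟩
  · have : 0 ≤ 8 * CB * CS * p.Mu := by positivity
    linarith
  · exact lt_min hεtr0 (lt_min (by norm_num) (by positivity))
  intro E T hE hT hε At hG j z hne
  have hε1 : E.ε < εtr := lt_of_lt_of_le hε (min_le_left _ _)
  have hε2 : E.ε < 1 / 2 := lt_of_lt_of_le hε ((min_le_right _ _).trans (min_le_left _ _))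
  have hε3 : E.ε < 1 / (32 * Cact) := lt_of_lt_of_le hε ((min_le_right _ _).trans (min_le_right _ _))
  have h0 : 0 < E.ε := hE.ε0
  have h1 : E.ε < 1 := hE.ε1
  have hn2 : 0 < E.nrm2 := p9_nrm2_pos hE hT
  have ht0 : 0 ≤ T.t := hB.tmin.le.trans hT.t0
  have hu0 : 0 ≤ E.u T.t := p9_u_nonneg hT
  obtain ⟨sq, hsq⟩ : ∃ sq, sq = Real.sqrt E.nrm2 := ⟨_, rfl⟩
  have hsq0 : 0 ≤ sq := hsq ▸ Real.sqrt_nonneg _
  have hsq2 : sq ^ 2 = E.nrm2 := by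
    rw [hsq]
    exact Real.sq_sqrt hn2.le
  obtain ⟨U, hU⟩ : ∃ U : At.𝔸 → Prop, U = fun a => a ∈ p9TT T E A₀ At (B.tmin / 2) (B.Ra + p.Ra) j z := ⟨_, rfl⟩
  have hUiff : ∀ a, U a ↔ a ∈ p9TT T E A₀ At (B.tmin / 2) (B.Ra + p.Ra) j z := fun a => by rw [hU]
  have hUloc : ∀ a, U a → At.loc a = j := fun a ha => (Finset.mem_filter.1 ((hUiff a).1 ha)).2.1
  have e1 : (E.ε ^ (A₀ / 2)) ^ 2 = E.ε ^ A₀ := by
    rw [pow_two, ← Real.rpow_add h0]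
    congr 1
    ring
  have e2 : (E.ε ^ Atr) ^ 2 = E.ε ^ (2 * Atr) := by
    rw [pow_two, ← Real.rpow_add h0]
    congr 1
    ring
  -- the pointwise estimate (1)-(3)
  have hpt : ∀ i ∈ p9Sz T E A₀ j z, E.m T.t (T.site i)
      ≤ 8 * mass E.lam (E.rho T.t) E.Φ (At.sup E 0 U) (T.site i) + 32 * (E.ε ^ (2 * Atr) * E.nrm2) := by
    intro i hi
    obtain ⟨-, hact, hfl, hloc, -⟩ := Finset.mem_filter.1 hi
    obtain ⟨a1, a2, a3, a4, a5⟩ := p9_adm hT i hact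
    have t1 := hG.trunc (T.site i) a1 a2 a3 a4 a5
    have t2 := htail E T.t At hE hε1 ht0 hu0 hG (T.site i) a1 a2 a3 U
      (fun a ha => (hUloc a ha).trans hloc.symm)
      (fun a ha hn => (hUiff a).2 (Finset.mem_filter.2 ⟨Finset.mem_univ _, ha.trans hloc, i, hi, hn⟩))
    rw [← hsq] at t1 t2
    have hfl' : E.ε ^ (A₀ / 2) * sq ≤ ‖pairing E.lam (E.rho T.t) E.Φ E.f (T.site i)‖ := by
      refine (pow_le_pow_iff_left₀ (by positivity) (norm_nonneg _) (two_ne_zero)).1 ?_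
      rw [mul_pow, e1, hsq2]
      exact hfl
    have t3 : E.ε ^ p.A * sq ≤ ‖pairing E.lam (E.rho T.t) E.Φ E.f (T.site i)‖ / 2 := by
      have k1 : E.ε ^ p.A ≤ E.ε ^ (A₀ / 2 + 1) := Real.rpow_le_rpow_of_exponent_ge h0 h1.le hA
      rw [Real.rpow_add h0, Real.rpow_one] at k1
      have k2 : 0 ≤ E.ε ^ (A₀ / 2) * sq := by positivity
      calc E.ε ^ p.A * sq ≤ E.ε ^ (A₀ / 2) * E.ε * sq := mul_le_mul_of_nonneg_right k1 hsq0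
        _ = E.ε * (E.ε ^ (A₀ / 2) * sq) := by ring
        _ ≤ 1 / 2 * (E.ε ^ (A₀ / 2) * sq) := mul_le_mul_of_nonneg_right hε2.le k2
        _ ≤ 1 / 2 * ‖pairing E.lam (E.rho T.t) E.Φ E.f (T.site i)‖ := by linarith
        _ = _ := by ring
    have t4 := p9_mz_sq _ _ _ _ (t1.trans t3) t2
    have t5 : 8 * (2 * (E.ε ^ Atr * sq)) ^ 2 = 32 * (E.ε ^ (2 * Atr) * E.nrm2) := by
      rw [← e2, ← hsq2]
      ring
    rw [t5] at t4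
    exact t4
  obtain ⟨i₀, hi₀⟩ := hne
  obtain ⟨-, hact₀, hfl₀, hloc₀, -⟩ := Finset.mem_filter.1 hi₀
  have hj0 : j.Cr E.ε 0 = 0 := by
    rw [← hloc₀]
    exact p9_loc0_time E.ε (T.site i₀) (hT.time i₀ hact₀).1 (hT.time i₀ hact₀).2
  -- (4) Bessel
  have hmem : MemLp (At.sup E 0 U) 2 volume := pk_sup_memLp hE hG U fun a ha => by
    rw [hG.time a, hUloc a ha, hj0]
  have e3 : (∑ a, if U a then ‖At.coef E 0 a‖ ^ 2 else 0)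
      = ∑ a ∈ p9TT T E A₀ At (B.tmin / 2) (B.Ra + p.Ra) j z, ‖At.coef E 0 a‖ ^ 2 := by
    rw [← Finset.sum_filter]
    refine Finset.sum_congr ?_ fun _ _ => rfl
    ext a
    rw [Finset.mem_filter]
    exact ⟨fun h => (hUiff a).1 h.2, fun h => ⟨Finset.mem_univ _, (hUiff a).2 h⟩⟩
  have b1 : ∑ i ∈ p9Sz T E A₀ j z, mass E.lam (E.rho T.t) E.Φ (At.sup E 0 U) (T.site i)
      ≤ CB * (CS * p.Mu * ∑ a ∈ p9TT T E A₀ At (B.tmin / 2) (B.Ra + p.Ra) j z, ‖At.coef E 0 a‖ ^ 2) := by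
    have c1 := hCB E T hE hT z.1 (At.sup E 0 U) hmem
    have c2 := hCS E B T.t 0 0 p At rfl rfl rfl hE hG hE.H0.le j hj0.ge (hj0.le.trans zero_le_one) U hUloc
    rw [e3] at c2
    refine le_trans (Finset.sum_le_sum_of_subset_of_nonneg (fun i hi => ?_) fun i _ _ => sq_nonneg _)
      (c1.trans (mul_le_mul_of_nonneg_left c2 hCB0))
    obtain ⟨-, hact, -, -, hz⟩ := Finset.mem_filter.1 hi
    exact Finset.mem_filter.2 ⟨Finset.mem_univ _, hact, congrArg Prod.fst hz⟩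
  -- (5) the count
  obtain ⟨W, hW⟩ : ∃ W, W = E.ε ^ (|p.Bx| + A₀ + 1) := ⟨_, rfl⟩
  have hW0 : 0 < W := hW ▸ Real.rpow_pos_of_pos h0 _
  have b2 : ((p9Sz T E A₀ j z).card : ℝ) * (32 * (E.ε ^ (2 * Atr) * E.nrm2)) ≤ W * E.nrm2 := by
    have hN : ((p9Sz T E A₀ j z).card : ℝ) ≤ Cact * E.ε ^ (-(3 * B.Hmax)) := by
      refine le_trans ?_ (hCact E T hE hT)
      have hsub : p9Sz T E A₀ j z ⊆ Finset.univ.filter T.act := fun i hi =>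
        Finset.mem_filter.2 ⟨Finset.mem_univ _, (Finset.mem_filter.1 hi).2.1⟩
      exact_mod_cast Finset.card_le_card hsub
    have d1 : E.ε ^ (2 * Atr) = E.ε ^ (3 * |B.Hmax|) * W * E.ε := by
      rw [hW, ← Real.rpow_add h0, ← Real.rpow_add_one h0.ne']
      congr 1
      rw [hAtr]
      ring
    have hPQ : E.ε ^ (-(3 * B.Hmax)) * E.ε ^ (3 * |B.Hmax|) ≤ 1 := by
      rw [← Real.rpow_add h0]
      refine Real.rpow_le_one h0.le h1.le ?_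
      have := le_abs_self B.Hmax
      linarith
    have hc : 32 * Cact * E.ε ≤ 1 := by
      have := (lt_div_iff₀ (by positivity : (0 : ℝ) < 32 * Cact)).1 hε3
      linarith
    have hP0 : 0 < E.ε ^ (-(3 * B.Hmax)) := Real.rpow_pos_of_pos h0 _
    have hQ0 : 0 < E.ε ^ (3 * |B.Hmax|) := Real.rpow_pos_of_pos h0 _
    rw [d1]
    calc ((p9Sz T E A₀ j z).card : ℝ) * (32 * (E.ε ^ (3 * |B.Hmax|) * W * E.ε * E.nrm2))
        ≤ (Cact * E.ε ^ (-(3 * B.Hmax))) * (32 * (E.ε ^ (3 * |B.Hmax|) * W * E.ε * E.nrm2)) :=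
          mul_le_mul_of_nonneg_right hN (by positivity)
      _ = (32 * Cact * E.ε) * (E.ε ^ (-(3 * B.Hmax)) * E.ε ^ (3 * |B.Hmax|)) * (W * E.nrm2) := by ring
      _ ≤ 1 * (W * E.nrm2) :=
          mul_le_mul_of_nonneg_right (mul_le_one₀ hc (by positivity) hPQ) (by positivity)
      _ = W * E.nrm2 := one_mul _
  have hmain : ∑ i ∈ p9Sz T E A₀ j z, E.m T.t (T.site i)
      ≤ 8 * (CB * (CS * p.Mu * ∑ a ∈ p9TT T E A₀ At (B.tmin / 2) (B.Ra + p.Ra) j z, ‖At.coef E 0 a‖ ^ 2))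
        + W * E.nrm2 := by
    refine (Finset.sum_le_sum hpt).trans ?_
    rw [Finset.sum_add_distrib, ← Finset.mul_sum, Finset.sum_const, nsmul_eq_mul]
    exact add_le_add (mul_le_mul_of_nonneg_left b1 (by norm_num)) b2
  -- (6) the contributors are not empty
  have hW2 : W * E.nrm2 ≤ ∑ a ∈ p9TT T E A₀ At (B.tmin / 2) (B.Ra + p.Ra) j z, ‖At.coef E 0 a‖ ^ 2 := by
    rcases (p9TT T E A₀ At (B.tmin / 2) (B.Ra + p.Ra) j z).eq_empty_or_nonempty with he | ⟨a₀, ha₀⟩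
    · exfalso
      rw [he, Finset.sum_empty, mul_zero, mul_zero, mul_zero, zero_add] at hmain
      have f1 : E.m T.t (T.site i₀) ≤ ∑ i ∈ p9Sz T E A₀ j z, E.m T.t (T.site i) :=
        Finset.single_le_sum (f := fun i => E.m T.t (T.site i)) (fun i _ => sq_nonneg _) hi₀
      have f2 : W < E.ε ^ A₀ := by
        rw [hW]
        refine Real.rpow_lt_rpow_of_exponent_gt h0 h1 ?_
        have := abs_nonneg p.Bx
        linarith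
      have f3 : W * E.nrm2 < E.ε ^ A₀ * E.nrm2 := mul_lt_mul_of_pos_right f2 hn2
      linarith
    · have g1 : W ≤ E.ε ^ p.Bx := by
        rw [hW]
        refine Real.rpow_le_rpow_of_exponent_ge h0 h1.le ?_
        have := le_abs_self p.Bx
        linarith
      have g2 : ‖At.coef E 0 a₀‖ ^ 2 ≤ ∑ a ∈ p9TT T E A₀ At (B.tmin / 2) (B.Ra + p.Ra) j z, ‖At.coef E 0 a‖ ^ 2 :=
        Finset.single_le_sum (f := fun a => ‖At.coef E 0 a‖ ^ 2) (fun a _ => sq_nonneg _) ha₀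
      exact (mul_le_mul_of_nonneg_right g1 hn2.le).trans ((hG.floor a₀).trans g2)
  calc ∑ i ∈ p9Sz T E A₀ j z, E.m T.t (T.site i)
      ≤ 8 * (CB * (CS * p.Mu * ∑ a ∈ p9TT T E A₀ At (B.tmin / 2) (B.Ra + p.Ra) j z, ‖At.coef E 0 a‖ ^ 2))
        + ∑ a ∈ p9TT T E A₀ At (B.tmin / 2) (B.Ra + p.Ra) j z, ‖At.coef E 0 a‖ ^ 2 := by linarith
    _ = _ := by ring

end Claimed.Agent.R255.Pkt
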