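import Claimed.Agent.R255.Pk9.Core

/-!
# Row 255 (BR paper), Sec. 9: the WEIGHTED contributor law      (architect helper256)   -- KEEP

PAPER-FREE.  NATURAL UNITS.   Variant of `p9_contrib_core` (l.800-875) in which the contributor `T` of the coarse observation `Z` is chosen with probability
`c T / ∑_{TT Z} c` (`c T = |c_T|²` : the root masses) instead of uniformly in a class of constant mass.   Then `E log (∑_{TT Z} c) = E log c(T) + H(T | Z)` EXACTLY, so that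
no mass bins, no greedy classes and no winner are needed for P9.6:
  endpoint score `≤ H(T) + H(T|D)/2 + (3/2) E log c(T) + log #Cs + (3/2) log K₁ + (3/2) log K₂`      (`p9_weighted_core`),
and the right side is the score of a root test (law of `(ω, T)`, observation `T`, label `D`).
* `p9_ker_entC`   `H(T | W) = E[- log κ(ω, T)]` for every kernel `κ` and every `W` (on the first coordinate) which determines `κ ω`.
* `p9_wker`       the weighted kernel,  `p9_wker_supp` its support.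
-/

set_option autoImplicit false

namespace Claimed.Agent.R255

open scoped BigOperators
open Classical
open FLaw

variable {Ω : Type} [Fintype Ω] {α β γ δ : Type}

/-- the conditional entropy of a label adjoined by a kernel -/
theorem p9_ker_entC {τ : Type} [Fintype τ] (P : FLaw Ω) (κ : Ker Ω τ) (W : Ω → β)
    (hW : ∀ ω ω', P.p ω ≠ 0 → P.p ω' ≠ 0 → W ω = W ω' → κ.k ω = κ.k ω') :
    (P.ext κ).entC (fun x => x.2) (fun x => W x.1) = (P.ext κ).ev (fun x => - Real.log (κ.k x.1 x.2)) := by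
  rw [ent_entC_eq_ev]
  apply ent_ev_congr
  rintro ⟨ω, t⟩ hx
  rw [p9_ext_p] at hx
  have hω : P.p ω ≠ 0 := left_ne_zero_of_mul hx
  have hk : κ.k ω t ≠ 0 := right_ne_zero_of_mul hx
  have hfW : 0 < P.fib W ω := ent_fib_pos P W hω
  have hY : (P.ext κ).fib (fun x => W x.1) (ω, t) = P.fib W ω := by
    unfold FLaw.fib
    rw [p9_ext_pr]
    unfold FLaw.pr
    apply Finset.sum_congr rfl
    intro ω' _
    by_cases hw : W ω' = W ω
    · simp only [hw, if_true, κ.sum_one, mul_one]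
    · simp [hw]
  have hXY : (P.ext κ).fib (pair (fun x : Ω × τ => x.2) (fun x => W x.1)) (ω, t) = P.fib W ω * κ.k ω t := by
    unfold FLaw.fib
    rw [p9_ext_pr]
    unfold FLaw.pr
    rw [Finset.sum_mul]
    apply Finset.sum_congr rfl
    intro ω' _
    by_cases hp : P.p ω' = 0
    · simp [hp]
    by_cases hw : W ω' = W ω
    · have hT : κ.k ω' = κ.k ω := hW ω' ω hp hω hw
      simp only [pair, Prod.mk.injEq, hw, and_true, if_true]
      congr 1
      rw [hT]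
      simp
    · simp [pair, hw]
  unfold FLaw.surC
  rw [hXY, hY]
  have : P.fib W ω * κ.k ω t / P.fib W ω = κ.k ω t := by
    field_simp
  rw [this]

/-- the weighted kernel: `T ∈ TT ω` with probability proportional to `c T` -/
noncomputable def p9_wker {τ : Type} [Fintype τ] [Nonempty τ] (TT : Ω → Finset τ) (c : τ → ℝ) (hc : ∀ t, 0 ≤ c t) :
    Ker Ω τ where
  k := fun ω t => if 0 < ∑ s ∈ TT ω, c s then (if t ∈ TT ω then c t / ∑ s ∈ TT ω, c s else 0)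
      else 1 / (Fintype.card τ : ℝ)
  nonneg := fun ω t => by
    split_ifs with h1 h2
    · exact div_nonneg (hc t) h1.le
    · exact le_refl 0
    · positivity
  sum_one := fun ω => by
    by_cases h : 0 < ∑ s ∈ TT ω, c s
    · simp only [h, if_true]
      rw [← Finset.sum_filter]
      have : (Finset.univ.filter fun t => t ∈ TT ω) = TT ω := by ext; simp
      rw [this, ← Finset.sum_div]
      exact div_self h.ne'
    · simp only [h, if_false]
      rw [Finset.sum_const, Finset.card_univ, nsmul_eq_mul]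
      have : (Fintype.card τ : ℝ) ≠ 0 := by
        exact_mod_cast Fintype.card_ne_zero
      field_simp

theorem p9_wker_k {τ : Type} [Fintype τ] [Nonempty τ] (TT : Ω → Finset τ) (c : τ → ℝ) (hc : ∀ t, 0 ≤ c t) (ω : Ω)
    (h : 0 < ∑ s ∈ TT ω, c s) (t : τ) :
    (p9_wker TT c hc).k ω t = if t ∈ TT ω then c t / ∑ s ∈ TT ω, c s else 0 := by
  simp [p9_wker, h]

/-- the support of `P.ext (p9_wker TT c)` -/
theorem p9_wker_supp {τ : Type} [Fintype τ] [Nonempty τ] (P : FLaw Ω) (TT : Ω → Finset τ) (c : τ → ℝ) (hc : ∀ t, 0 ≤ c t)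
    (hne : ∀ ω, P.p ω ≠ 0 → 0 < ∑ s ∈ TT ω, c s) (x : Ω × τ) (hx : (P.ext (p9_wker TT c hc)).p x ≠ 0) :
    P.p x.1 ≠ 0 ∧ x.2 ∈ TT x.1 ∧ 0 < c x.2 := by
  rw [p9_ext_p] at hx
  have h1 : P.p x.1 ≠ 0 := left_ne_zero_of_mul hx
  have h2 := right_ne_zero_of_mul hx
  rw [p9_wker_k TT c hc x.1 (hne _ h1)] at h2
  have h3 : x.2 ∈ TT x.1 := by
    by_contra h
    simp [h] at h2
  refine ⟨h1, h3, ?_⟩
  rw [if_pos h3] at h2
  have h4 : c x.2 ≠ 0 := fun h => h2 (by rw [h, zero_div])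
  exact lt_of_le_of_ne (hc _) (Ne.symm h4)

/-- **the weighted contributor inequality** -/
theorem p9_weighted_core {τ ζ : Type} [Fintype τ] [Nonempty τ] (P : FLaw Ω)
    (O : Ω → α) (D : Ω → β) (Z : Ω → ζ) (C : Ω → γ)
    (hZO : ∀ ω ω', P.p ω ≠ 0 → P.p ω' ≠ 0 → O ω = O ω' → Z ω = Z ω')
    (hCZ : ∀ ω ω', P.p ω ≠ 0 → P.p ω' ≠ 0 → Z ω = Z ω' → C ω = C ω')
    (hCD : ∀ ω ω', P.p ω ≠ 0 → P.p ω' ≠ 0 → D ω = D ω' → C ω = C ω')
    (m : α → ℝ) (hm : ∀ o, 0 ≤ m o) (hpos : ∀ ω, P.p ω ≠ 0 → 0 < m (O ω))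
    (S : ζ → Finset α) (hS : ∀ ω, P.p ω ≠ 0 → O ω ∈ S (Z ω))
    (TT : ζ → Finset τ) (c : τ → ℝ) (hc : ∀ t, 0 ≤ c t) (K₁ K₂ : ℝ) (hK₁ : 0 < K₁)
    (hmass : ∀ ω, P.p ω ≠ 0 → ∑ o ∈ S (Z ω), m o ≤ K₁ * ∑ t ∈ TT (Z ω), c t)
    (hloc : ∀ (t : τ) (c : γ), ∃ Zs : Finset ζ, (Zs.card : ℝ) ≤ K₂ ∧
      ∀ ω, P.p ω ≠ 0 → t ∈ TT (Z ω) → C ω = c → Z ω ∈ Zs)
    (Cs : Finset γ) (hCs : ∀ ω, P.p ω ≠ 0 → C ω ∈ Cs) :
    (∀ x, (P.ext (p9_wker (fun ω => TT (Z ω)) c hc)).p x ≠ 0 → P.p x.1 ≠ 0 ∧ x.2 ∈ TT (Z x.1) ∧ 0 < c x.2) ∧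
    P.ent O + 1 / 2 * P.entC O D + 3 / 2 * P.ev (fun ω => Real.log (m (O ω)))
      ≤ (P.ext (p9_wker (fun ω => TT (Z ω)) c hc)).ent (fun x => x.2)
        + 1 / 2 * (P.ext (p9_wker (fun ω => TT (Z ω)) c hc)).entC (fun x => x.2) (fun x => D x.1)
        + 3 / 2 * (P.ext (p9_wker (fun ω => TT (Z ω)) c hc)).ev (fun x => Real.log (c x.2))
        + Real.log (Cs.card : ℝ) + 3 / 2 * Real.log K₁ + 3 / 2 * Real.log K₂ := by
  set κ := p9_wker (fun ω => TT (Z ω)) c hc with hκ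
  set Q := P.ext κ with hQ
  have hsum : ∀ ω, P.p ω ≠ 0 → 0 < ∑ t ∈ TT (Z ω), c t := by
    intro ω hω
    have h1 : 0 < ∑ o ∈ S (Z ω), m o :=
      lt_of_lt_of_le (hpos ω hω) (Finset.single_le_sum (fun o _ => hm o) (hS ω hω))
    have h2 := lt_of_lt_of_le h1 (hmass ω hω)
    exact (pos_iff_pos_of_mul_pos h2).1 hK₁
  have hsupp : ∀ x, Q.p x ≠ 0 → P.p x.1 ≠ 0 ∧ x.2 ∈ TT (Z x.1) ∧ 0 < c x.2 := fun x hx =>
    p9_wker_supp P (fun ω => TT (Z ω)) c hc hsum x hx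
  refine ⟨hsupp, ?_⟩
  -- a. coarsening
  have ha := p9_coarsen P O D Z hZO m hm hpos S hS (fun z => K₁ * ∑ t ∈ TT z, c t) hmass
  -- b.
  have hb : P.ev (fun ω => Real.log (K₁ * ∑ t ∈ TT (Z ω), c t))
      = Real.log K₁ + P.ev (fun ω => Real.log (∑ t ∈ TT (Z ω), c t)) := by
    rw [← ent_ev_const P (Real.log K₁), ← ent_ev_add]
    apply ent_ev_congr
    intro ω hω
    rw [Real.log_mul hK₁.ne' (hsum ω hω).ne']
  -- c. exact conditional entropies
  have hker : ∀ ω ω', Z ω = Z ω' → κ.k ω = κ.k ω' := by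
    intro ω ω' h
    funext t
    simp only [hκ, p9_wker, h]
  have hc1 : Q.entC (fun x => x.2) (fun x => Z x.1) = Q.ev (fun x => - Real.log (κ.k x.1 x.2)) :=
    p9_ker_entC P κ Z (fun ω ω' _ _ h => hker ω ω' h)
  have hc2 : Q.entC (fun x => x.2) (pair (fun x => Z x.1) (fun x => D x.1))
      = Q.ev (fun x => - Real.log (κ.k x.1 x.2)) :=
    p9_ker_entC P κ (pair Z D) (fun ω ω' _ _ h => hker ω ω' (Prod.ext_iff.1 h).1)
  have hc3 : Q.ev (fun x => - Real.log (κ.k x.1 x.2))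
      = P.ev (fun ω => Real.log (∑ t ∈ TT (Z ω), c t)) - Q.ev (fun x => Real.log (c x.2)) := by
    rw [← p9_ext_ev P κ (fun ω => Real.log (∑ t ∈ TT (Z ω), c t)), ← ent_ev_sub]
    apply ent_ev_congr
    intro x hx
    obtain ⟨h1, h2, h3⟩ := hsupp x hx
    rw [hκ, p9_wker_k _ c hc x.1 (hsum _ h1), if_pos h2, Real.log_div h3.ne' (hsum _ h1).ne']
    ring
  -- d.
  have hd := p9_contrib_ineq Q (fun x => Z x.1) (fun x => D x.1) (fun x => x.2) (fun x => C x.1)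
    (hc2.trans hc1.symm)
    (fun x x' h h' e => hCZ _ _ (hsupp x h).1 (hsupp x' h').1 e)
    (fun x x' h h' e => hCD _ _ (hsupp x h).1 (hsupp x' h').1 e)
  -- e.
  have he1 : Q.ent (fun x => Z x.1) = P.ent Z := p9_ext_ent P _ Z
  have he2 : Q.entC (fun x => Z x.1) (fun x => D x.1) = P.entC Z D := p9_ext_entC P _ Z D
  -- f.
  have hf : Q.entC (fun x => Z x.1) (pair (fun x => x.2) (fun x => C x.1)) ≤ Real.log K₂ := by
    apply ent_entC_le_log_nval
    intro x₀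
    obtain ⟨Zs, hZs, hmem⟩ := hloc x₀.2 (C x₀.1)
    refine ⟨Zs, hZs, fun x hx _ e => ?_⟩
    have e' := Prod.ext_iff.1 e
    simp only [pair] at e'
    exact hmem x.1 (hsupp x hx).1 (e'.1 ▸ (hsupp x hx).2.1) e'.2
  -- g.
  have hg : Q.entC (fun x => C x.1) (fun x => x.2) ≤ Real.log (Cs.card : ℝ) := by
    refine (ent_entC_le Q _ _).trans ?_
    rw [p9_ext_ent P _ C]
    exact ent_le_log_card P C Cs hCs
  rw [hb] at ha
  rw [he1, he2, hc1, hc3] at hd
  linarith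

end Claimed.Agent.R255
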