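import Claimed.Agent.R255.Pkt.Cut
import Claimed.Agent.R255.Pk9.RootNorm
import Claimed.Agent.R255.Pk9.Wker
import Claimed.Agent.R255.Pk.An

/-!
# R255 / Pk9 / TrivDefs : VOCABULARY OF THE PROOF OF P9.6 (`PRate γ 1`)      (architect helper256)   -- KEEP

ROUTE (differs from the paper: NO classes, NO winner, NO small parameters `η, ξ`; all errors are `O(1/ℓ)`).
 `E, T` obey `B`, `t = T.t ≥ tmin`, `ρ_t = E.rho t`, root scale `ρ₀ = σ₀ = E.rho 0`, `lam ρ₀² = 1`.
 1. output floor `ε^A₀ ‖f‖² ≤ m_O` (the low part has score `≤` norm option: `p9_triv_low`), split by the unit localizer `j = loc0 ε 0 0 (site)` (boundedly many: `p9_loc_count`).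
 2. atoms `At` of L9.3 at `r = bs = 0`.   Coarse observation `p9zobs = (C, cell_{ρ_t} V, cell_{ρ_t} (X - C V))`;   `p9Sz z` = retained endpoint sites over `z`;
    `p9TT z` = atoms of the localizer which are `AnNear` (`Pk/An.lean`, `η = tmin/2`, `Rn = B.Ra + p.Ra`) some site of `p9Sz z`;   since `ε^(-η) σ₀ ≤ ρ_t` this implies
    `P9Near s a` : `‖V_a - V‖ ≤ |Rn| ρ_t`, `‖X - X_a - C V_a‖ ≤ ρ_t` (`p9_near_of_an`): NO loss in the geometry, and the transport tail (`an_transport`) is a power of `ε` of arbitrary order.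
 3. `p9_massz` : `∑_{p9Sz z} m_i(f) ≤ K₁ ∑_{p9TT z} |c_a|²`.
 4. `p9_weighted_core` (`Pk9/Wker.lean`) with the kernel `a ∈ p9TT z` with probability `∝ |c_a|²` : endpoint score `≤` score of `p9rootT` `+ t + C/ℓ`.
 5. `p9rootT` is a generalised root test (`IsRootG`; apertures `p9rgeo` = the SAME widths referred to time `0`, enlargement `2 Ke + Rn + 3`): `p9_root_norm`.
-/

set_option autoImplicit false

namespace Claimed.Agent.R255.Pkt

open MeasureTheory Claimed.Agent.R255.Osc Claimed.Agent.R255.FLaw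
open scoped BigOperators
open Classical

/-- admissible endpoint sites of a package -/
def P9Adm (B : PBd) (s : Site) : Prop :=
  AmpC B.Ra B.K.Bb s.ψ ∧ 0 ≤ s.C ∧ s.C < 1 ∧ ‖s.V‖ ≤ B.K.Rv ∧ ‖s.X‖ ≤ B.K.Rx

theorem p9_adm {T : PTest} {B : PBd} {E : PEnv} (h : T.Obeys B E) (i : T.ι) (hi : T.act i) : P9Adm B (T.site i) :=
  ⟨h.amp i hi, (h.time i hi).1, (h.time i hi).2, h.vel i hi, h.pos i hi⟩

/-- the coarse observation `Z = (C, cell_{ρ_t} V, cell_{ρ_t} (X - C V))` -/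
noncomputable def p9zobs (E : PEnv) (t : ℝ) (s : Site) : ℝ × (ℤ × ℤ) × (ℤ × ℤ) :=
  (s.C, cell (E.rho t) s.V, cell (E.rho t) (s.X - s.C • s.V))

/-- the root atom site `a` is a potential contributor of the endpoint site `s` -/
def P9Near (E : PEnv) (t Rn : ℝ) (s a : Site) : Prop :=
  ‖a.V - s.V‖ ≤ Rn * E.rho t ∧ ‖s.X - a.X - s.C • a.V‖ ≤ E.rho t

/-- the aperture read-out referred to the root time: same widths, same angle -/
def p9rgeo (g : Geo) : Geo := { g with tc := 0, xc := g.xc - g.tc • g.vc }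

/-- the retained endpoint sites over `z` : active, above the output floor, in the localizer `j` -/
noncomputable def p9Sz (T : PTest) (E : PEnv) (A₀ : ℝ) (j : Loc0) (z : ℝ × (ℤ × ℤ) × (ℤ × ℤ)) : Finset T.ι :=
  Finset.univ.filter fun i => T.act i ∧ E.ε ^ A₀ * E.nrm2 ≤ E.m T.t (T.site i) ∧ loc0 E.ε 0 0 (T.site i) = j ∧
    p9zobs E T.t (T.site i) = z

/-- the potential contributors of `z` -/
noncomputable def p9TT (T : PTest) (E : PEnv) (A₀ : ℝ) (At : Atoms) (η Rn : ℝ) (j : Loc0) (z : ℝ × (ℤ × ℤ) × (ℤ × ℤ)) :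
    Finset At.𝔸 :=
  Finset.univ.filter fun a => At.loc a = j ∧ ∃ i ∈ p9Sz T E A₀ j z, AnNear E T.t 0 η Rn (T.site i) (At.asite a)

/-- `AnNear` at `r = 0`, `η ≤ t/2` implies the lossless geometric nearness -/
theorem p9_near_of_an (E : PEnv) (h0 : 0 < E.ε) (h1 : E.ε < 1) (t η Rn : ℝ) (hη : η ≤ t / 2) (s a : Site) (ha : a.C = 0)
    (h : AnNear E t 0 η Rn s a) : P9Near E t |Rn| s a := by
  obtain ⟨hV, hX⟩ := h
  have hρ : 0 < E.rho t := Real.rpow_pos_of_pos h0 _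
  refine ⟨hV.trans (mul_le_mul_of_nonneg_right (le_abs_self _) hρ.le), ?_⟩
  rw [ha, sub_zero] at hX
  refine hX.trans ?_
  unfold PEnv.sig PEnv.rho
  rw [← Real.rpow_add h0]
  apply Real.rpow_le_rpow_of_exponent_ge h0 h1.le
  unfold PEnv.u
  linarith

/-- the root test of the contributor law -/
noncomputable def p9rootT (T : PTest) (At : Atoms) (Q : FLaw (T.Ω × At.𝔸)) : PTest where
  t := 0
  Ω := T.Ω × At.𝔸
  finΩ := inferInstance
  P := Q
  ι := At.𝔸
  finι := At.fin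
  site := fun a => (At.asite a).conj
  O := Prod.snd
  Γ := T.Γ
  D := fun x => T.D x.1
  geo := fun g => p9rgeo (T.geo g)

theorem p9_wt_rgeo (γ : ℝ) (g : Geo) : wt γ (p9rgeo g) = wt γ g := rfl

theorem p9_coef_m (At : Atoms) (E : PEnv) (a : At.𝔸) : E.m 0 (At.asite a).conj = ‖At.coef E 0 a‖ ^ 2 := rfl

/-- a law charges some point -/
theorem p9_exists_pos {Ω : Type} [Fintype Ω] (P : FLaw Ω) : ∃ o, 0 < P.p o := by
  obtain ⟨o, ho⟩ := ent_exists_supp P
  exact ⟨o, lt_of_le_of_ne (P.nonneg o) (Ne.symm ho)⟩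

/-- `0 ≤ u_t` for a test obeying the bounds -/
theorem p9_u_nonneg {T : PTest} {B : PBd} {E : PEnv} (hT : T.Obeys B E) : 0 ≤ E.u T.t := by
  obtain ⟨o, ho⟩ := p9_exists_pos T.P
  have hg := hT.geo o ho
  exact le_trans hg.1 (le_trans hg.2.1 hg.2.2.2.1)

/-- `t ≤ H ≤ Hmax` -/
theorem p9_t_le {T : PTest} {B : PBd} {E : PEnv} (hE : E.Obeys B) (hT : T.Obeys B E) : T.t ≤ E.H ∧ E.H ≤ B.Hmax := by
  have hu := p9_u_nonneg hT
  unfold PEnv.u at hu
  exact ⟨by linarith, hE.H1⟩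

/-- the unit localizers of admissible sites have time anchor `0` -/
theorem p9_loc0_time (ε : ℝ) (s : Site) (h0 : 0 ≤ s.C) (h1 : s.C < 1) : (loc0 ε 0 0 s).Cr ε 0 = 0 := by
  unfold Loc0.Cr loc0
  simp only [Real.rpow_zero, div_one, one_mul]
  have : ⌊s.C⌋ = 0 := Int.floor_eq_zero_iff.2 ⟨h0, h1⟩
  rw [this]
  simp

theorem p9_ev_div {Ω : Type} [Fintype Ω] (P : FLaw Ω) (f : Ω → ℝ) (l : ℝ) : P.ev (fun o => f o / l) = P.ev f / l := by
  unfold FLaw.ev
  rw [Finset.sum_div]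
  exact Finset.sum_congr rfl fun o _ => by ring

end Claimed.Agent.R255.Pkt
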