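import Claimed.Agent.R255.Pk9.TrivDefs
import Claimed.Agent.R255.Pk9.Classes

/-!
# R255 / Pk9 / TrivGeo : GEOMETRY AND COUNTS FOR P9.6      (architect helper256)   -- KEEP

ALL LEAVES ARE PAPER-FREE AND ELEMENTARY (floors, norms in `E2`, real powers).   Vocabulary: `Pk9/TrivDefs.lean`, `Pkt/Base.lean`, `Pkt/Cut.lean` (`cell`, `loc0`), `Base/Classical.lean` (`InRect`, `ip`, `tang`, `nrm`, `Geo`).
* L-TR-G1 `p9_root_geo`      the contributors of an aperture label lie in the root-referred aperture of the SAME widths, enlargement `2|Ke| + Rn + 3`.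
   PLAN.  `ρ = ρ_t = ε^(u_t) ≤ ε^a ≤ ε^b` (`a ≤ u_t`, `b ≤ a`, `ε < 1`).   For `w : E2`: `|ip (toP w) (tang th)| ≤ ‖w‖`, `|ip (toP w) (nrm th)| ≤ ‖w‖` (Cauchy-Schwarz, `cos² + sin² = 1`; `‖w‖² = w0² + w1²`: `EuclideanSpace.norm_sq_eq`).
   Same cell of side `ρ` ⟹ coordinates differ by `< ρ` ⟹ norm `≤ 2ρ`   (`Int.abs_sub_lt_one_of_floor_eq_floor`).    `C = s.C = s'.C` (first component of `hz`).
   `a.V - vc = (a.V - s'.V) + (s'.V - s.V) + (s.V - vc)`;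
   `a.X - (xc - C vc) = -(s'.X - a.X - C a.V) + [(s'.X - C s'.V) - (s.X - C s.V)] + (s.X - xc) - C (s.V - vc) + C (s'.V - a.V)`;   `ip` is bilinear, `toP` is linear;  `ε^(b+t) ≤ ε^b`.
* L-TR-G2 `p9_zloc`          `(a, c)` locates `Z` up to `K₂` possibilities.   `Zs = {c} ×ˢ box ×ˢ box` (`Finset.Icc` of integers around `⌊a.V k / ρ⌋`, `⌊a.X k / ρ⌋`, half-widths `⌈Rn⌉ + 2`, `⌈Rn⌉ + 3`);
   `s.X - c s.V - a.X = (s.X - a.X - c a.V) + c (a.V - s.V)`, norm `≤ (1 + Rn) ρ`.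
* L-TR-G3 `p9_loc_count`     boundedly many unit localizers (`ε^0 = 1`, `⌊C⌋ = 0`, `tanchor ε 0 C = 0`; `F = {0} ×ˢ box ×ˢ box` does not depend on `ε`).
* L-TR-G4 `p9_anchor_count`  `#{time anchors} ≤ 2 Mu ε^(-t)` (cells `⌊c / ε^t⌋ ∈ [0, ε^(-t)]`, at most `Mu` anchors in a cell by `multT`; `Finset.card_le_mul_card_image`).
          `p9_act_count`     `#{active sites} ≤ C ε^(-3 Hmax)` (`p9_anchor_count`; for one anchor `p9_pack` (`Pk9/Classes.lean`) with `V₀ = X₀ = 0`, `R₁ = Rv / ρ_t`, `R₂ = Rx / σ_t`, `multS`;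
                             `ρ_t² σ_t² = ε^(2H)`, `2H + t ≤ 3 Hmax` by `p9_t_le`).
-/

set_option autoImplicit false

namespace Claimed.Agent.R255.Pkt

open MeasureTheory Claimed.Agent.R255.Osc Claimed.Agent.R255.FLaw
open scoped BigOperators
open Classical

theorem p9_rg_norm_sq (w : E2) : ‖w‖ ^ 2 = w 0 ^ 2 + w 1 ^ 2 := by
  rw [EuclideanSpace.norm_sq_eq, Fin.sum_univ_two]
  simp only [Real.norm_eq_abs, sq_abs]

theorem p9_rg_ip_le (w : E2) (d : ℝ × ℝ) (hd : d.1 ^ 2 + d.2 ^ 2 = 1) : |ip (toP w) d| ≤ ‖w‖ := by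
  apply abs_le_of_sq_le_sq _ (norm_nonneg w)
  rw [p9_rg_norm_sq]
  unfold ip toP
  simp only
  nlinarith [sq_nonneg (w 0 * d.2 - w 1 * d.1)]

theorem p9_rg_tang (th : ℝ) : (tang th).1 ^ 2 + (tang th).2 ^ 2 = 1 := by
  unfold tang
  simp only
  exact Real.cos_sq_add_sin_sq th

theorem p9_rg_nrm (th : ℝ) : (nrm th).1 ^ 2 + (nrm th).2 ^ 2 = 1 := by
  unfold nrm
  simp only
  nlinarith [Real.cos_sq_add_sin_sq th]

theorem p9_rg_cell (w : ℝ) (hw : 0 < w) (x y : E2) (h : cell w x = cell w y) : ‖x - y‖ ≤ 2 * w := by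
  unfold cell at h
  have h0 : ⌊x 0 / w⌋ = ⌊y 0 / w⌋ := congrArg Prod.fst h
  have h1 : ⌊x 1 / w⌋ = ⌊y 1 / w⌋ := congrArg Prod.snd h
  have a0 := Int.abs_sub_lt_one_of_floor_eq_floor h0
  have a1 := Int.abs_sub_lt_one_of_floor_eq_floor h1
  have e0 : x 0 / w - y 0 / w = (x 0 - y 0) / w := by ring
  have e1 : x 1 / w - y 1 / w = (x 1 - y 1) / w := by ring
  rw [e0, abs_div, abs_of_pos hw, div_lt_one hw] at a0
  rw [e1, abs_div, abs_of_pos hw, div_lt_one hw] at a1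
  apply abs_le_of_sq_le_sq' _ (by positivity) |>.2
  rw [p9_rg_norm_sq]
  have b0 : (x - y) 0 = x 0 - y 0 := rfl
  have b1 : (x - y) 1 = x 1 - y 1 := rfl
  rw [b0, b1]
  have c0 : (x 0 - y 0) ^ 2 ≤ w ^ 2 := by
    rw [← sq_abs]; exact pow_le_pow_left₀ (abs_nonneg _) a0.le 2
  have c1 : (x 1 - y 1) ^ 2 ≤ w ^ 2 := by
    rw [← sq_abs]; exact pow_le_pow_left₀ (abs_nonneg _) a1.le 2
  nlinarith

theorem p9_rg_V (d : ℝ × ℝ) (hd : d.1 ^ 2 + d.2 ^ 2 = 1) (aV sV' sV : E2) (vc : ℝ × ℝ) :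
    |ip (toP aV - vc) d| ≤ ‖aV - sV'‖ + ‖sV' - sV‖ + |ip (toP sV - vc) d| := by
  have e : ip (toP aV - vc) d = ip (toP (aV - sV')) d + ip (toP (sV' - sV)) d + ip (toP sV - vc) d := by
    unfold ip toP
    simp only [Prod.fst_sub, Prod.snd_sub, PiLp.sub_apply]
    ring
  rw [e]
  have h1 := p9_rg_ip_le (aV - sV') d hd
  have h2 := p9_rg_ip_le (sV' - sV) d hd
  have h3 := abs_add_three (ip (toP (aV - sV')) d) (ip (toP (sV' - sV)) d) (ip (toP sV - vc) d)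
  linarith

theorem p9_rg_X (d : ℝ × ℝ) (hd : d.1 ^ 2 + d.2 ^ 2 = 1) (C : ℝ) (hC : 0 ≤ C) (hC1 : C ≤ 1)
    (aV sV' sV aX sX' sX : E2) (vc xc : ℝ × ℝ) :
    |ip (toP aX - (xc - C • vc)) d| ≤ ‖sX' - aX - C • aV‖ + ‖(sX' - C • sV') - (sX - C • sV)‖ + |ip (toP sX - xc) d|
      + |ip (toP sV - vc) d| + ‖aV - sV'‖ := by
  have e : ip (toP aX - (xc - C • vc)) d = - ip (toP (sX' - aX - C • aV)) d
      + ip (toP ((sX' - C • sV') - (sX - C • sV))) d + ip (toP sX - xc) d - C * ip (toP sV - vc) d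
      - C * ip (toP (aV - sV')) d := by
    unfold ip toP
    simp only [Prod.fst_sub, Prod.snd_sub, PiLp.sub_apply, PiLp.smul_apply, Prod.smul_fst, Prod.smul_snd, smul_eq_mul]
    ring
  rw [e]
  have h1 := p9_rg_ip_le (sX' - aX - C • aV) d hd
  have h2 := p9_rg_ip_le ((sX' - C • sV') - (sX - C • sV)) d hd
  have h3 := p9_rg_ip_le (aV - sV') d hd
  have k1 : |C * ip (toP sV - vc) d| ≤ |ip (toP sV - vc) d| := by
    rw [abs_mul, abs_of_nonneg hC]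
    exact mul_le_of_le_one_left (abs_nonneg _) hC1
  have k2 : |C * ip (toP (aV - sV')) d| ≤ |ip (toP (aV - sV')) d| := by
    rw [abs_mul, abs_of_nonneg hC]
    exact mul_le_of_le_one_left (abs_nonneg _) hC1
  set p1 := ip (toP (sX' - aX - C • aV)) d
  set p2 := ip (toP ((sX' - C • sV') - (sX - C • sV))) d
  set p3 := ip (toP sX - xc) d
  set p4 := C * ip (toP sV - vc) d
  set p5 := C * ip (toP (aV - sV')) d
  have t1 : |-p1 + p2 + p3 - p4 - p5| ≤ |p1| + |p2| + |p3| + |p4| + |p5| := by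
    rw [abs_le]
    constructor <;>
    · have := neg_abs_le p1; have := le_abs_self p1
      have := neg_abs_le p2; have := le_abs_self p2
      have := neg_abs_le p3; have := le_abs_self p3
      have := neg_abs_le p4; have := le_abs_self p4
      have := neg_abs_le p5; have := le_abs_self p5
      linarith
  linarith

/-- L-TR-G1 -/
theorem p9_root_geo (Ke Rn : ℝ) (hRn : 0 ≤ Rn) (E : PEnv) (t : ℝ) (h0 : 0 < E.ε) (h1 : E.ε < 1) (ht : 0 ≤ t)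
    (g : Geo) (s s' a : Site) (hg : GeoOK g Ke E.ε t E.L (E.u t) s) (hs : 0 ≤ s.C) (hs1 : s.C ≤ 1)
    (hz : p9zobs E t s' = p9zobs E t s) (hn : P9Near E t Rn s' a) (ha : a.C = 0) :
    GeoOK (p9rgeo g) (2 * |Ke| + Rn + 3) E.ε 0 E.L (E.u 0) a := by
  obtain ⟨hb0, hba, haL, hau, htc, ⟨hV1, hV2⟩, ⟨hX1, hX2⟩⟩ := hg
  obtain ⟨hnV, hnX⟩ := hn
  unfold p9zobs at hz
  have hC : s'.C = s.C := congrArg Prod.fst hz
  have hcV : cell (E.rho t) s'.V = cell (E.rho t) s.V := congrArg (fun p => p.2.1) hz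
  have hcX : cell (E.rho t) (s'.X - s'.C • s'.V) = cell (E.rho t) (s.X - s.C • s.V) := congrArg (fun p => p.2.2) hz
  have hρ : 0 < E.rho t := Real.rpow_pos_of_pos h0 _
  have hρa : E.rho t ≤ E.ε ^ g.a := Real.rpow_le_rpow_of_exponent_ge h0 h1.le hau
  have hab : E.ε ^ g.a ≤ E.ε ^ g.b := Real.rpow_le_rpow_of_exponent_ge h0 h1.le hba
  have hbt : E.ε ^ (g.b + t) ≤ E.ε ^ g.b := Real.rpow_le_rpow_of_exponent_ge h0 h1.le (by linarith)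
  have hat : E.ε ^ (g.a + t) ≤ E.ε ^ g.a := Real.rpow_le_rpow_of_exponent_ge h0 h1.le (by linarith)
  have pa : 0 < E.ε ^ g.a := Real.rpow_pos_of_pos h0 _
  have pb : 0 < E.ε ^ g.b := Real.rpow_pos_of_pos h0 _
  have pat : 0 < E.ε ^ (g.a + t) := Real.rpow_pos_of_pos h0 _
  have pbt : 0 < E.ε ^ (g.b + t) := Real.rpow_pos_of_pos h0 _
  have dV := p9_rg_cell _ hρ _ _ hcV
  have dX := p9_rg_cell _ hρ _ _ hcX
  rw [hC] at dX hnX
  have hK := le_abs_self Ke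
  have hK0 := abs_nonneg Ke
  have hu : E.u t ≤ E.u 0 := by unfold PEnv.u; linarith
  have q1 : Ke * E.ε ^ g.b ≤ |Ke| * E.ε ^ g.b := mul_le_mul_of_nonneg_right hK pb.le
  have q2 : Ke * E.ε ^ g.a ≤ |Ke| * E.ε ^ g.a := mul_le_mul_of_nonneg_right hK pa.le
  have q3 : Ke * E.ε ^ (g.b + t) ≤ |Ke| * E.ε ^ g.b :=
    (mul_le_mul_of_nonneg_right hK pbt.le).trans (mul_le_mul_of_nonneg_left hbt hK0)
  have q4 : Ke * E.ε ^ (g.a + t) ≤ |Ke| * E.ε ^ g.a :=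
    (mul_le_mul_of_nonneg_right hK pat.le).trans (mul_le_mul_of_nonneg_left hat hK0)
  have r1 : Rn * E.rho t ≤ Rn * E.ε ^ g.a := mul_le_mul_of_nonneg_left hρa hRn
  have r2 : Rn * E.ε ^ g.a ≤ Rn * E.ε ^ g.b := mul_le_mul_of_nonneg_left hab hRn
  have m1 : 0 ≤ |Ke| * E.ε ^ g.b := mul_nonneg hK0 pb.le
  have m2 : 0 ≤ |Ke| * E.ε ^ g.a := mul_nonneg hK0 pa.le
  refine ⟨hb0, hba, (by show g.a ≤ E.L - 0; linarith), hau.trans hu, ha.symm, ⟨?_, ?_⟩, ⟨?_, ?_⟩⟩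
  · have := p9_rg_V (tang g.th) (p9_rg_tang _) a.V s'.V s.V g.vc
    show |ip (toP a.V - g.vc) (tang g.th)| ≤ (2 * |Ke| + Rn + 3) * E.ε ^ g.b
    linarith
  · have := p9_rg_V (nrm g.th) (p9_rg_nrm _) a.V s'.V s.V g.vc
    show |ip (toP a.V - g.vc) (nrm g.th)| ≤ (2 * |Ke| + Rn + 3) * E.ε ^ g.a
    linarith
  · have := p9_rg_X (tang g.th) (p9_rg_tang _) s.C hs hs1 a.V s'.V s.V a.X s'.X s.X g.vc g.xc
    show |ip (toP a.X - (g.xc - g.tc • g.vc)) (tang g.th)| ≤ (2 * |Ke| + Rn + 3) * E.ε ^ (g.b + 0)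
    rw [htc, add_zero]
    linarith
  · have := p9_rg_X (nrm g.th) (p9_rg_nrm _) s.C hs hs1 a.V s'.V s.V a.X s'.X s.X g.vc g.xc
    show |ip (toP a.X - (g.xc - g.tc • g.vc)) (nrm g.th)| ≤ (2 * |Ke| + Rn + 3) * E.ε ^ (g.a + 0)
    rw [htc, add_zero]
    linarith

/-- integer boxes -/
noncomputable def p9_zl_box (k : ℤ × ℤ) (h : ℕ) : Finset (ℤ × ℤ) :=
  Finset.Icc (k.1 - h) (k.1 + h) ×ˢ Finset.Icc (k.2 - h) (k.2 + h)

theorem p9_zl_box_card (k : ℤ × ℤ) (h : ℕ) : (p9_zl_box k h).card = (2 * h + 1) * (2 * h + 1) := by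
  unfold p9_zl_box
  rw [Finset.card_product, Int.card_Icc, Int.card_Icc]
  have h1 : (k.1 + (h : ℤ) + 1 - (k.1 - h)).toNat = 2 * h + 1 := by omega
  have h2 : (k.2 + (h : ℤ) + 1 - (k.2 - h)).toNat = 2 * h + 1 := by omega
  rw [h1, h2]

theorem p9_zl_floor (w : ℝ) (hw : 0 < w) (x y : ℝ) (h : ℕ) (hxy : |x - y| ≤ h * w) :
    ⌊x / w⌋ ∈ Finset.Icc (⌊y / w⌋ - ((h + 1 : ℕ) : ℤ)) (⌊y / w⌋ + ((h + 1 : ℕ) : ℤ)) := by
  have h1 : |x / w - y / w| ≤ h := by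
    rw [← sub_div, abs_div, abs_of_pos hw, div_le_iff₀ hw]
    exact hxy
  obtain ⟨h2, h3⟩ := abs_le.1 h1
  have a1 := Int.floor_le (x / w)
  have a2 := Int.lt_floor_add_one (x / w)
  have b1 := Int.floor_le (y / w)
  have b2 := Int.lt_floor_add_one (y / w)
  rw [Finset.mem_Icc]
  constructor
  · have : ((⌊y / w⌋ - ((h + 1 : ℕ) : ℤ) : ℤ) : ℝ) < ((⌊x / w⌋ + 1 : ℤ) : ℝ) := by
      push_cast
      linarith
    have := Int.cast_lt.1 this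
    omega
  · have : ((⌊x / w⌋ : ℤ) : ℝ) < ((⌊y / w⌋ + ((h + 1 : ℕ) : ℤ) : ℤ) : ℝ) := by
      push_cast
      linarith
    have := Int.cast_lt.1 this
    omega

theorem p9_zl_cell (w : ℝ) (hw : 0 < w) (x y : E2) (h : ℕ) (hxy : ‖x - y‖ ≤ h * w) :
    cell w x ∈ p9_zl_box (cell w y) (h + 1) := by
  have hk : ∀ k : Fin 2, |x k - y k| ≤ h * w := fun k => by
    have := PiLp.norm_apply_le (x - y) k
    rw [Real.norm_eq_abs] at this
    exact this.trans hxy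
  unfold p9_zl_box cell
  rw [Finset.mem_product]
  exact ⟨p9_zl_floor w hw _ _ h (hk 0), p9_zl_floor w hw _ _ h (hk 1)⟩

/-- L-TR-G2 -/
theorem p9_zloc (Rn : ℝ) (hRn : 0 ≤ Rn) : ∃ K₂ : ℝ, 1 ≤ K₂ ∧ ∀ (E : PEnv) (t : ℝ), 0 < E.ε →
    ∀ (a : Site) (c : ℝ), ∃ Zs : Finset (ℝ × (ℤ × ℤ) × (ℤ × ℤ)), (Zs.card : ℝ) ≤ K₂ ∧
      ∀ s : Site, s.C = c → 0 ≤ s.C → s.C ≤ 1 → P9Near E t Rn s a → p9zobs E t s ∈ Zs := by
  obtain ⟨h, hh⟩ : ∃ h : ℕ, h = ⌈Rn⌉₊ := ⟨_, rfl⟩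
  have hRh : Rn ≤ h := by
    rw [hh]
    exact Nat.le_ceil _
  refine ⟨(((2 * (h + 1) + 1) * (2 * (h + 1) + 1) * ((2 * (h + 1 + 1) + 1) * (2 * (h + 1 + 1) + 1)) : ℕ) : ℝ), ?_, ?_⟩
  · have : 1 ≤ (2 * (h + 1) + 1) * (2 * (h + 1) + 1) * ((2 * (h + 1 + 1) + 1) * (2 * (h + 1 + 1) + 1)) :=
      Nat.succ_le_of_lt (by positivity)
    exact_mod_cast this
  intro E t h0 a c
  have hρ : 0 < E.rho t := Real.rpow_pos_of_pos h0 _
  refine ⟨({c} : Finset ℝ) ×ˢ (p9_zl_box (cell (E.rho t) a.V) (h + 1) ×ˢ p9_zl_box (cell (E.rho t) a.X) (h + 1 + 1)), ?_, ?_⟩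
  · rw [Finset.card_product, Finset.card_product, p9_zl_box_card, p9_zl_box_card, Finset.card_singleton, one_mul]
  intro s hc hs0 hs1 hn
  obtain ⟨hV, hX⟩ := hn
  unfold p9zobs
  rw [Finset.mem_product, Finset.mem_product]
  refine ⟨by simp [hc], ?_, ?_⟩
  · apply p9_zl_cell _ hρ
    rw [norm_sub_rev]
    exact hV.trans (mul_le_mul_of_nonneg_right hRh hρ.le)
  · apply p9_zl_cell _ hρ
    have e : s.X - s.C • s.V - a.X = (s.X - a.X - s.C • a.V) + s.C • (a.V - s.V) := by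
      rw [smul_sub]
      abel
    show ‖s.X - s.C • s.V - a.X‖ ≤ _
    rw [e]
    refine (norm_add_le _ _).trans ?_
    rw [norm_smul, Real.norm_eq_abs, abs_of_nonneg hs0]
    have h3 : s.C * ‖a.V - s.V‖ ≤ 1 * (h * E.rho t) :=
      mul_le_mul hs1 (hV.trans (mul_le_mul_of_nonneg_right hRh hρ.le)) (norm_nonneg _) zero_le_one
    push_cast
    linarith

/-- L-TR-G3 -/
theorem p9_loc_count (B : PBd) : ∃ N : ℕ, 0 < N ∧ ∀ ε : ℝ, 0 < ε → ∃ F : Finset Loc0, F.card ≤ N ∧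
    ∀ s : Site, 0 ≤ s.C → s.C < 1 → ‖s.V‖ ≤ B.K.Rv → ‖s.X‖ ≤ B.K.Rx → loc0 ε 0 0 s ∈ F := by
  obtain ⟨h1, hh1⟩ : ∃ h : ℕ, h = ⌈B.K.Rv⌉₊ := ⟨_, rfl⟩
  obtain ⟨h2, hh2⟩ : ∃ h : ℕ, h = ⌈B.K.Rx⌉₊ := ⟨_, rfl⟩
  have hR1 : B.K.Rv ≤ h1 := by
    rw [hh1]
    exact Nat.le_ceil _
  have hR2 : B.K.Rx ≤ h2 := by
    rw [hh2]
    exact Nat.le_ceil _
  refine ⟨(2 * (h1 + 1) + 1) * (2 * (h1 + 1) + 1) * ((2 * (h2 + h1 + 1) + 1) * (2 * (h2 + h1 + 1) + 1)), by positivity, ?_⟩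
  intro ε hε
  refine ⟨({0} : Finset ℤ) ×ˢ (p9_zl_box (cell 1 0) (h1 + 1) ×ˢ p9_zl_box (cell 1 0) (h2 + h1 + 1)), ?_, ?_⟩
  · rw [Finset.card_product, Finset.card_product, p9_zl_box_card, p9_zl_box_card, Finset.card_singleton, one_mul]
  intro s hs0 hs1 hV hX
  have hfl : ⌊s.C⌋ = 0 := Int.floor_eq_zero_iff.2 ⟨hs0, hs1⟩
  unfold loc0 tanchor
  simp only [Real.rpow_zero, div_one, one_mul, hfl, Int.cast_zero, sub_zero]
  rw [Finset.mem_product, Finset.mem_product]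
  refine ⟨by simp, ?_, ?_⟩
  · apply p9_zl_cell _ one_pos
    rw [sub_zero, mul_one]
    exact hV.trans hR1
  · apply p9_zl_cell _ one_pos
    rw [sub_zero, mul_one]
    refine (norm_sub_le _ _).trans ?_
    rw [norm_smul, Real.norm_eq_abs, abs_of_nonneg hs0]
    have h3 : s.C * ‖s.V‖ ≤ 1 * (h1 : ℝ) :=
      mul_le_mul hs1.le (hV.trans hR1) (norm_nonneg _) zero_le_one
    push_cast
    linarith

/-- L-TR-G4 (a) -/
theorem p9_anchor_count (B : PBd) (hB : B.Good) (E : PEnv) (T : PTest) (hE : E.Obeys B) (hT : T.Obeys B E) :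
    ((((Finset.univ.filter T.act).image (fun j => (T.site j).C)).card : ℕ) : ℝ) ≤ 2 * B.Mu * E.ε ^ (-T.t) := by
  set A : Finset ℝ := (Finset.univ.filter T.act).image (fun j => (T.site j).C) with hA
  set δ : ℝ := E.ε ^ T.t with hδ
  have hδ0 : 0 < δ := Real.rpow_pos_of_pos hE.ε0 _
  have ht : 0 ≤ T.t := hB.tmin.le.trans hT.t0
  have hδ1 : δ ≤ 1 := Real.rpow_le_one hE.ε0.le hE.ε1.le ht
  have hinv : E.ε ^ (-T.t) = δ⁻¹ := Real.rpow_neg hE.ε0.le _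
  have hinv1 : 1 ≤ δ⁻¹ := (one_le_inv₀ hδ0).2 hδ1
  have h1 : A.card ≤ B.Mu * (A.image fun c : ℝ => ⌊c / δ⌋).card := by
    refine Finset.card_le_mul_card_image A B.Mu ?_
    intro a ha
    obtain ⟨c₀, hc₀, rfl⟩ := Finset.mem_image.1 ha
    obtain ⟨i, hi, rfl⟩ := Finset.mem_image.1 hc₀
    have hi' : T.act i := (Finset.mem_filter.1 hi).2
    refine le_trans (Finset.card_le_card ?_) (hT.multT i hi')
    intro c hc
    rw [Finset.mem_filter] at hc ⊢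
    refine ⟨hc.1, ?_⟩
    have h2 := Int.abs_sub_lt_one_of_floor_eq_floor hc.2
    rw [← sub_div, abs_div, abs_of_pos hδ0, div_lt_one hδ0] at h2
    exact h2
  have h2 : (A.image fun c : ℝ => ⌊c / δ⌋) ⊆ Finset.Icc 0 ⌊δ⁻¹⌋ := by
    intro a ha
    obtain ⟨c₀, hc₀, rfl⟩ := Finset.mem_image.1 ha
    obtain ⟨i, hi, rfl⟩ := Finset.mem_image.1 hc₀
    have hi' : T.act i := (Finset.mem_filter.1 hi).2
    obtain ⟨t0, t1⟩ := hT.time i hi'
    rw [Finset.mem_Icc]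
    refine ⟨Int.floor_nonneg.2 (div_nonneg t0 hδ0.le), Int.floor_le_floor ?_⟩
    rw [div_eq_mul_inv]
    calc (T.site i).C * δ⁻¹ ≤ 1 * δ⁻¹ := mul_le_mul_of_nonneg_right t1.le (inv_pos.2 hδ0).le
      _ = δ⁻¹ := one_mul _
  have h3 : (((A.image fun c : ℝ => ⌊c / δ⌋).card : ℕ) : ℝ) ≤ 2 * δ⁻¹ := by
    have h4 := Finset.card_le_card h2
    rw [Int.card_Icc] at h4
    have h5 : (0 : ℤ) ≤ ⌊δ⁻¹⌋ := Int.floor_nonneg.2 (inv_pos.2 hδ0).le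
    have h6 : (((⌊δ⁻¹⌋ + 1 - 0).toNat : ℕ) : ℝ) = (⌊δ⁻¹⌋ : ℝ) + 1 := by
      have : (((⌊δ⁻¹⌋ + 1 - 0).toNat : ℕ) : ℤ) = ⌊δ⁻¹⌋ + 1 := by
        rw [Int.toNat_of_nonneg (by omega)]; ring
      exact_mod_cast this
    have h7 : (((A.image fun c : ℝ => ⌊c / δ⌋).card : ℕ) : ℝ) ≤ (((⌊δ⁻¹⌋ + 1 - 0).toNat : ℕ) : ℝ) := by exact_mod_cast h4
    have h8 : (⌊δ⁻¹⌋ : ℝ) ≤ δ⁻¹ := Int.floor_le _
    linarith
  rw [hinv]
  have h9 : ((A.card : ℕ) : ℝ) ≤ (B.Mu : ℝ) * (((A.image fun c : ℝ => ⌊c / δ⌋).card : ℕ) : ℝ) := by exact_mod_cast h1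
  calc ((A.card : ℕ) : ℝ) ≤ (B.Mu : ℝ) * (((A.image fun c : ℝ => ⌊c / δ⌋).card : ℕ) : ℝ) := h9
    _ ≤ (B.Mu : ℝ) * (2 * δ⁻¹) := mul_le_mul_of_nonneg_left h3 (Nat.cast_nonneg _)
    _ = 2 * B.Mu * δ⁻¹ := by ring

/-- L-TR-G4 (b) -/
theorem p9_act_count (B : PBd) (hB : B.Good) : ∃ C : ℝ, 1 ≤ C ∧ ∀ (E : PEnv) (T : PTest), E.Obeys B → T.Obeys B E →
    ((Finset.univ.filter T.act).card : ℝ) ≤ C * E.ε ^ (-(3 * B.Hmax)) := by
  refine ⟨max 1 (2 * B.Mu * (B.Mu * ((4 * B.K.Rv + 2) ^ 2 * (4 * B.K.Rx + 2) ^ 2))), le_max_left _ _, ?_⟩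
  intro E T hE hT
  set K : ℝ := B.Mu * ((4 * B.K.Rv + 2) ^ 2 * (4 * B.K.Rx + 2) ^ 2) with hK
  have hK0 : 0 ≤ K := by positivity
  have hε0 := hE.ε0
  have ht : 0 ≤ T.t := hB.tmin.le.trans hT.t0
  have hu : 0 ≤ E.u T.t := p9_u_nonneg hT
  have hρ : 0 < E.rho T.t := Real.rpow_pos_of_pos hε0 _
  have hσ : 0 < E.sig T.t := Real.rpow_pos_of_pos hε0 _
  have hρ1 : E.rho T.t ≤ 1 := Real.rpow_le_one hε0.le hE.ε1.le hu
  have hσ1 : E.sig T.t ≤ 1 := Real.rpow_le_one hε0.le hE.ε1.le (add_nonneg hu ht)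
  have hprod : (E.rho T.t) ^ 2 * (E.sig T.t) ^ 2 = E.ε ^ (2 * E.H) := by
    unfold PEnv.rho PEnv.sig
    rw [← Real.rpow_natCast, ← Real.rpow_natCast, ← Real.rpow_mul hε0.le, ← Real.rpow_mul hε0.le, ← Real.rpow_add hε0]
    congr 1
    unfold PEnv.u
    push_cast
    ring
  -- one anchor
  have hfib : ∀ c ∈ (Finset.univ.filter T.act).image (fun j => (T.site j).C),
      ((((Finset.univ.filter T.act).filter fun j => (T.site j).C = c).card : ℕ) : ℝ) ≤ K * E.ε ^ (-(2 * E.H)) := by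
    intro c hc
    obtain ⟨i₀, hi₀, rfl⟩ := Finset.mem_image.1 hc
    have hi₀' : T.act i₀ := (Finset.mem_filter.1 hi₀).2
    have hRv : 0 ≤ B.K.Rv := (norm_nonneg _).trans (hT.vel i₀ hi₀')
    have hRx : 0 ≤ B.K.Rx := (norm_nonneg _).trans (hT.pos i₀ hi₀')
    have hp := p9_pack ((Finset.univ.filter T.act).filter fun j => (T.site j).C = (T.site i₀).C)
      (fun j => (T.site j).V) (fun j => (T.site j).X) 0 0 (E.rho T.t) (E.sig T.t) (B.K.Rv / E.rho T.t) (B.K.Rx / E.sig T.t) B.Mu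
      hρ hσ (div_nonneg hRv hρ.le) (div_nonneg hRx hσ.le)
      (fun i hi => by
        rw [sub_zero, div_mul_cancel₀ _ hρ.ne']
        exact hT.vel i (Finset.mem_filter.1 (Finset.mem_filter.1 hi).1).2)
      (fun i hi => by
        rw [sub_zero, div_mul_cancel₀ _ hσ.ne']
        exact hT.pos i (Finset.mem_filter.1 (Finset.mem_filter.1 hi).1).2)
      (fun i hi => by
        have hi1 : T.act i := (Finset.mem_filter.1 (Finset.mem_filter.1 hi).1).2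
        have hi2 : (T.site i).C = (T.site i₀).C := (Finset.mem_filter.1 hi).2
        refine le_trans (Finset.card_le_card ?_) (hT.multS i hi1)
        intro j hj
        rw [Finset.mem_filter, Finset.mem_filter, Finset.mem_filter] at hj
        rw [Finset.mem_filter]
        exact ⟨Finset.mem_univ _, hj.1.1.2, hj.1.2.trans hi2.symm, hj.2.1, hj.2.2⟩)
    refine hp.trans ?_
    have e1 : 4 * (B.K.Rv / E.rho T.t) + 2 ≤ (4 * B.K.Rv + 2) / E.rho T.t := by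
      rw [add_div, mul_div_assoc]
      have : (2 : ℝ) ≤ 2 / E.rho T.t := by
        rw [le_div_iff₀ hρ]; linarith
      linarith
    have e2 : 4 * (B.K.Rx / E.sig T.t) + 2 ≤ (4 * B.K.Rx + 2) / E.sig T.t := by
      rw [add_div, mul_div_assoc]
      have : (2 : ℝ) ≤ 2 / E.sig T.t := by
        rw [le_div_iff₀ hσ]; linarith
      linarith
    have f1 : 0 ≤ 4 * (B.K.Rv / E.rho T.t) + 2 := by positivity
    have f2 : 0 ≤ 4 * (B.K.Rx / E.sig T.t) + 2 := by positivity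
    have e3 : (4 * (B.K.Rv / E.rho T.t) + 2) ^ 2 * (4 * (B.K.Rx / E.sig T.t) + 2) ^ 2 ≤
        ((4 * B.K.Rv + 2) / E.rho T.t) ^ 2 * ((4 * B.K.Rx + 2) / E.sig T.t) ^ 2 :=
      mul_le_mul (pow_le_pow_left₀ f1 e1 2) (pow_le_pow_left₀ f2 e2 2) (by positivity) (by positivity)
    have e4 : ((4 * B.K.Rv + 2) / E.rho T.t) ^ 2 * ((4 * B.K.Rx + 2) / E.sig T.t) ^ 2 =
        ((4 * B.K.Rv + 2) ^ 2 * (4 * B.K.Rx + 2) ^ 2) * E.ε ^ (-(2 * E.H)) := by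
      rw [Real.rpow_neg hε0.le, ← hprod]
      field_simp
    calc (B.Mu : ℝ) * ((4 * (B.K.Rv / E.rho T.t) + 2) ^ 2 * (4 * (B.K.Rx / E.sig T.t) + 2) ^ 2)
        ≤ (B.Mu : ℝ) * (((4 * B.K.Rv + 2) ^ 2 * (4 * B.K.Rx + 2) ^ 2) * E.ε ^ (-(2 * E.H))) :=
          mul_le_mul_of_nonneg_left (e3.trans e4.le) (Nat.cast_nonneg _)
      _ = K * E.ε ^ (-(2 * E.H)) := by rw [hK]; ring
  have hsum : ((Finset.univ.filter T.act).card : ℝ) =
      ∑ c ∈ (Finset.univ.filter T.act).image (fun j => (T.site j).C),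
        ((((Finset.univ.filter T.act).filter fun j => (T.site j).C = c).card : ℕ) : ℝ) := by
    rw [Finset.card_eq_sum_card_image (fun j => (T.site j).C) (Finset.univ.filter T.act)]
    push_cast
    rfl
  have hanc := p9_anchor_count B hB E T hE hT
  have hpos2 : 0 ≤ K * E.ε ^ (-(2 * E.H)) := mul_nonneg hK0 (Real.rpow_nonneg hε0.le _)
  have hle : E.ε ^ (-T.t) * E.ε ^ (-(2 * E.H)) ≤ E.ε ^ (-(3 * B.Hmax)) := by
    rw [← Real.rpow_add hε0]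
    apply Real.rpow_le_rpow_of_exponent_ge hε0 hE.ε1.le
    obtain ⟨a1, a2⟩ := p9_t_le hE hT
    linarith
  calc ((Finset.univ.filter T.act).card : ℝ)
      = ∑ c ∈ (Finset.univ.filter T.act).image (fun j => (T.site j).C),
        ((((Finset.univ.filter T.act).filter fun j => (T.site j).C = c).card : ℕ) : ℝ) := hsum
    _ ≤ ∑ _c ∈ (Finset.univ.filter T.act).image (fun j => (T.site j).C), K * E.ε ^ (-(2 * E.H)) := Finset.sum_le_sum hfib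
    _ = ((((Finset.univ.filter T.act).image (fun j => (T.site j).C)).card : ℕ) : ℝ) * (K * E.ε ^ (-(2 * E.H))) := by
        rw [Finset.sum_const, nsmul_eq_mul]
    _ ≤ (2 * B.Mu * E.ε ^ (-T.t)) * (K * E.ε ^ (-(2 * E.H))) := mul_le_mul_of_nonneg_right hanc hpos2
    _ = (2 * B.Mu * K) * (E.ε ^ (-T.t) * E.ε ^ (-(2 * E.H))) := by ring
    _ ≤ (2 * B.Mu * K) * E.ε ^ (-(3 * B.Hmax)) := mul_le_mul_of_nonneg_left hle (by positivity)
    _ ≤ max 1 (2 * B.Mu * K) * E.ε ^ (-(3 * B.Hmax)) :=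
        mul_le_mul_of_nonneg_right (le_max_right _ _) (Real.rpow_nonneg hε0.le _)

/-- the input of a tested environment does not vanish -/
theorem p9_nrm2_pos {T : PTest} {B : PBd} {E : PEnv} (hE : E.Obeys B) (hT : T.Obeys B E) : 0 < E.nrm2 := by
  obtain ⟨o, ho⟩ := p9_exists_pos T.P
  have hm := hT.mpos o ho
  have hamp := hT.amp (T.O o) ⟨o, ho, rfl⟩
  have hρ : 0 < E.rho T.t := Real.rpow_pos_of_pos hE.ε0 _
  have h1 := Claimed.Agent.R255.pk_site_mass_le (M := 0) E.lam hρ E.Φ E.f hE.mem (T.site (T.O o))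
    ((Claimed.Agent.R255.pk_ampC_iff _ _ _).1 hamp 0)
  have hn : 0 ≤ E.nrm2 := integral_nonneg fun v => sq_nonneg _
  rcases hn.eq_or_lt with h | h
  · exfalso
    have h2 : (∫ v, ‖E.f v‖ ^ 2) = 0 := h.symm
    rw [h2, mul_zero] at h1
    exact absurd (lt_of_lt_of_le hm h1) (lt_irrefl _)
  · exact h

end Claimed.Agent.R255.Pkt
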